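import Mathlib

/-!
# P229, block T: iterated integrals of continuous functions on a closed rectangle   (helper97)
-/

namespace P229

open Set Real MeasureTheory intervalIntegral

noncomputable section

/-- iterated integral over `[a,b] x [c,d]`. -/
def I2 (a b c d : ℝ) (f : ℝ → ℝ → ℝ) : ℝ := ∫ p in a..b, ∫ y in c..d, f p y

/-- continuous on the closed rectangle. -/
def CR (a b c d : ℝ) (f : ℝ → ℝ → ℝ) : Prop :=
  ContinuousOn (Function.uncurry f) (Icc a b ×ˢ Icc c d)

/-- clamping -/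
def clamp (a b t : ℝ) : ℝ := max a (min b t)

theorem clamp_mem {a b : ℝ} (h : a ≤ b) (t : ℝ) : clamp a b t ∈ Icc a b :=
  ⟨le_max_left _ _, max_le h (min_le_left _ _)⟩

theorem clamp_eq {a b t : ℝ} (ht : t ∈ Icc a b) : clamp a b t = t := by
  simp [clamp, ht.1, ht.2]

theorem continuous_clamp (a b : ℝ) : Continuous (clamp a b) := by
  unfold clamp; fun_prop

theorem CR.exists_ext {a b c d : ℝ} {f : ℝ → ℝ → ℝ} (hab : a ≤ b) (hcd : c ≤ d)
    (hf : CR a b c d f) : ∃ F : ℝ → ℝ → ℝ, Continuous (Function.uncurry F) ∧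
      ∀ p ∈ Icc a b, ∀ y ∈ Icc c d, F p y = f p y := by
  refine ⟨fun p y => f (clamp a b p) (clamp c d y), ?_, ?_⟩
  · have h1 : Continuous (fun z : ℝ × ℝ => (clamp a b z.1, clamp c d z.2)) :=
      ((continuous_clamp a b).comp continuous_fst).prodMk ((continuous_clamp c d).comp continuous_snd)
    exact hf.comp_continuous h1 (fun z => ⟨clamp_mem hab _, clamp_mem hcd _⟩)
  · intro p hp y hy
    simp [clamp_eq hp, clamp_eq hy]

theorem I2_congr {a b c d : ℝ} {f g : ℝ → ℝ → ℝ} (hab : a ≤ b) (hcd : c ≤ d)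
    (h : ∀ p ∈ Icc a b, ∀ y ∈ Icc c d, f p y = g p y) : I2 a b c d f = I2 a b c d g := by
  unfold I2
  apply intervalIntegral.integral_congr
  intro p hp
  rw [uIcc_of_le hab] at hp
  apply intervalIntegral.integral_congr
  intro y hy
  rw [uIcc_of_le hcd] at hy
  exact h p hp y hy

theorem CR.inner {a b c d : ℝ} {f : ℝ → ℝ → ℝ} (hf : CR a b c d f) {p : ℝ} (hp : p ∈ Icc a b) :
    ContinuousOn (f p) (Icc c d) := by
  have h1 : ContinuousOn (fun y : ℝ => (p, y)) (Icc c d) := by fun_prop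
  have h2 := ContinuousOn.comp (g := Function.uncurry f) hf h1 (fun y hy => ⟨hp, hy⟩)
  exact h2

theorem CR.outer {a b c d : ℝ} {f : ℝ → ℝ → ℝ} (hf : CR a b c d f) {y : ℝ} (hy : y ∈ Icc c d) :
    ContinuousOn (fun p => f p y) (Icc a b) := by
  have h1 : ContinuousOn (fun p : ℝ => (p, y)) (Icc a b) := by fun_prop
  have h2 := ContinuousOn.comp (g := Function.uncurry f) hf h1 (fun p hp => ⟨hp, hy⟩)
  exact h2

theorem CR.integral_continuousOn {a b c d : ℝ} {f : ℝ → ℝ → ℝ} (hab : a ≤ b) (hcd : c ≤ d)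
    (hf : CR a b c d f) : ContinuousOn (fun p => ∫ y in c..d, f p y) (Icc a b) := by
  obtain ⟨F, hF, h⟩ := hf.exists_ext hab hcd
  have h1 : Continuous (fun p => ∫ y in c..d, F p y) :=
    intervalIntegral.continuous_parametric_intervalIntegral_of_continuous' hF c d
  apply h1.continuousOn.congr
  intro p hp
  apply intervalIntegral.integral_congr
  intro y hy
  rw [uIcc_of_le hcd] at hy
  exact (h p hp y hy).symm

theorem CR.intervalIntegrable {a b c d : ℝ} {f : ℝ → ℝ → ℝ} (hab : a ≤ b) (hcd : c ≤ d)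
    (hf : CR a b c d f) : IntervalIntegrable (fun p => ∫ y in c..d, f p y) volume a b :=
  (hf.integral_continuousOn hab hcd).intervalIntegrable_of_Icc hab

theorem CR.inner_integrable {a b c d : ℝ} {f : ℝ → ℝ → ℝ} (hcd : c ≤ d)
    (hf : CR a b c d f) {p : ℝ} (hp : p ∈ Icc a b) : IntervalIntegrable (f p) volume c d :=
  (hf.inner hp).intervalIntegrable_of_Icc hcd

theorem CR.add {a b c d : ℝ} {f g : ℝ → ℝ → ℝ} (hf : CR a b c d f) (hg : CR a b c d g) :
    CR a b c d (fun p y => f p y + g p y) := ContinuousOn.add hf hg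
theorem CR.sub {a b c d : ℝ} {f g : ℝ → ℝ → ℝ} (hf : CR a b c d f) (hg : CR a b c d g) :
    CR a b c d (fun p y => f p y - g p y) := ContinuousOn.sub hf hg
theorem CR.mul {a b c d : ℝ} {f g : ℝ → ℝ → ℝ} (hf : CR a b c d f) (hg : CR a b c d g) :
    CR a b c d (fun p y => f p y * g p y) := ContinuousOn.mul hf hg
theorem CR.neg {a b c d : ℝ} {f : ℝ → ℝ → ℝ} (hf : CR a b c d f) :
    CR a b c d (fun p y => -f p y) := ContinuousOn.neg hf
theorem CR.const (a b c d k : ℝ) : CR a b c d (fun _ _ => k) := continuousOn_const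
theorem CR.ofP {a b c d : ℝ} {z : ℝ → ℝ} (hz : ContinuousOn z (Icc a b)) :
    CR a b c d (fun p _ => z p) :=
  ContinuousOn.comp hz continuousOn_fst (fun _ hq => hq.1)
theorem CR.ofY {a b c d : ℝ} {z : ℝ → ℝ} (hz : ContinuousOn z (Icc c d)) :
    CR a b c d (fun _ y => z y) :=
  ContinuousOn.comp hz continuousOn_snd (fun _ hq => hq.2)
theorem CR.pow {a b c d : ℝ} {f : ℝ → ℝ → ℝ} (hf : CR a b c d f) (n : ℕ) :
    CR a b c d (fun p y => f p y ^ n) := ContinuousOn.pow hf n
theorem CR.abs {a b c d : ℝ} {f : ℝ → ℝ → ℝ} (hf : CR a b c d f) :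
    CR a b c d (fun p y => |f p y|) := ContinuousOn.abs hf
theorem CR.mono {a b c d a' b' c' d' : ℝ} {f : ℝ → ℝ → ℝ} (hf : CR a b c d f)
    (h1 : a ≤ a') (h2 : b' ≤ b) (h3 : c ≤ c') (h4 : d' ≤ d) : CR a' b' c' d' f :=
  ContinuousOn.mono hf (Set.prod_mono (Icc_subset_Icc h1 h2) (Icc_subset_Icc h3 h4))

theorem I2_add {a b c d : ℝ} {f g : ℝ → ℝ → ℝ} (hab : a ≤ b) (hcd : c ≤ d)
    (hf : CR a b c d f) (hg : CR a b c d g) :
    I2 a b c d (fun p y => f p y + g p y) = I2 a b c d f + I2 a b c d g := by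
  unfold I2
  rw [← intervalIntegral.integral_add (hf.intervalIntegrable hab hcd)
    (hg.intervalIntegrable hab hcd)]
  apply intervalIntegral.integral_congr
  intro p hp
  rw [uIcc_of_le hab] at hp
  exact intervalIntegral.integral_add (hf.inner_integrable hcd hp) (hg.inner_integrable hcd hp)

theorem I2_sub {a b c d : ℝ} {f g : ℝ → ℝ → ℝ} (hab : a ≤ b) (hcd : c ≤ d)
    (hf : CR a b c d f) (hg : CR a b c d g) :
    I2 a b c d (fun p y => f p y - g p y) = I2 a b c d f - I2 a b c d g := by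
  unfold I2
  rw [← intervalIntegral.integral_sub (hf.intervalIntegrable hab hcd)
    (hg.intervalIntegrable hab hcd)]
  apply intervalIntegral.integral_congr
  intro p hp
  rw [uIcc_of_le hab] at hp
  exact intervalIntegral.integral_sub (hf.inner_integrable hcd hp) (hg.inner_integrable hcd hp)

theorem I2_const_mul (a b c d k : ℝ) (f : ℝ → ℝ → ℝ) :
    I2 a b c d (fun p y => k * f p y) = k * I2 a b c d f := by
  unfold I2
  simp_rw [intervalIntegral.integral_const_mul]

theorem I2_neg (a b c d : ℝ) (f : ℝ → ℝ → ℝ) :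
    I2 a b c d (fun p y => - f p y) = - I2 a b c d f := by
  unfold I2
  simp_rw [intervalIntegral.integral_neg]

theorem I2_mono {a b c d : ℝ} {f g : ℝ → ℝ → ℝ} (hab : a ≤ b) (hcd : c ≤ d)
    (hf : CR a b c d f) (hg : CR a b c d g)
    (h : ∀ p ∈ Icc a b, ∀ y ∈ Icc c d, f p y ≤ g p y) : I2 a b c d f ≤ I2 a b c d g := by
  unfold I2
  apply intervalIntegral.integral_mono_on hab (hf.intervalIntegrable hab hcd)
    (hg.intervalIntegrable hab hcd)
  intro p hp
  exact intervalIntegral.integral_mono_on hcd (hf.inner_integrable hcd hp)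
    (hg.inner_integrable hcd hp) (fun y hy => h p hp y hy)

theorem I2_nonneg {a b c d : ℝ} {f : ℝ → ℝ → ℝ} (hab : a ≤ b) (hcd : c ≤ d)
    (h : ∀ p ∈ Icc a b, ∀ y ∈ Icc c d, 0 ≤ f p y) : 0 ≤ I2 a b c d f := by
  unfold I2
  apply intervalIntegral.integral_nonneg hab
  intro p hp
  exact intervalIntegral.integral_nonneg hcd (fun y hy => h p hp y hy)

theorem I2_abs_le {a b c d : ℝ} {f g : ℝ → ℝ → ℝ} (hab : a ≤ b) (hcd : c ≤ d)
    (hf : CR a b c d f) (hg : CR a b c d g)
    (h : ∀ p ∈ Icc a b, ∀ y ∈ Icc c d, |f p y| ≤ g p y) : |I2 a b c d f| ≤ I2 a b c d g := by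
  rw [abs_le]
  constructor
  · rw [← I2_neg]
    exact I2_mono hab hcd hg.neg hf (fun p hp y hy => (abs_le.1 (h p hp y hy)).1)
  · exact I2_mono hab hcd hf hg (fun p hp y hy => (abs_le.1 (h p hp y hy)).2)

/-- splitting in `y`. -/
theorem I2_split_y {a b c m d : ℝ} {f : ℝ → ℝ → ℝ} (hab : a ≤ b) (hcm : c ≤ m) (hmd : m ≤ d)
    (hf : CR a b c d f) : I2 a b c d f = I2 a b c m f + I2 a b m d f := by
  unfold I2
  have h1 : CR a b c m f := hf.mono le_rfl le_rfl le_rfl hmd
  have h2 : CR a b m d f := hf.mono le_rfl le_rfl hcm le_rfl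
  rw [← intervalIntegral.integral_add (h1.intervalIntegrable hab hcm)
    (h2.intervalIntegrable hab hmd)]
  apply intervalIntegral.integral_congr
  intro p hp
  rw [uIcc_of_le hab] at hp
  exact (intervalIntegral.integral_add_adjacent_intervals (h1.inner_integrable hcm hp)
    (h2.inner_integrable hmd hp)).symm

/-- splitting in `p`. -/
theorem I2_split_p {a m b c d : ℝ} {f : ℝ → ℝ → ℝ} (ham : a ≤ m) (hmb : m ≤ b) (hcd : c ≤ d)
    (hf : CR a b c d f) : I2 a b c d f = I2 a m c d f + I2 m b c d f := by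
  unfold I2
  have h1 : CR a m c d f := hf.mono le_rfl hmb le_rfl le_rfl
  have h2 : CR m b c d f := hf.mono ham le_rfl le_rfl le_rfl
  exact (intervalIntegral.integral_add_adjacent_intervals (h1.intervalIntegrable ham hcd)
    (h2.intervalIntegrable hmb hcd)).symm

theorem I2_swap {a b c d : ℝ} {f : ℝ → ℝ → ℝ} (hab : a ≤ b) (hcd : c ≤ d)
    (hf : CR a b c d f) : I2 a b c d f = ∫ y in c..d, ∫ p in a..b, f p y := by
  obtain ⟨F, hF, h⟩ := hf.exists_ext hab hcd
  have h1 : I2 a b c d f = I2 a b c d F :=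
    I2_congr hab hcd (fun p hp y hy => (h p hp y hy).symm)
  have h2 : (∫ y in c..d, ∫ p in a..b, f p y) = ∫ y in c..d, ∫ p in a..b, F p y := by
    apply intervalIntegral.integral_congr
    intro y hy
    rw [uIcc_of_le hcd] at hy
    apply intervalIntegral.integral_congr
    intro p hp
    rw [uIcc_of_le hab] at hp
    exact (h p hp y hy).symm
  rw [h1, h2]
  unfold I2
  simp_rw [intervalIntegral.integral_of_le hab, intervalIntegral.integral_of_le hcd]
  apply MeasureTheory.integral_integral_swap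
  rw [Measure.prod_restrict]
  have : IntegrableOn (Function.uncurry F) (Icc a b ×ˢ Icc c d) :=
    hF.continuousOn.integrableOn_compact (isCompact_Icc.prod isCompact_Icc)
  exact this.mono_set (Set.prod_mono Ioc_subset_Icc_self Ioc_subset_Icc_self)

/-- integrating a `p`-derivative. -/
theorem I2_dp {a b c d : ℝ} {f fp : ℝ → ℝ → ℝ} (hab : a ≤ b) (hcd : c ≤ d)
    (hf : CR a b c d f) (hfp : CR a b c d fp)
    (h : ∀ p ∈ Ioo a b, ∀ y ∈ Icc c d, HasDerivAt (fun t => f t y) (fp p y) p) :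
    I2 a b c d fp = (∫ y in c..d, f b y) - ∫ y in c..d, f a y := by
  rw [I2_swap hab hcd hfp]
  have hb : IntervalIntegrable (fun y => f b y) volume c d :=
    hf.inner_integrable hcd (right_mem_Icc.2 hab)
  have ha : IntervalIntegrable (fun y => f a y) volume c d :=
    hf.inner_integrable hcd (left_mem_Icc.2 hab)
  rw [← intervalIntegral.integral_sub hb ha]
  apply intervalIntegral.integral_congr
  intro y hy
  rw [uIcc_of_le hcd] at hy
  exact intervalIntegral.integral_eq_sub_of_hasDerivAt_of_le hab (hf.outer hy)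
    (fun p hp => h p hp y hy) ((hfp.outer hy).intervalIntegrable_of_Icc hab)

/-- integrating a `y`-derivative. -/
theorem I2_dy {a b c d : ℝ} {f fy : ℝ → ℝ → ℝ} (hab : a ≤ b) (hcd : c ≤ d)
    (hf : CR a b c d f) (hfy : CR a b c d fy)
    (h : ∀ p ∈ Icc a b, ∀ y ∈ Ioo c d, HasDerivAt (fun t => f p t) (fy p y) y) :
    I2 a b c d fy = (∫ p in a..b, f p d) - ∫ p in a..b, f p c := by
  unfold I2
  have hb : IntervalIntegrable (fun p => f p d) volume a b :=
    (hf.outer (right_mem_Icc.2 hcd)).intervalIntegrable_of_Icc hab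
  have ha : IntervalIntegrable (fun p => f p c) volume a b :=
    (hf.outer (left_mem_Icc.2 hcd)).intervalIntegrable_of_Icc hab
  rw [← intervalIntegral.integral_sub hb ha]
  apply intervalIntegral.integral_congr
  intro p hp
  rw [uIcc_of_le hab] at hp
  exact intervalIntegral.integral_eq_sub_of_hasDerivAt_of_le hcd (hf.inner hp)
    (fun y hy => h p hp y hy) (hfy.inner_integrable hcd hp)

/-- monotonicity in the rectangle, nonnegative integrand. -/
theorem I2_mono_rect {a b c d a' b' c' d' : ℝ} {f : ℝ → ℝ → ℝ} (hf : CR a b c d f)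
    (h1 : a ≤ a') (h2 : a' ≤ b') (h3 : b' ≤ b) (h4 : c ≤ c') (h5 : c' ≤ d') (h6 : d' ≤ d)
    (h : ∀ p ∈ Icc a b, ∀ y ∈ Icc c d, 0 ≤ f p y) : I2 a' b' c' d' f ≤ I2 a b c d f := by
  have hcd : c ≤ d := h4.trans (h5.trans h6)
  have e1 := I2_split_p (m := a') h1 (h2.trans h3) hcd hf
  have e2 := I2_split_p (m := b') h2 h3 hcd (hf.mono h1 le_rfl le_rfl le_rfl)
  have hf' : CR a' b' c d f := hf.mono h1 h3 le_rfl le_rfl
  have e3 := I2_split_y (m := c') h2 h4 (h5.trans h6) hf'
  have e4 := I2_split_y (m := d') h2 h5 h6 (hf'.mono le_rfl le_rfl h4 le_rfl)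
  have n1 : 0 ≤ I2 a a' c d f := I2_nonneg h1 hcd
    (fun p hp y hy => h p ⟨hp.1, hp.2.trans (h2.trans h3)⟩ y hy)
  have n2 : 0 ≤ I2 b' b c d f := I2_nonneg h3 hcd
    (fun p hp y hy => h p ⟨(h1.trans h2).trans hp.1, hp.2⟩ y hy)
  have n3 : 0 ≤ I2 a' b' c c' f := I2_nonneg h2 h4
    (fun p hp y hy => h p ⟨h1.trans hp.1, hp.2.trans h3⟩ y ⟨hy.1, hy.2.trans (h5.trans h6)⟩)
  have n4 : 0 ≤ I2 a' b' d' d f := I2_nonneg h2 h6
    (fun p hp y hy => h p ⟨h1.trans hp.1, hp.2.trans h3⟩ y ⟨(h4.trans h5).trans hy.1, hy.2⟩)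
  linarith

/-- Cauchy-Schwarz. -/
theorem I2_cs {a b c d : ℝ} {f g : ℝ → ℝ → ℝ} (hab : a ≤ b) (hcd : c ≤ d)
    (hf : CR a b c d f) (hg : CR a b c d g) :
    (I2 a b c d (fun p y => f p y * g p y)) ^ 2
      ≤ I2 a b c d (fun p y => f p y ^ 2) * I2 a b c d (fun p y => g p y ^ 2) := by
  set A := I2 a b c d (fun p y => f p y ^ 2)
  set B := I2 a b c d (fun p y => g p y ^ 2)
  set C := I2 a b c d (fun p y => f p y * g p y)
  have key : ∀ t : ℝ, 0 ≤ A * (t * t) + (2 * C) * t + B := by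
    intro t
    have h0 : 0 ≤ I2 a b c d (fun p y => (t * f p y + g p y) ^ 2) :=
      I2_nonneg hab hcd (fun p _ y _ => sq_nonneg _)
    have h1 : I2 a b c d (fun p y => (t * f p y + g p y) ^ 2)
        = I2 a b c d (fun p y => ((t * t) * (f p y ^ 2) + (2 * t) * (f p y * g p y)) + g p y ^ 2) :=
      I2_congr hab hcd (fun p _ y _ => by ring)
    rw [h1, I2_add hab hcd (((CR.const a b c d _).mul (hf.pow 2)).add
      ((CR.const a b c d _).mul (hf.mul hg))) (hg.pow 2),
      I2_add hab hcd ((CR.const a b c d _).mul (hf.pow 2)) ((CR.const a b c d _).mul (hf.mul hg)),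
      I2_const_mul, I2_const_mul] at h0
    have : A * (t * t) + (2 * C) * t + B = t * t * A + 2 * t * C + B := by ring
    rw [this]; exact h0
  have h2 := discrim_le_zero key
  unfold discrim at h2
  nlinarith

/-- Poincare type: `v` vanishes on the top side. -/
theorem sq_le_of_zero_right {c d : ℝ} {v vy : ℝ → ℝ} (hcd : c ≤ d)
    (hv : ContinuousOn v (Icc c d)) (hvy : ContinuousOn vy (Icc c d))
    (h : ∀ y ∈ Ioo c d, HasDerivAt v (vy y) y) (h0 : v d = 0) {y : ℝ} (hy : y ∈ Icc c d) :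
    (v y) ^ 2 ≤ (d - c) * ∫ t in c..d, (vy t) ^ 2 := by
  have e1 : ∫ t in y..d, vy t = v d - v y :=
    intervalIntegral.integral_eq_sub_of_hasDerivAt_of_le hy.2
      (hv.mono (Icc_subset_Icc hy.1 le_rfl))
      (fun t ht => h t ⟨lt_of_le_of_lt hy.1 ht.1, ht.2⟩)
      ((hvy.mono (Icc_subset_Icc hy.1 le_rfl)).intervalIntegrable_of_Icc hy.2)
  have hI : IntervalIntegrable vy volume y d :=
    (hvy.mono (Icc_subset_Icc hy.1 le_rfl)).intervalIntegrable_of_Icc hy.2
  have hI2 : IntervalIntegrable (fun t => vy t ^ 2) volume y d :=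
    ((hvy.pow 2).mono (Icc_subset_Icc hy.1 le_rfl)).intervalIntegrable_of_Icc hy.2
  have key : ∀ t : ℝ, 0 ≤ (∫ x in y..d, vy x ^ 2) * (t * t) + (2 * ∫ x in y..d, vy x) * t
      + (d - y) := by
    intro t
    have h0 : 0 ≤ ∫ x in y..d, (t * vy x + 1) ^ 2 :=
      intervalIntegral.integral_nonneg hy.2 (fun x _ => sq_nonneg _)
    have h1 : ∫ x in y..d, (t * vy x + 1) ^ 2
        = ∫ x in y..d, ((t * t) * vy x ^ 2 + (2 * t) * vy x) + 1 := by
      apply intervalIntegral.integral_congr; intro x _; ring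
    rw [h1, intervalIntegral.integral_add ((hI2.const_mul _).add (hI.const_mul _))
      intervalIntegrable_const, intervalIntegral.integral_add (hI2.const_mul _) (hI.const_mul _),
      intervalIntegral.integral_const_mul, intervalIntegral.integral_const_mul,
      intervalIntegral.integral_const] at h0
    simp only [smul_eq_mul, mul_one] at h0
    linarith
  have h2 := discrim_le_zero key
  unfold discrim at h2
  rw [e1, h0] at h2
  have h3 : (v y) ^ 2 ≤ (d - y) * ∫ t in y..d, (vy t) ^ 2 := by nlinarith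
  have h4 : ∫ t in y..d, (vy t) ^ 2 ≤ ∫ t in c..d, (vy t) ^ 2 := by
    have hIc : IntervalIntegrable (fun t => vy t ^ 2) volume c y :=
      ((hvy.pow 2).mono (Icc_subset_Icc le_rfl hy.2)).intervalIntegrable_of_Icc hy.1
    rw [← intervalIntegral.integral_add_adjacent_intervals hIc hI2]
    have : 0 ≤ ∫ t in c..y, (vy t) ^ 2 :=
      intervalIntegral.integral_nonneg hy.1 (fun x _ => sq_nonneg _)
    linarith
  have h5 : 0 ≤ ∫ t in y..d, (vy t) ^ 2 :=
    intervalIntegral.integral_nonneg hy.2 (fun x _ => sq_nonneg _)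
  calc (v y) ^ 2 ≤ (d - y) * ∫ t in y..d, (vy t) ^ 2 := h3
    _ ≤ (d - c) * ∫ t in y..d, (vy t) ^ 2 := by
        apply mul_le_mul_of_nonneg_right _ h5; linarith [hy.1]
    _ ≤ (d - c) * ∫ t in c..d, (vy t) ^ 2 := by
        apply mul_le_mul_of_nonneg_left h4; linarith

end

end P229
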