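import Vale.Agent.P229.T.LinSz

/-!
# P229 block T: size bounds of the coefficients (module LIN_BD1, helper23)
-/

namespace P229

open Set Real
open scoped ContDiff

noncomputable section

private theorem bd1_mul {a b A B : ℝ} (ha : |a| ≤ A) (hb : |b| ≤ B) : |a * b| ≤ A * B := by
  rw [abs_mul]
  exact mul_le_mul ha hb (abs_nonneg _) ((abs_nonneg _).trans ha)

private theorem bd1_add {a b A B : ℝ} (ha : |a| ≤ A) (hb : |b| ≤ B) : |a + b| ≤ A + B :=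
  (abs_add_le a b).trans (add_le_add ha hb)

private theorem bd1_sub {a b A B : ℝ} (ha : |a| ≤ A) (hb : |b| ≤ B) : |a - b| ≤ A + B :=
  (abs_sub a b).trans (add_le_add ha hb)

private theorem bd1_abs {a b c : ℝ} (h : |a - b| ≤ c) : |a| ≤ |b| + c := by
  have := abs_add_le (a - b) b
  rw [sub_add_cancel] at this
  linarith

private theorem bd1_t {r m t C1 C2 : ℝ} (hm0 : 0 ≤ m) (hC1 : 1 ≤ C1) (hC2 : 1 ≤ C2)
    (s5 : |t| ≤ C1 * r ^ 2 * m) : |t| ≤ (200 * C1 ^ 2 + 10 * C2) * r ^ 2 * m := by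
  have hrm : 0 ≤ r ^ 2 * m := mul_nonneg (sq_nonneg r) hm0
  refine s5.trans ?_
  have : C1 * (r ^ 2 * m) ≤ (200 * C1 ^ 2 + 10 * C2) * (r ^ 2 * m) :=
    mul_le_mul_of_nonneg_right (by nlinarith) hrm
  calc C1 * r ^ 2 * m = C1 * (r ^ 2 * m) := by ring
    _ ≤ _ := this
    _ = _ := by ring

private theorem bd1_tp {r m bxx w q bx qp C1 C2 : ℝ} (hm0 : 0 ≤ m) (hC1 : 1 ≤ C1) (hC2 : 1 ≤ C2)
    (b2 : |bx| ≤ 3 * m) (b3 : |bxx| ≤ 5 / 4 * m) (hw : |w| ≤ 51 / 50) (s4 : |q| ≤ C1)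
    (s6 : |qp| ≤ C1) :
    |r ^ 2 * (bxx * w * q + bx * qp)| ≤ (200 * C1 ^ 2 + 10 * C2) * r ^ 2 * m := by
  have hrm : 0 ≤ r ^ 2 * m := mul_nonneg (sq_nonneg r) hm0
  have hr2' : |r ^ 2| ≤ r ^ 2 := (abs_of_nonneg (sq_nonneg r)).le
  refine (bd1_mul hr2' (bd1_add (bd1_mul (bd1_mul b3 hw) s4) (bd1_mul b2 s6))).trans ?_
  have : (171 / 40 * C1) * (r ^ 2 * m) ≤ (200 * C1 ^ 2 + 10 * C2) * (r ^ 2 * m) :=
    mul_le_mul_of_nonneg_right (by nlinarith) hrm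
  calc r ^ 2 * (5 / 4 * m * (51 / 50) * C1 + 3 * m * C1) = (171 / 40 * C1) * (r ^ 2 * m) := by
        ring
    _ ≤ _ := this
    _ = _ := by ring

private theorem bd1_d {r m B bxx p q qp bx qy t C1 C2 : ℝ} (hm0 : 0 ≤ m) (hm1 : m ≤ 1)
    (hr2 : r ^ 2 ≤ 1)
    (hC1 : 1 ≤ C1) (hC2 : 1 ≤ C2) (hB : |B| ≤ 11 / 10) (hp' : |p| ≤ 7 / 5)
    (b2 : |bx| ≤ 3 * m) (b3 : |bxx| ≤ 5 / 4 * m) (s4 : |q| ≤ C1)
    (s5 : |t| ≤ C1 * r ^ 2 * m) (s6 : |qp| ≤ C1) (s7 : |qy| ≤ C1) :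
    |-(r ^ 2 * (3 * B * bxx * (p + q * qp) + bx * (qy + t * qp) + r ^ 2 * p * bx ^ 2))|
      ≤ (200 * C1 ^ 2 + 10 * C2) * r ^ 2 * m := by
  have hrm : 0 ≤ r ^ 2 * m := mul_nonneg (sq_nonneg r) hm0
  have hr2' : |r ^ 2| ≤ r ^ 2 := (abs_of_nonneg (sq_nonneg r)).le
  rw [abs_neg]
  have h3 : |(3 : ℝ) * B| ≤ 33 / 10 := by
    rw [abs_mul, abs_of_pos (by norm_num : (0 : ℝ) < 3)]; linarith
  have ht : |t| ≤ C1 := by
    refine s5.trans ?_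
    have : r ^ 2 * m ≤ 1 := mul_le_one₀ hr2 hm0 hm1
    nlinarith
  have hbx2 : |bx ^ 2| ≤ 9 * m := by
    rw [abs_pow]
    have : |bx| ^ 2 ≤ (3 * m) ^ 2 := pow_le_pow_left₀ (abs_nonneg _) b2 2
    nlinarith
  have hr2p : |r ^ 2 * p| ≤ 7 / 5 := by
    refine (bd1_mul hr2' hp').trans ?_
    nlinarith
  refine (bd1_mul hr2' (bd1_add (bd1_add
    (bd1_mul (bd1_mul h3 b3) (bd1_add hp' (bd1_mul s4 s6)))
    (bd1_mul b2 (bd1_add s7 (bd1_mul ht s6)))) (bd1_mul hr2p hbx2))).trans ?_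
  have : (33 / 8 * (7 / 5 + C1 * C1) + 3 * (C1 + C1 * C1) + 63 / 5) * (r ^ 2 * m)
      ≤ (200 * C1 ^ 2 + 10 * C2) * (r ^ 2 * m) :=
    mul_le_mul_of_nonneg_right (by nlinarith) hrm
  calc r ^ 2 * (33 / 10 * (5 / 4 * m) * (7 / 5 + C1 * C1) + 3 * m * (C1 + C1 * C1)
        + 7 / 5 * (9 * m))
      = (33 / 8 * (7 / 5 + C1 * C1) + 3 * (C1 + C1 * C1) + 63 / 5) * (r ^ 2 * m) := by ring
    _ ≤ _ := this
    _ = _ := by ring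

private theorem bd1_g {r m ε B bxx q qp bx w by' C1 C2 : ℝ} (hm0 : 0 ≤ m) (hme : m ≤ ε)
    (hC1 : 1 ≤ C1) (hC2 : 1 ≤ C2) (hB9 : 9 / 10 ≤ B)
    (b2 : |bx| ≤ 3 * m) (b3 : |bxx| ≤ 5 / 4 * m) (s4 : |q| ≤ C1) (s6 : |qp| ≤ C1)
    (hw : |w| ≤ 51 / 50) (b5 : by' ^ 2 ≤ C2 * (ε * m)) :
    (r ^ 2 * (2 * bx * qp - 2 * q * bxx * w - by' / B)) ^ 2
      ≤ (200 * C1 ^ 2 + 10 * C2) * r ^ 4 * ε * m := by
  have hA : |2 * bx * qp - 2 * q * bxx * w| ≤ 9 * C1 * m := by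
    have h2 : |(2 : ℝ)| ≤ 2 := by rw [abs_of_pos (by norm_num : (0 : ℝ) < 2)]
    refine (bd1_sub (bd1_mul (bd1_mul h2 b2) s6)
      (bd1_mul (bd1_mul (bd1_mul h2 s4) b3) hw)).trans ?_
    have : 0 ≤ C1 * m := by positivity
    nlinarith
  have hA2 : (2 * bx * qp - 2 * q * bxx * w) ^ 2 ≤ 81 * C1 ^ 2 * (ε * m) := by
    rw [← sq_abs]
    have h1 : |2 * bx * qp - 2 * q * bxx * w| ^ 2 ≤ (9 * C1 * m) ^ 2 :=
      pow_le_pow_left₀ (abs_nonneg _) hA 2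
    refine h1.trans ?_
    have h2 : m * m ≤ ε * m := mul_le_mul_of_nonneg_right hme hm0
    have h3 : 81 * C1 ^ 2 * (m * m) ≤ 81 * C1 ^ 2 * (ε * m) :=
      mul_le_mul_of_nonneg_left h2 (by positivity)
    calc (9 * C1 * m) ^ 2 = 81 * C1 ^ 2 * (m * m) := by ring
      _ ≤ _ := h3
  have h0 : 0 ≤ ε * m := mul_nonneg (hm0.trans hme) hm0
  have hD2 : (by' / B) ^ 2 ≤ 2 * C2 * (ε * m) := by
    rw [div_pow, div_le_iff₀ (by positivity)]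
    have hB2 : 81 / 100 ≤ B ^ 2 := by nlinarith
    have h0 : 0 ≤ C2 * (ε * m) := (sq_nonneg _).trans b5
    nlinarith
  have h1 : (2 * bx * qp - 2 * q * bxx * w - by' / B) ^ 2
      ≤ 2 * (2 * bx * qp - 2 * q * bxx * w) ^ 2 + 2 * (by' / B) ^ 2 := by
    nlinarith [sq_nonneg ((2 * bx * qp - 2 * q * bxx * w) + by' / B)]
  have h2 := mul_nonneg (sq_nonneg C1) h0
  have h3 := mul_nonneg (by linarith : (0 : ℝ) ≤ C2) h0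
  have hsum : (2 * bx * qp - 2 * q * bxx * w - by' / B) ^ 2
      ≤ (200 * C1 ^ 2 + 10 * C2) * (ε * m) := by
    nlinarith
  calc (r ^ 2 * (2 * bx * qp - 2 * q * bxx * w - by' / B)) ^ 2
      = r ^ 4 * (2 * bx * qp - 2 * q * bxx * w - by' / B) ^ 2 := by ring
    _ ≤ r ^ 4 * ((200 * C1 ^ 2 + 10 * C2) * (ε * m)) :=
      mul_le_mul_of_nonneg_left hsum (by positivity)
    _ = _ := by ring

private theorem bd1_a {r m mu C B vp bxx C1 : ℝ} (hr : 0 < r) (hr1 : r < 1) (hm0 : 0 ≤ m)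
    (hC : 1 ≤ C) (hC1 : 1 ≤ C1) (hmu1 : 1 / C ≤ mu) (hrc : r < 9 / 20 / (C1 * C))
    (hB : |B| ≤ 11 / 10) (b3 : |bxx| ≤ 5 / 4 * m) (s8 : |vp - mu| ≤ C1 * r ^ 2) :
    |B * vp * bxx| ≤ 2 * mu * m := by
  have hmu0 : 0 < mu := lt_of_lt_of_le (by positivity) hmu1
  have hCC : 0 < C1 * C := by positivity
  have hvp : |vp| ≤ 29 / 20 * mu := by
    have h1 := bd1_abs s8
    rw [abs_of_pos hmu0] at h1
    have h2 : C1 * r ^ 2 ≤ 9 / 20 * mu := by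
      have h3 : C1 * C * r ≤ 9 / 20 := by
        rw [lt_div_iff₀ hCC] at hrc
        linarith
      have h4 : C1 * r ≤ 9 / 20 * (1 / C) := by
        rw [mul_one_div, le_div_iff₀ (by linarith)]
        linarith
      have h5 : C1 * r ^ 2 ≤ C1 * r := by
        have : r ^ 2 ≤ r := by nlinarith
        exact mul_le_mul_of_nonneg_left this (by linarith)
      have h6 : 9 / 20 * (1 / C) ≤ 9 / 20 * mu := by linarith
      linarith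
    linarith
  refine (bd1_mul (bd1_mul hB hvp) b3).trans ?_
  have : 0 ≤ mu * m := mul_nonneg hmu0.le hm0
  nlinarith

/-- (LIN_BD1) size bounds. -/
theorem coefOf_bd1 (C : ℝ) (k b : ℕ) (hC : 1 ≤ C) (hk : 10 ≤ k) :
    ∃ C' r0 : ℝ, 1 ≤ C' ∧ 0 < r0 ∧ ∀ r : ℝ, 0 < r → r < r0 → ∀ (mu : ℝ)
      (u : ℝ → ℝ → ℝ) (J : J2), 1 / C ≤ mu → mu ≤ C → GoodJ ⟨r, k, b⟩ C u J →
      ∀ p ∈ Icc (-(7 / 5) : ℝ) (7 / 5), ∀ y ∈ Icc (-YY) YY,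
        |(coefOf ⟨r, k, b⟩ mu J).t p y| ≤ C' * r ^ 2 * md ⟨r, k, b⟩ y ∧
        |(coefOf ⟨r, k, b⟩ mu J).tp p y| ≤ C' * r ^ 2 * md ⟨r, k, b⟩ y ∧
        |(coefOf ⟨r, k, b⟩ mu J).d p y| ≤ C' * r ^ 2 * md ⟨r, k, b⟩ y ∧
        (coefOf ⟨r, k, b⟩ mu J).g p y ^ 2
          ≤ C' * r ^ 4 * (Par.mk r k b).eps * md ⟨r, k, b⟩ y ∧
        |(coefOf ⟨r, k, b⟩ mu J).a p y| ≤ 2 * mu * md ⟨r, k, b⟩ y := by
  obtain ⟨C1, r1, hC1, hr1, H1⟩ := goodJ_size C k b hC hk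
  obtain ⟨C2, hC2, H2⟩ := b0_size k b
  have hCC : 0 < C1 * C := by positivity
  refine ⟨200 * C1 ^ 2 + 10 * C2, min (min r1 1) (9 / 20 / (C1 * C)), by nlinarith,
    by positivity, ?_⟩
  intro r hr hrr mu u J hmu1 hmu2 hJ p hp y hy
  have hra : r < r1 := hrr.trans_le ((min_le_left _ _).trans (min_le_left _ _))
  have hrb : r < 1 := hrr.trans_le ((min_le_left _ _).trans (min_le_right _ _))
  have hrc : r < 9 / 20 / (C1 * C) := hrr.trans_le (min_le_right _ _)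
  obtain ⟨s1, s2, s3, s4, s5, s6, s7, s8⟩ := H1 r hr hra mu u J hmu1 hmu2 hJ p hp y hy
  obtain ⟨b1, b2, b3, b4, b5, b6, b7⟩ := H2 r hr hrb.le (J.wp p y) y (s1.trans (by norm_num))
  have hw : |J.wpp p y| ≤ 51 / 50 := by
    have := bd1_abs (hJ.hpp p hp y hy)
    rw [abs_one] at this
    linarith
  have hp' : |p| ≤ 7 / 5 := abs_le.2 hp
  have hB : |cB ⟨r, k, b⟩ J p y| ≤ 11 / 10 := by
    have := bd1_abs s3
    rw [abs_one] at this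
    linarith
  have hB9 : 9 / 10 ≤ cB ⟨r, k, b⟩ J p y := by
    have := (abs_le.1 s3).1
    linarith
  have hm0 : 0 ≤ md ⟨r, k, b⟩ y := md_nonneg _ hr y
  have hme : md ⟨r, k, b⟩ y ≤ (Par.mk r k b).eps := md_le_eps _ hr hrb.le y
  have hm1 : md ⟨r, k, b⟩ y ≤ 1 := hme.trans (pow_le_one₀ hr.le hrb.le)
  have hr2 : r ^ 2 ≤ 1 := pow_le_one₀ hr.le hrb.le
  exact ⟨bd1_t hm0 hC1 hC2 s5, bd1_tp hm0 hC1 hC2 b2 b3 hw s4 s6,
    bd1_d hm0 hm1 hr2 hC1 hC2 hB hp' b2 b3 s4 s5 s6 s7,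
    bd1_g hm0 hme hC1 hC2 hB9 b2 b3 s4 s6 hw b5,
    bd1_a hr hrb hm0 hC hC1 hmu1 hrc hB b3 s8⟩

end

end P229
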