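import Vale.Agent.P229.T.LinSz

/-!
# P229 block T: bounds of the coefficients, module LIN_BD2 (layers and core)   (helper68)
-/

namespace P229

open Set Real
open scoped ContDiff

noncomputable section

theorem bd2_beta {r m B v mu C K : ℝ} (hC : 1 ≤ C) (hK : 1 ≤ K) (hr : 0 < r) (hr1 : r ≤ 1)
    (hrs : r ≤ 1 / (100 * C * (2 * C + 3 * K))) (hm1 : m ≤ 1)
    (hB : |B - 1| ≤ 2 * r ^ 2 * m) (hv : |v - mu| ≤ K * r ^ 2) (hmu1 : 1 / C ≤ mu) (hmu2 : mu ≤ C) :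
    |v| ≤ C + K ∧ |B * v - mu| ≤ mu / 100 := by
  have hC0 : 0 < C := by linarith
  have hmu0 : 0 < mu := lt_of_lt_of_le (by positivity) hmu1
  have hr2 : r ^ 2 ≤ r := by nlinarith
  have hr20 : 0 ≤ r ^ 2 := by positivity
  have hv1 : |v| ≤ C + K := by
    have h1 := abs_le.1 hv
    have h2 : K * r ^ 2 ≤ K := by nlinarith
    rw [abs_le]; constructor <;> linarith [h1.1, h1.2]
  refine ⟨hv1, ?_⟩
  have hB2 : |B - 1| ≤ 2 * r ^ 2 := hB.trans (by nlinarith)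
  have h1 : |(B - 1) * v| ≤ 2 * r ^ 2 * (C + K) := by
    rw [abs_mul]
    exact mul_le_mul hB2 hv1 (abs_nonneg _) (by positivity)
  have e : B * v - mu = (B - 1) * v + (v - mu) := by ring
  rw [e]
  refine (abs_add_le _ _).trans ?_
  have h2 : r * (2 * C + 3 * K) ≤ 1 / (100 * C) := by
    have := mul_le_mul_of_nonneg_right hrs (by positivity : 0 ≤ 2 * C + 3 * K)
    refine this.trans (le_of_eq ?_)
    field_simp
  have h3 : 1 / (100 * C) ≤ mu / 100 := by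
    have : 1 / (100 * C) = 1 / C / 100 := by field_simp
    rw [this]; linarith
  have h4 : r ^ 2 * (2 * C + 3 * K) ≤ r * (2 * C + 3 * K) :=
    mul_le_mul_of_nonneg_right hr2 (by positivity)
  nlinarith [h1, hv, h2, h3, h4]

theorem bd2_err {r m w B v p q qp C K bx bxx : ℝ} (hC : 1 ≤ C) (hK : 1 ≤ K) (hm : 0 ≤ m)
    (hm1 : m ≤ 1) (hw : |w - 1| ≤ 1 / 50) (hB : |B - 1| ≤ 1 / 10) (hv : |v| ≤ C + K)
    (hp : |p| ≤ 7 / 5) (hq : |q| ≤ K) (hqp : |qp| ≤ K) (h1 : |bx| ≤ 3 / 2 * m)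
    (h2 : |bxx| ≤ 6 / 5 * m) :
    |r ^ 2 * bx * w * v * bxx + B * (-(r ^ 2 * (2 * p + 2 * q * qp))) * bxx|
      ≤ (2 * (C + K) + 7 * K ^ 2) * r ^ 2 * m := by
  have hr2 : 0 ≤ r ^ 2 := sq_nonneg r
  have hw' : |w| ≤ 51 / 50 := by
    have := abs_le.1 hw
    rw [abs_le]; constructor <;> linarith [this.1, this.2]
  have hB' : |B| ≤ 11 / 10 := by
    have := abs_le.1 hB
    rw [abs_le]; constructor <;> linarith [this.1, this.2]
  have hCK : 0 ≤ C + K := by linarith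
  have g1 : |r ^ 2 * bx * w * v * bxx| ≤ r ^ 2 * (3 / 2 * m) * (51 / 50) * (C + K) * (6 / 5 * m) := by
    rw [abs_mul, abs_mul, abs_mul, abs_mul, abs_of_nonneg hr2]
    gcongr
  have g1' : r ^ 2 * (3 / 2 * m) * (51 / 50) * (C + K) * (6 / 5 * m)
      ≤ 2 * (C + K) * r ^ 2 * m := by
    have e : r ^ 2 * (3 / 2 * m) * (51 / 50) * (C + K) * (6 / 5 * m)
        = (1.836 * (C + K) * r ^ 2 * m) * m := by ring
    rw [e]
    have h0 : 0 ≤ 1.836 * (C + K) * r ^ 2 * m := by positivity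
    have h3 : (1.836 * (C + K) * r ^ 2 * m) * m ≤ (1.836 * (C + K) * r ^ 2 * m) * 1 :=
      mul_le_mul_of_nonneg_left hm1 h0
    have h4 : 0 ≤ (C + K) * r ^ 2 * m := by positivity
    nlinarith
  have hs : |2 * p + 2 * q * qp| ≤ 14 / 5 + 2 * K * K := by
    refine (abs_add_le _ _).trans ?_
    have e1 : |2 * p| ≤ 14 / 5 := by rw [abs_mul, abs_two]; linarith
    have e2 : |2 * q * qp| ≤ 2 * K * K := by
      rw [abs_mul, abs_mul, abs_two]; gcongr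
    linarith
  have g2 : |B * (-(r ^ 2 * (2 * p + 2 * q * qp))) * bxx|
      ≤ 11 / 10 * (r ^ 2 * (14 / 5 + 2 * K * K)) * (6 / 5 * m) := by
    rw [abs_mul, abs_mul, abs_neg, abs_mul, abs_of_nonneg hr2]
    gcongr
  have g2' : 11 / 10 * (r ^ 2 * (14 / 5 + 2 * K * K)) * (6 / 5 * m) ≤ 7 * K ^ 2 * r ^ 2 * m := by
    have e : 11 / 10 * (r ^ 2 * (14 / 5 + 2 * K * K)) * (6 / 5 * m)
        = (1.32 * (14 / 5 + 2 * K * K)) * (r ^ 2 * m) := by ring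
    rw [e]
    have h5 : 1.32 * (14 / 5 + 2 * K * K) ≤ 7 * K ^ 2 := by nlinarith
    have h6 : 0 ≤ r ^ 2 * m := by positivity
    nlinarith [mul_le_mul_of_nonneg_right h5 h6]
  refine (abs_add_le _ _).trans ?_
  nlinarith [g1, g1', g2, g2']

/-- pointwise form of the coefficients on the core -/
theorem bd2_core {P : Par} {mu C K : ℝ} {J : J2} {p y : ℝ} (hC : 1 ≤ C) (hK : 1 ≤ K)
    (hy : |y| ≤ 2) (hp : |p| ≤ 7 / 5)
    (hm0 : 0 ≤ md P y) (hm1 : md P y ≤ 1) (s1 : |J.wp p y| ≤ 146 / 100)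
    (s3 : |cB P J p y - 1| ≤ 1 / 10) (s4 : |cq P J p y| ≤ K) (s6 : |cqp P J p y| ≤ K)
    (hw : |J.wpp p y - 1| ≤ 1 / 50) (hv : |cvp P mu J p y| ≤ C + K) :
    (coefOf P mu J).a p y = (cB P J p y * cvp P mu J p y) * (md P y * (1 - J.wp p y ^ 2)) ∧
    |(coefOf P mu J).ap p y
      - (cB P J p y * cvp P mu J p y) * (md P y * (-(2 * J.wp p y)) * J.wpp p y)|
      ≤ (2 * (C + K) + 7 * K ^ 2) * P.r ^ 2 * md P y := by
  have eb0x : b0x P (J.wp p y) y = md P y * (J.wp p y - J.wp p y ^ 3 / 3) := by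
    unfold b0x; rw [md_core P hy, chi_eq_zero hy]; ring
  have eb0xx : b0xx P (J.wp p y) y = md P y * (1 - J.wp p y ^ 2) := by
    unfold b0xx; rw [md_core P hy, chi_eq_zero hy]; ring
  have eb0xxx : b0xxx P (J.wp p y) y = md P y * (-(2 * J.wp p y)) := by
    unfold b0xxx; rw [md_core P hy]
  have hx2 : (J.wp p y) ^ 2 ≤ (146 / 100) ^ 2 := by
    rw [← sq_abs]; exact pow_le_pow_left₀ (abs_nonneg _) s1 2
  have hx20 : 0 ≤ (J.wp p y) ^ 2 := sq_nonneg _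
  have c1 : |b0x P (J.wp p y) y| ≤ 3 / 2 * md P y := by
    have e1 : md P y * (J.wp p y - J.wp p y ^ 3 / 3)
        = md P y * (J.wp p y * (1 - J.wp p y ^ 2 / 3)) := by ring
    rw [eb0x, e1, abs_mul, abs_of_nonneg hm0, abs_mul, mul_comm]
    have e2 : |1 - J.wp p y ^ 2 / 3| ≤ 1 := by rw [abs_le]; constructor <;> linarith
    have e3 : |J.wp p y| * |1 - J.wp p y ^ 2 / 3| ≤ 146 / 100 * 1 :=
      mul_le_mul s1 e2 (abs_nonneg _) (by norm_num)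
    exact mul_le_mul_of_nonneg_right (by linarith) hm0
  have c2 : |b0xx P (J.wp p y) y| ≤ 6 / 5 * md P y := by
    rw [eb0xx, abs_mul, abs_of_nonneg hm0, mul_comm]
    have e2 : |1 - J.wp p y ^ 2| ≤ 6 / 5 := by rw [abs_le]; constructor <;> linarith
    exact mul_le_mul_of_nonneg_right e2 hm0
  have c3 := bd2_err (r := P.r) (p := p) hC hK hm0 hm1 hw s3 hv hp s4 s6 c1 c2
  constructor
  · change ca P mu J p y = _
    unfold ca
    rw [eb0xx]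
  · have e : (coefOf P mu J).ap p y
        - (cB P J p y * cvp P mu J p y) * (md P y * (-(2 * J.wp p y)) * J.wpp p y)
        = P.r ^ 2 * b0x P (J.wp p y) y * J.wpp p y * cvp P mu J p y * b0xx P (J.wp p y) y +
          cB P J p y * (-(P.r ^ 2 * (2 * p + 2 * cq P J p y * cqp P J p y))) *
            b0xx P (J.wp p y) y := by
      change cap P mu J p y - _ = _
      unfold cap
      rw [← eb0xxx]
      ring
    rw [e]
    exact c3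

/-- pointwise form of the coefficients on the layers -/
theorem bd2_lay {P : Par} {mu C K : ℝ} {J : J2} {p y : ℝ} (hC : 1 ≤ C) (hK : 1 ≤ K)
    (hy : 1 ≤ |y|) (hp : |p| ≤ 7 / 5)
    (hm0 : 0 ≤ md P y) (hm1 : md P y ≤ 1) (s1 : |J.wp p y| ≤ 146 / 100)
    (s3 : |cB P J p y - 1| ≤ 1 / 10) (s4 : |cq P J p y| ≤ K) (s6 : |cqp P J p y| ≤ K)
    (hw : |J.wpp p y - 1| ≤ 1 / 50) (hv : |cvp P mu J p y| ≤ C + K) :
    (coefOf P mu J).a p y = -((cB P J p y * cvp P mu J p y) * md P y) ∧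
    |(coefOf P mu J).ap p y| ≤ (2 * (C + K) + 7 * K ^ 2) * P.r ^ 2 * md P y := by
  have eb0x : b0x P (J.wp p y) y = -(md P y * J.wp p y) := by
    unfold b0x; rw [md_lay P hy, kk_eq_zero hy]; ring
  have eb0xx : b0xx P (J.wp p y) y = -md P y := by
    unfold b0xx; rw [md_lay P hy, kk_eq_zero hy]; ring
  have eb0xxx : b0xxx P (J.wp p y) y = 0 := by
    unfold b0xxx; rw [kk_eq_zero hy]; ring
  have c1 : |b0x P (J.wp p y) y| ≤ 3 / 2 * md P y := by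
    rw [eb0x, abs_neg, abs_mul, abs_of_nonneg hm0, mul_comm]
    exact mul_le_mul_of_nonneg_right (by linarith) hm0
  have c2 : |b0xx P (J.wp p y) y| ≤ 6 / 5 * md P y := by
    rw [eb0xx, abs_neg, abs_of_nonneg hm0]
    linarith
  have c3 := bd2_err (r := P.r) (p := p) hC hK hm0 hm1 hw s3 hv hp s4 s6 c1 c2
  constructor
  · change ca P mu J p y = _
    unfold ca
    rw [eb0xx]; ring
  · have e : (coefOf P mu J).ap p y
        = P.r ^ 2 * b0x P (J.wp p y) y * J.wpp p y * cvp P mu J p y * b0xx P (J.wp p y) y +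
          cB P J p y * (-(P.r ^ 2 * (2 * p + 2 * cq P J p y * cqp P J p y))) *
            b0xx P (J.wp p y) y := by
      change cap P mu J p y = _
      unfold cap
      rw [eb0xxx]
      ring
    rw [e]
    exact c3

theorem bd2_r0 {β mu x p m : ℝ} (hmu : 0 < mu) (hm : 0 ≤ m) (hβ : |β - mu| ≤ mu / 100)
    (hx : |x - p| ≤ 51 / 1000) (hp1 : 6 / 5 ≤ |p|) :
    β * (m * (1 - x ^ 2)) ≤ -(29 / 100 * mu * m) := by
  have hβ' := abs_le.1 hβ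
  have hx' := abs_le.1 hx
  have hx2 : 132 / 100 ≤ x ^ 2 := by
    rcases le_abs.1 hp1 with h | h
    · nlinarith [hx'.1]
    · nlinarith [hx'.2]
  have h1 : 99 / 100 * mu * (32 / 100) ≤ β * (x ^ 2 - 1) :=
    mul_le_mul (by linarith [hβ'.1]) (by linarith) (by norm_num) (by linarith [hβ'.1])
  have h2 := mul_le_mul_of_nonneg_right h1 hm
  have h3 : 0 ≤ mu * m := mul_nonneg hmu.le hm
  have e : β * (m * (1 - x ^ 2)) = -(β * (x ^ 2 - 1) * m) := by ring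
  rw [e]
  linarith

theorem bd2_r1 {β mu x p m w A : ℝ} (hmu : 0 < mu) (hm : 0 ≤ m) (hβ : |β - mu| ≤ mu / 100)
    (hx : |x - p| ≤ 51 / 1000) (hw : |w - 1| ≤ 1 / 50) (hp1 : -(27 / 20) ≤ p) (hp2 : p ≤ 1 / 100)
    (hE : |A - β * (m * (-(2 * x)) * w)| ≤ mu / 20 * m) :
    4 / 5 * mu * m ≤ β * (m * (1 - x ^ 2)) + A := by
  have hβ' := abs_le.1 hβ
  have hx' := abs_le.1 hx
  have hw' := abs_le.1 hw
  have hf : 87 / 100 ≤ 1 - x ^ 2 - 2 * x * w := by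
    rcases le_total 0 x with h | h
    · have hx1 : x ≤ 61 / 1000 := by linarith [hx'.2]
      nlinarith [mul_le_mul_of_nonneg_left (by linarith [hw'.2] : w ≤ 51 / 50) h]
    · have hx1 : -(1401 / 1000) ≤ x := by linarith [hx'.1]
      nlinarith [mul_le_mul_of_nonneg_left (by linarith [hw'.1] : 49 / 50 ≤ w)
        (by linarith : 0 ≤ -x)]
  have h1 : 99 / 100 * mu * (87 / 100) ≤ β * (1 - x ^ 2 - 2 * x * w) :=
    mul_le_mul (by linarith [hβ'.1]) hf (by norm_num) (by linarith [hβ'.1])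
  have h2 := mul_le_mul_of_nonneg_right h1 hm
  have h3 : 0 ≤ mu * m := mul_nonneg hmu.le hm
  have hE' := (abs_le.1 hE).1
  have e : β * (1 - x ^ 2 - 2 * x * w) * m
      = β * (m * (1 - x ^ 2)) + β * (m * (-(2 * x)) * w) := by ring
  rw [e] at h2
  linarith

theorem bd2_r2 {β mu x p m w A : ℝ} (hmu : 0 < mu) (hm : 0 ≤ m) (hβ : |β - mu| ≤ mu / 100)
    (hx : |x - p| ≤ 51 / 1000) (hw : |w - 1| ≤ 1 / 50) (hp1 : -(1 / 100) ≤ p) (hp2 : p ≤ 27 / 20)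
    (hE : |A - β * (m * (-(2 * x)) * w)| ≤ mu / 20 * m) :
    4 / 5 * mu * m ≤ β * (m * (1 - x ^ 2)) - A := by
  have hβ' := abs_le.1 hβ
  have hx' := abs_le.1 hx
  have hw' := abs_le.1 hw
  have hf : 87 / 100 ≤ 1 - x ^ 2 + 2 * x * w := by
    rcases le_total x 0 with h | h
    · have hx1 : -(61 / 1000) ≤ x := by linarith [hx'.1]
      nlinarith [mul_le_mul_of_nonneg_left (by linarith [hw'.2] : w ≤ 51 / 50)
        (by linarith : 0 ≤ -x)]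
    · have hx1 : x ≤ 1401 / 1000 := by linarith [hx'.2]
      nlinarith [mul_le_mul_of_nonneg_left (by linarith [hw'.1] : 49 / 50 ≤ w) h]
  have h1 : 99 / 100 * mu * (87 / 100) ≤ β * (1 - x ^ 2 + 2 * x * w) :=
    mul_le_mul (by linarith [hβ'.1]) hf (by norm_num) (by linarith [hβ'.1])
  have h2 := mul_le_mul_of_nonneg_right h1 hm
  have h3 : 0 ≤ mu * m := mul_nonneg hmu.le hm
  have hE' := (abs_le.1 hE).2
  have e : β * (1 - x ^ 2 + 2 * x * w) * m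
      = β * (m * (1 - x ^ 2)) - β * (m * (-(2 * x)) * w) := by ring
  rw [e] at h2
  linarith

theorem bd2_r3 {β mu x p m : ℝ} (hmu : 0 < mu) (hm : 0 ≤ m) (hβ : |β - mu| ≤ mu / 100)
    (hx : |x - p| ≤ 51 / 1000) (hp1 : -(9 / 20) ≤ p) (hp2 : p ≤ 9 / 20) :
    7 / 10 * mu * m ≤ β * (m * (1 - x ^ 2)) := by
  have hβ' := abs_le.1 hβ
  have hx' := abs_le.1 hx
  have hx2 : x ^ 2 ≤ 252 / 1000 := by
    have h1 : -(501 / 1000) ≤ x := by linarith [hx'.1]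
    have h2 : x ≤ 501 / 1000 := by linarith [hx'.2]
    nlinarith
  have h1 : 99 / 100 * mu * (748 / 1000) ≤ β * (1 - x ^ 2) :=
    mul_le_mul (by linarith [hβ'.1]) (by linarith) (by norm_num) (by linarith [hβ'.1])
  have h2 := mul_le_mul_of_nonneg_right h1 hm
  have h3 : 0 ≤ mu * m := mul_nonneg hmu.le hm
  have e : β * (1 - x ^ 2) * m = β * (m * (1 - x ^ 2)) := by ring
  rw [e] at h2
  linarith

/-- (LIN_BD2) layers and core. -/
theorem coefOf_bd2 (C : ℝ) (k b : ℕ) (hC : 1 ≤ C) (hk : 10 ≤ k) :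
    ∃ C' r0 : ℝ, 1 ≤ C' ∧ 0 < r0 ∧ ∀ r : ℝ, 0 < r → r < r0 → ∀ (mu : ℝ)
      (u : ℝ → ℝ → ℝ) (J : J2), 1 / C ≤ mu → mu ≤ C → GoodJ ⟨r, k, b⟩ C u J →
      (∀ p ∈ Icc (-(7 / 5) : ℝ) (7 / 5), ∀ y ∈ Icc (-YY) YY, 2 ≤ |y| →
        ((coefOf ⟨r, k, b⟩ mu J).a p y ≤ -(99 / 100 * mu * md ⟨r, k, b⟩ y) ∧
          -(101 / 100 * mu * md ⟨r, k, b⟩ y) ≤ (coefOf ⟨r, k, b⟩ mu J).a p y) ∧
        |(coefOf ⟨r, k, b⟩ mu J).ap p y| ≤ C' * r ^ 2 * md ⟨r, k, b⟩ y) ∧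
      (∀ p ∈ Icc (-(7 / 5) : ℝ) (7 / 5), ∀ y : ℝ, 6 / 5 ≤ |p| → |y| ≤ 2 →
        (coefOf ⟨r, k, b⟩ mu J).a p y ≤ -(29 / 100 * mu * md ⟨r, k, b⟩ y)) ∧
      (∀ p ∈ Icc (-(27 / 20) : ℝ) (1 / 100), ∀ y : ℝ, |y| ≤ 2 →
        4 / 5 * mu * md ⟨r, k, b⟩ y
          ≤ (coefOf ⟨r, k, b⟩ mu J).a p y + (coefOf ⟨r, k, b⟩ mu J).ap p y) ∧
      (∀ p ∈ Icc (-(1 / 100) : ℝ) (27 / 20), ∀ y : ℝ, |y| ≤ 2 →
        4 / 5 * mu * md ⟨r, k, b⟩ y
          ≤ (coefOf ⟨r, k, b⟩ mu J).a p y - (coefOf ⟨r, k, b⟩ mu J).ap p y) ∧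
      (∀ p ∈ Icc (-(9 / 20) : ℝ) (9 / 20), ∀ y : ℝ, |y| ≤ 2 →
        7 / 10 * mu * md ⟨r, k, b⟩ y ≤ (coefOf ⟨r, k, b⟩ mu J).a p y) := by
  obtain ⟨K, r1, hK, hr1, H⟩ := goodJ_size C k b hC hk
  have hC0 : 0 < C := by linarith
  have hK0 : 0 < K := by linarith
  obtain ⟨K2, hK2⟩ : ∃ K2 : ℝ, K2 = 2 * (C + K) + 7 * K ^ 2 := ⟨_, rfl⟩
  have hK21 : 1 ≤ K2 := by rw [hK2]; nlinarith [sq_nonneg K]
  refine ⟨K2, min (min r1 1) (min (1 / (100 * C * (2 * C + 3 * K))) (1 / (20 * C * K2))),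
    hK21, by positivity, ?_⟩
  intro r hr hr0 mu u J hmu1 hmu2 hJ
  have a1 : r < r1 := lt_of_lt_of_le hr0 ((min_le_left _ _).trans (min_le_left _ _))
  have a2 : r ≤ 1 := (lt_of_lt_of_le hr0 ((min_le_left _ _).trans (min_le_right _ _))).le
  have a3 : r ≤ 1 / (100 * C * (2 * C + 3 * K)) :=
    (lt_of_lt_of_le hr0 ((min_le_right _ _).trans (min_le_left _ _))).le
  have a4 : r ≤ 1 / (20 * C * K2) :=
    (lt_of_lt_of_le hr0 ((min_le_right _ _).trans (min_le_right _ _))).le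
  have hmu0 : 0 < mu := lt_of_lt_of_le (by positivity) hmu1
  specialize H r hr a1 mu u J hmu1 hmu2 hJ
  have hm0 : ∀ y, 0 ≤ md ⟨r, k, b⟩ y := fun y => md_nonneg ⟨r, k, b⟩ hr y
  have hm1 : ∀ y, md ⟨r, k, b⟩ y ≤ 1 := fun y =>
    (md_le_eps ⟨r, k, b⟩ hr a2 y).trans (pow_le_one₀ (a := r) hr.le a2)
  have hr2 : r ^ 2 ≤ r := by nlinarith
  have hKr : K2 * r ^ 2 ≤ mu / 20 := by
    have h1 : K2 * r ^ 2 ≤ K2 * (1 / (20 * C * K2)) :=
      mul_le_mul_of_nonneg_left (hr2.trans a4) (by linarith)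
    have h2 : K2 * (1 / (20 * C * K2)) = 1 / C / 20 := by field_simp
    rw [h2] at h1
    linarith
  have hYm : ∀ y : ℝ, |y| ≤ 2 → y ∈ Icc (-YY) YY := by
    intro y hy
    have := abs_le.1 hy
    unfold YY
    exact ⟨by linarith [this.1], by linarith [this.2]⟩
  -- common facts on the core
  have core : ∀ p ∈ Icc (-(7 / 5) : ℝ) (7 / 5), ∀ y : ℝ, |y| ≤ 2 →
      |cB ⟨r, k, b⟩ J p y * cvp ⟨r, k, b⟩ mu J p y - mu| ≤ mu / 100 ∧
      (coefOf ⟨r, k, b⟩ mu J).a p y = (cB ⟨r, k, b⟩ J p y * cvp ⟨r, k, b⟩ mu J p y)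
        * (md ⟨r, k, b⟩ y * (1 - J.wp p y ^ 2)) ∧
      |(coefOf ⟨r, k, b⟩ mu J).ap p y
        - (cB ⟨r, k, b⟩ J p y * cvp ⟨r, k, b⟩ mu J p y)
          * (md ⟨r, k, b⟩ y * (-(2 * J.wp p y)) * J.wpp p y)|
        ≤ mu / 20 * md ⟨r, k, b⟩ y := by
    intro p hp y hy
    have hyI := hYm y hy
    obtain ⟨s1, s2, s3, s4, s5, s6, s7, s8⟩ := H p hp y hyI
    have hw := hJ.hpp p hp y hyI
    obtain ⟨hv, hβ⟩ := bd2_beta hC hK hr a2 a3 (hm1 y) s2 s8 hmu1 hmu2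
    have h := bd2_core (P := ⟨r, k, b⟩) (mu := mu) hC hK hy (abs_le.2 hp) (hm0 y) (hm1 y) s1 s3 s4
      s6 hw hv
    refine ⟨hβ, h.1, h.2.trans ?_⟩
    rw [← hK2]
    exact mul_le_mul_of_nonneg_right hKr (hm0 y)
  refine ⟨?_, ?_, ?_, ?_, ?_⟩
  · intro p hp y hyI hy
    obtain ⟨s1, s2, s3, s4, s5, s6, s7, s8⟩ := H p hp y hyI
    have hw := hJ.hpp p hp y hyI
    obtain ⟨hv, hβ⟩ := bd2_beta hC hK hr a2 a3 (hm1 y) s2 s8 hmu1 hmu2
    have h := bd2_lay (P := ⟨r, k, b⟩) (mu := mu) hC hK (by linarith : 1 ≤ |y|) (abs_le.2 hp)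
      (hm0 y) (hm1 y) s1 s3 s4 s6 hw hv
    have hβ' := abs_le.1 hβ
    rw [← hK2] at h
    refine ⟨⟨?_, ?_⟩, h.2⟩
    · rw [h.1]
      have := mul_le_mul_of_nonneg_right (by linarith [hβ'.1] :
        99 / 100 * mu ≤ cB ⟨r, k, b⟩ J p y * cvp ⟨r, k, b⟩ mu J p y) (hm0 y)
      linarith
    · rw [h.1]
      have := mul_le_mul_of_nonneg_right (by linarith [hβ'.2] :
        cB ⟨r, k, b⟩ J p y * cvp ⟨r, k, b⟩ mu J p y ≤ 101 / 100 * mu) (hm0 y)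
      linarith
  · intro p hp y hp1 hy
    obtain ⟨hβ, ea, hE⟩ := core p hp y hy
    rw [ea]
    exact bd2_r0 hmu0 (hm0 y) hβ (hJ.hx p hp y (hYm y hy)) hp1
  · intro p hp y hy
    have hpI : p ∈ Icc (-(7 / 5) : ℝ) (7 / 5) := ⟨by linarith [hp.1], by linarith [hp.2]⟩
    obtain ⟨hβ, ea, hE⟩ := core p hpI y hy
    rw [ea]
    exact bd2_r1 hmu0 (hm0 y) hβ (hJ.hx p hpI y (hYm y hy)) (hJ.hpp p hpI y (hYm y hy))
      hp.1 hp.2 hE
  · intro p hp y hy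
    have hpI : p ∈ Icc (-(7 / 5) : ℝ) (7 / 5) := ⟨by linarith [hp.1], by linarith [hp.2]⟩
    obtain ⟨hβ, ea, hE⟩ := core p hpI y hy
    rw [ea]
    exact bd2_r2 hmu0 (hm0 y) hβ (hJ.hx p hpI y (hYm y hy)) (hJ.hpp p hpI y (hYm y hy))
      hp.1 hp.2 hE
  · intro p hp y hy
    have hpI : p ∈ Icc (-(7 / 5) : ℝ) (7 / 5) := ⟨by linarith [hp.1], by linarith [hp.2]⟩
    obtain ⟨hβ, ea, hE⟩ := core p hpI y hy
    rw [ea]
    exact bd2_r3 hmu0 (hm0 y) hβ (hJ.hx p hpI y (hYm y hy)) hp.1 hp.2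

end

end P229
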