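import Vale.Agent.P229.T.LinSz

/-!
# P229 block T: continuity and derivatives of the coefficients  (module LIN_CD, helper53)
-/

namespace P229

open Set Real
open scoped ContDiff

noncomputable section

section cont

variable {X : Type*} [TopologicalSpace X] {s : Set X} {c k x : X → ℝ}

private theorem linCD_c1 (hc : ContinuousOn c s) (hk : ContinuousOn k s) (hx : ContinuousOn x s)
    (e f : ℝ) : ContinuousOn (fun z => -(e * c z * x z ^ 2 / 2)
      + f * k z * (x z ^ 2 / 2 - x z ^ 4 / 12)) s := by fun_prop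

private theorem linCD_c2 (hc : ContinuousOn c s) (hk : ContinuousOn k s) (hx : ContinuousOn x s)
    (e f : ℝ) : ContinuousOn (fun z => -(e * c z * x z) + f * k z * (x z - x z ^ 3 / 3)) s := by
  fun_prop

private theorem linCD_c3 (hc : ContinuousOn c s) (hk : ContinuousOn k s) (hx : ContinuousOn x s)
    (e f : ℝ) : ContinuousOn (fun z => -(e * c z) + f * k z * (1 - x z ^ 2)) s := by fun_prop

private theorem linCD_c4 (hk : ContinuousOn k s) (hx : ContinuousOn x s)
    (f : ℝ) : ContinuousOn (fun z => f * k z * (-(2 * x z))) s := by fun_prop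

end cont

private theorem linCD_dchi : Continuous (deriv chi) :=
  chi_contDiff.continuous_deriv (by simp)

private theorem linCD_dkk : Continuous (deriv kk) :=
  kk_contDiff.continuous_deriv (by simp)

private theorem linCD_hchi (y : ℝ) : HasDerivAt chi (deriv chi y) y :=
  ((chi_contDiff.differentiable (by simp)) y).hasDerivAt

private theorem linCD_hkk (y : ℝ) : HasDerivAt kk (deriv kk y) y :=
  ((kk_contDiff.differentiable (by simp)) y).hasDerivAt

private theorem linCD_b0 (P : Par) {x : ℝ → ℝ} {x' y : ℝ} (hx : HasDerivAt x x' y) :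
    HasDerivAt (fun t => b0 P (x t) t) (b0y P (x y) y + b0x P (x y) y * x') y := by
  unfold b0 b0y b0x
  have h1 := ((((linCD_hchi y).const_mul P.eps).mul (hx.pow 2)).div_const 2).neg
  have h2 := ((linCD_hkk y).const_mul P.epsc).mul
    (((hx.pow 2).div_const 2).sub ((hx.pow 4).div_const 12))
  refine (h1.add h2).congr_deriv ?_
  simp only [Pi.mul_apply, Pi.pow_apply, Pi.sub_apply, Nat.cast_ofNat]
  ring

private theorem linCD_b0x (P : Par) {x : ℝ → ℝ} {x' y : ℝ} (hx : HasDerivAt x x' y) :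
    HasDerivAt (fun t => b0x P (x t) t) (b0xx P (x y) y * x' + b0xy P (x y) y) y := by
  unfold b0x b0xx b0xy
  have h1 := (((linCD_hchi y).const_mul P.eps).mul hx).neg
  have h2 := ((linCD_hkk y).const_mul P.epsc).mul (hx.sub ((hx.pow 3).div_const 3))
  refine (h1.add h2).congr_deriv ?_
  simp only [Pi.mul_apply, Pi.pow_apply, Pi.sub_apply, Nat.cast_ofNat]
  ring

/-- (LIN_CD) continuity and derivatives of the coefficients (chain rule; `cB ≠ 0`). -/
theorem coefOf_cd_proof {P : Par} {mu : ℝ} {J : J2}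
    (jet : J.IsJet (-(7 / 5)) (7 / 5) (-YY) YY)
    (hB : ∀ p ∈ Icc (-(7 / 5) : ℝ) (7 / 5), ∀ y ∈ Icc (-YY) YY, 1 / 2 ≤ cB P J p y) :
    ContinuousOn (Function.uncurry (coefOf P mu J).t) strip ∧
    ContinuousOn (Function.uncurry (coefOf P mu J).tp) strip ∧
    ContinuousOn (Function.uncurry (coefOf P mu J).ty) strip ∧
    ContinuousOn (Function.uncurry (coefOf P mu J).a) strip ∧
    ContinuousOn (Function.uncurry (coefOf P mu J).ap) strip ∧
    ContinuousOn (Function.uncurry (coefOf P mu J).d) strip ∧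
    ContinuousOn (Function.uncurry (coefOf P mu J).g) strip ∧
    (∀ p ∈ Ioo (-(7 / 5) : ℝ) (7 / 5), ∀ y ∈ Icc (-YY) YY,
      HasDerivAt (fun q => (coefOf P mu J).t q y) ((coefOf P mu J).tp p y) p) ∧
    (∀ p ∈ Icc (-(7 / 5) : ℝ) (7 / 5), ∀ y ∈ Ioo (-YY) YY,
      HasDerivAt (fun q => (coefOf P mu J).t p q) ((coefOf P mu J).ty p y) y) ∧
    (∀ p ∈ Ioo (-(7 / 5) : ℝ) (7 / 5), ∀ y ∈ Icc (-YY) YY,
      HasDerivAt (fun q => (coefOf P mu J).a q y) ((coefOf P mu J).ap p y) p) := by
  have hB0 : ∀ z ∈ strip, cB P J z.1 z.2 ≠ 0 := fun z hz => by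
    have := hB z.1 hz.1 z.2 hz.2
    intro h0
    rw [h0] at this
    norm_num at this
  have hfst : ContinuousOn (fun z : ℝ × ℝ => z.1) strip := continuousOn_fst
  have hsnd : ContinuousOn (fun z : ℝ × ℝ => z.2) strip := continuousOn_snd
  have x : ContinuousOn (fun z : ℝ × ℝ => J.wp z.1 z.2) strip := jet.cwp
  have wy : ContinuousOn (fun z : ℝ × ℝ => J.wy z.1 z.2) strip := jet.cwy
  have wpp : ContinuousOn (fun z : ℝ × ℝ => J.wpp z.1 z.2) strip := jet.cwpp
  have wpy : ContinuousOn (fun z : ℝ × ℝ => J.wpy z.1 z.2) strip := jet.cwpy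
  have wyy : ContinuousOn (fun z : ℝ × ℝ => J.wyy z.1 z.2) strip := jet.cwyy
  have hc : ContinuousOn (fun z : ℝ × ℝ => chi z.2) strip :=
    chi_contDiff.continuous.comp_continuousOn hsnd
  have hk : ContinuousOn (fun z : ℝ × ℝ => kk z.2) strip :=
    kk_contDiff.continuous.comp_continuousOn hsnd
  have hc' : ContinuousOn (fun z : ℝ × ℝ => deriv chi z.2) strip :=
    linCD_dchi.comp_continuousOn hsnd
  have hk' : ContinuousOn (fun z : ℝ × ℝ => deriv kk z.2) strip :=
    linCD_dkk.comp_continuousOn hsnd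
  have Q0 : ContinuousOn (fun z : ℝ × ℝ => b0 P (J.wp z.1 z.2) z.2) strip :=
    linCD_c1 hc hk x P.eps P.epsc
  have BX : ContinuousOn (fun z : ℝ × ℝ => b0x P (J.wp z.1 z.2) z.2) strip :=
    linCD_c2 hc hk x P.eps P.epsc
  have BXX : ContinuousOn (fun z : ℝ × ℝ => b0xx P (J.wp z.1 z.2) z.2) strip :=
    linCD_c3 hc hk x P.eps P.epsc
  have BXXX : ContinuousOn (fun z : ℝ × ℝ => b0xxx P (J.wp z.1 z.2) z.2) strip :=
    linCD_c4 hk x P.epsc
  have BY : ContinuousOn (fun z : ℝ × ℝ => b0y P (J.wp z.1 z.2) z.2) strip :=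
    linCD_c1 hc' hk' x P.eps P.epsc
  have BXY : ContinuousOn (fun z : ℝ × ℝ => b0xy P (J.wp z.1 z.2) z.2) strip :=
    linCD_c2 hc' hk' x P.eps P.epsc
  have B : ContinuousOn (fun z : ℝ × ℝ => cB P J z.1 z.2) strip :=
    continuousOn_const.add (continuousOn_const.mul Q0)
  have Q : ContinuousOn (fun z : ℝ × ℝ => cq P J z.1 z.2) strip := wy.neg.div B hB0
  have VP : ContinuousOn (fun z : ℝ × ℝ => cvp P mu J z.1 z.2) strip :=
    continuousOn_const.sub (continuousOn_const.mul ((hfst.pow 2).add (Q.pow 2)))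
  have T : ContinuousOn (fun z : ℝ × ℝ => ct P J z.1 z.2) strip :=
    (continuousOn_const.mul BX).mul Q
  have QP : ContinuousOn (fun z : ℝ × ℝ => cqp P J z.1 z.2) strip :=
    ((wpy.add (T.mul wpp)).neg).div B hB0
  have QY : ContinuousOn (fun z : ℝ × ℝ => cqy P J z.1 z.2) strip :=
    ((wyy.add (Q.mul (continuousOn_const.mul (BY.add (BX.mul wpy))))).neg).div B hB0
  have TP : ContinuousOn (fun z : ℝ × ℝ => ctp P J z.1 z.2) strip :=
    continuousOn_const.mul (((BXX.mul wpp).mul Q).add (BX.mul QP))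
  have TY : ContinuousOn (fun z : ℝ × ℝ => cty P J z.1 z.2) strip :=
    continuousOn_const.mul ((((BXX.mul wpy).add BXY).mul Q).add (BX.mul QY))
  have A : ContinuousOn (fun z : ℝ × ℝ => ca P mu J z.1 z.2) strip := (B.mul VP).mul BXX
  have AP : ContinuousOn (fun z : ℝ × ℝ => cap P mu J z.1 z.2) strip :=
    (((((continuousOn_const.mul BX).mul wpp).mul VP).mul BXX).add
      ((B.mul (continuousOn_const.mul ((continuousOn_const.mul hfst).add
        ((continuousOn_const.mul Q).mul QP))).neg).mul BXX)).add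
      ((B.mul VP).mul (BXXX.mul wpp))
  have D : ContinuousOn (fun z : ℝ × ℝ => cd1 P J z.1 z.2) strip :=
    (continuousOn_const.mul (((((continuousOn_const.mul B).mul BXX).mul
      (hfst.add (Q.mul QP))).add (BX.mul (QY.add (T.mul QP)))).add
      ((continuousOn_const.mul hfst).mul (BX.pow 2)))).neg
  have G : ContinuousOn (fun z : ℝ × ℝ => cg2 P J z.1 z.2) strip :=
    continuousOn_const.mul ((((continuousOn_const.mul BX).mul QP).sub
      (((continuousOn_const.mul Q).mul BXX).mul wpp)).sub (BY.div B hB0))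
  -- derivatives in `p`
  have key : ∀ p ∈ Ioo (-(7 / 5) : ℝ) (7 / 5), ∀ y ∈ Icc (-YY) YY,
      HasDerivAt (fun t => cB P J t y) (P.r ^ 2 * (b0x P (J.wp p y) y * J.wpp p y)) p ∧
      HasDerivAt (fun t => cq P J t y) (cqp P J p y) p ∧
      HasDerivAt (fun t => b0x P (J.wp t y) y) (b0xx P (J.wp p y) y * J.wpp p y) p ∧
      HasDerivAt (fun t => b0xx P (J.wp t y) y) (b0xxx P (J.wp p y) y * J.wpp p y) p := by
    intro p hp y hy
    have hBp : cB P J p y ≠ 0 := hB0 (p, y) ⟨⟨hp.1.le, hp.2.le⟩, hy⟩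
    have h1 := jet.hpp p hp y hy
    have h2 := jet.hyp p hp y hy
    have h3 : HasDerivAt (fun t => cB P J t y) (P.r ^ 2 * (b0x P (J.wp p y) y * J.wpp p y)) p :=
      ((HasDerivAt.comp (h₂ := fun t => b0 P t y) p (dx_b0 P (J.wp p y) y) h1).const_mul
        (P.r ^ 2)).const_add 1
    refine ⟨h3, ?_, HasDerivAt.comp (h₂ := fun t => b0x P t y) p (dx_b0x P (J.wp p y) y) h1,
      HasDerivAt.comp (h₂ := fun t => b0xx P t y) p (dx_b0xx P (J.wp p y) y) h1⟩
    refine (h2.fun_neg.fun_div h3 hBp).congr_deriv ?_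
    unfold cqp ct cq
    field_simp
    ring
  refine ⟨T, TP, TY, A, AP, D, G, ?_, ?_, ?_⟩
  · intro p hp y hy
    obtain ⟨-, k2, k3, -⟩ := key p hp y hy
    refine ((k3.const_mul (P.r ^ 2)).fun_mul k2).congr_deriv ?_
    show _ = ctp P J p y
    unfold ctp
    ring
  · intro p hp y hy
    have hyI : y ∈ Icc (-YY) YY := ⟨hy.1.le, hy.2.le⟩
    have hBp : cB P J p y ≠ 0 := hB0 (p, y) ⟨hp, hyI⟩
    have h1 := jet.hpy p hp y hy
    have h2 := jet.hyy p hp y hy
    have h3 : HasDerivAt (fun t => cB P J p t)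
        (P.r ^ 2 * (b0y P (J.wp p y) y + b0x P (J.wp p y) y * J.wpy p y)) y :=
      ((linCD_b0 P h1).const_mul (P.r ^ 2)).const_add 1
    have h4 : HasDerivAt (fun t => cq P J p t) (cqy P J p y) y := by
      refine (h2.fun_neg.fun_div h3 hBp).congr_deriv ?_
      unfold cqy cq
      field_simp
      ring
    have h5 := linCD_b0x P h1
    refine ((h5.const_mul (P.r ^ 2)).fun_mul h4).congr_deriv ?_
    show _ = cty P J p y
    unfold cty
    ring
  · intro p hp y hy
    obtain ⟨k1, k2, -, k4⟩ := key p hp y hy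
    have h1 : HasDerivAt (fun t => cvp P mu J t y)
        (-(P.r ^ 2 * (2 * p + 2 * cq P J p y * cqp P J p y))) p := by
      have h2 := ((((hasDerivAt_id p).fun_pow 2).fun_add (k2.fun_pow 2)).const_mul
        (P.r ^ 2)).const_sub mu
      refine h2.congr_deriv ?_
      simp
    refine ((k1.fun_mul h1).fun_mul k4).congr_deriv ?_
    show _ = cap P mu J p y
    unfold cap
    ring

end

end P229
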