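import Vale.Agent.P229.T.LinSz

/-!
# P229 block T: module LIN_NEAR, closeness of the coefficient `a` to `a_*`  (helper95)
-/

namespace P229

open Set Real
open scoped ContDiff

noncomputable section

theorem linNear_mul {a b A B : ℝ} (ha : |a| ≤ A) (hb : |b| ≤ B) : |a * b| ≤ A * B := by
  rw [abs_mul]
  exact mul_le_mul ha hb (abs_nonneg _) ((abs_nonneg _).trans ha)

/-- Lipschitz bounds of the profile functions in `x`. -/
theorem linNear_b0 {P : Par} (hr : 0 < P.r) {x1 x2 y : ℝ} (h1 : |x1| ≤ 3 / 2) (h2 : |x2| ≤ 3 / 2) :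
    |b0 P x1 y - b0 P x2 y| ≤ 3 / 2 * md P y * |x1 - x2| ∧
    |b0xx P x1 y - b0xx P x2 y| ≤ 3 * md P y * |x1 - x2| := by
  have e1 : 0 ≤ P.eps * chi y := mul_nonneg (pow_pos hr _).le (chi_nonneg y)
  have e2 : 0 ≤ P.epsc * kk y := mul_nonneg (pow_pos hr _).le (kk_nonneg y)
  have hs : |x1 + x2| ≤ 3 := (abs_add_le _ _).trans (by linarith)
  have hq1 : x1 ^ 2 ≤ 9 / 4 := by
    rw [← sq_abs]
    nlinarith [abs_nonneg x1]
  have hq2 : x2 ^ 2 ≤ 9 / 4 := by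
    rw [← sq_abs]
    nlinarith [abs_nonneg x2]
  constructor
  · have e3 : b0 P x1 y - b0 P x2 y = (x1 - x2) * (-(P.eps * chi y) * ((x1 + x2) / 2) +
        P.epsc * kk y * ((x1 + x2) / 2 * (1 - (x1 ^ 2 + x2 ^ 2) / 6))) := by
      unfold b0
      ring
    have h3 : |(x1 + x2) / 2| ≤ 3 / 2 := by
      rw [abs_div, abs_two]
      linarith
    have h4 : |1 - (x1 ^ 2 + x2 ^ 2) / 6| ≤ 1 := by
      rw [abs_le]
      constructor <;> nlinarith [sq_nonneg x1, sq_nonneg x2]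
    have h5 : |(x1 + x2) / 2 * (1 - (x1 ^ 2 + x2 ^ 2) / 6)| ≤ 3 / 2 := by
      have := linNear_mul h3 h4
      linarith
    have h6 : |-(P.eps * chi y) * ((x1 + x2) / 2)| ≤ P.eps * chi y * (3 / 2) := by
      refine linNear_mul (le_of_eq ?_) h3
      rw [abs_neg, abs_of_nonneg e1]
    have h7 : |P.epsc * kk y * ((x1 + x2) / 2 * (1 - (x1 ^ 2 + x2 ^ 2) / 6))| ≤
        P.epsc * kk y * (3 / 2) := linNear_mul (le_of_eq (abs_of_nonneg e2)) h5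
    rw [e3, abs_mul]
    have h8 : |-(P.eps * chi y) * ((x1 + x2) / 2) +
        P.epsc * kk y * ((x1 + x2) / 2 * (1 - (x1 ^ 2 + x2 ^ 2) / 6))| ≤ 3 / 2 * md P y := by
      refine (abs_add_le _ _).trans ?_
      unfold md
      linarith
    rw [mul_comm]
    exact mul_le_mul_of_nonneg_right h8 (abs_nonneg _)
  · have e3 : b0xx P x1 y - b0xx P x2 y = -(P.epsc * kk y) * (x1 + x2) * (x1 - x2) := by
      unfold b0xx
      ring
    rw [e3, abs_mul, abs_mul, abs_neg, abs_of_nonneg e2]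
    refine mul_le_mul_of_nonneg_right ?_ (abs_nonneg _)
    have h3 : P.epsc * kk y * |x1 + x2| ≤ P.epsc * kk y * 3 := mul_le_mul_of_nonneg_left hs e2
    unfold md
    linarith

/-- the difference of the `q` -/
theorem linNear_q {C C' W B1 B2 q1 q2 w1 w2 : ℝ} (hC : 1 ≤ C) (hC' : 1 ≤ C') (hW : 0 ≤ W)
    (hB1 : |B1 - 1| ≤ 1 / 10) (hBB : |B1 - B2| ≤ 3 / 2 * C * W) (hq2 : |q2| ≤ C')
    (e1 : q1 * B1 = -w1) (e2 : q2 * B2 = -w2) (hw : |w1 - w2| ≤ C * W) :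
    |q1 - q2| ≤ (2 * C + 2 * C * C') * W := by
  have h1 : (q1 - q2) * B1 = -(w1 - w2) + q2 * (B2 - B1) := by
    linear_combination e1 - e2
  have h2 : |(q1 - q2) * B1| ≤ C * W + C' * (3 / 2 * C * W) := by
    rw [h1]
    refine (abs_add_le _ _).trans (add_le_add ?_ ?_)
    · rw [abs_neg]
      exact hw
    · refine linNear_mul hq2 ?_
      rw [abs_sub_comm]
      exact hBB
  have h3 : 9 / 10 ≤ |B1| := by
    have := (abs_le.mp hB1).1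
    have h4 : 9 / 10 ≤ B1 := by linarith
    exact h4.trans (le_abs_self _)
  rw [abs_mul] at h2
  have h5 : |q1 - q2| * (9 / 10) ≤ |q1 - q2| * |B1| :=
    mul_le_mul_of_nonneg_left h3 (abs_nonneg _)
  have h6 : 0 ≤ C * W := by positivity
  have h7 : 0 ≤ C * W * C' := by positivity
  have h8 : C' * (3 / 2 * C * W) = 3 / 2 * (C * W * C') := by ring
  have h9 : (2 * C + 2 * C * C') * W = 2 * (C * W) + 2 * (C * W * C') := by ring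
  rw [h8] at h2
  rw [h9]
  linarith

theorem linNear_v {r mu C' W p q1 q2 K : ℝ} (hr : 0 < r) (hr1 : r ≤ 1) (hW : 0 ≤ W) (hW1 : W ≤ 1)
    (hp : |p| ≤ 3 * W) (hq1 : |q1| ≤ C') (hq2 : |q2| ≤ C') (hq : |q1 - q2| ≤ K * W) :
    |(mu - r ^ 2 * (p ^ 2 + q1 ^ 2)) - (mu - r ^ 2 * (0 ^ 2 + q2 ^ 2))| ≤
      (9 + 2 * C' * K) * W := by
  have hr2 : r ^ 2 ≤ 1 := pow_le_one₀ hr.le hr1
  have hr20 : 0 ≤ r ^ 2 := by positivity
  have h1 : (mu - r ^ 2 * (p ^ 2 + q1 ^ 2)) - (mu - r ^ 2 * (0 ^ 2 + q2 ^ 2)) =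
      -(r ^ 2 * (p ^ 2 + (q1 + q2) * (q1 - q2))) := by ring
  rw [h1, abs_neg, abs_mul, abs_of_nonneg hr20]
  have h2 : |p ^ 2 + (q1 + q2) * (q1 - q2)| ≤ 9 * W + 2 * C' * (K * W) := by
    refine (abs_add_le _ _).trans (add_le_add ?_ ?_)
    · rw [abs_pow]
      have h3 : |p| ^ 2 ≤ (3 * W) ^ 2 := pow_le_pow_left₀ (abs_nonneg _) hp 2
      have h4 : W * W ≤ 1 * W := mul_le_mul_of_nonneg_right hW1 hW
      have h5 : (3 * W) ^ 2 = 9 * (W * W) := by ring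
      rw [h5] at h3
      linarith
    · refine linNear_mul ((abs_add_le _ _).trans ?_) hq
      linarith
  calc r ^ 2 * |p ^ 2 + (q1 + q2) * (q1 - q2)|
      ≤ 1 * |p ^ 2 + (q1 + q2) * (q1 - q2)| := mul_le_mul_of_nonneg_right hr2 (abs_nonneg _)
    _ ≤ (9 + 2 * C' * K) * W := by
      rw [one_mul]
      refine h2.trans (le_of_eq ?_)
      ring

/-- the product estimate -/
theorem linNear_prod {B1 B2 v1 v2 b1 b2 C C' L W m : ℝ} (hC : 1 ≤ C) (hC' : 1 ≤ C') (hL : 0 ≤ L)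
    (hW : 0 ≤ W) (hm : 0 ≤ m)
    (hB2 : |B2| ≤ 11 / 10) (hBB : |B1 - B2| ≤ 3 / 2 * C * W) (hv1 : |v1| ≤ C + C')
    (hv2 : |v2| ≤ C + C') (hv : |v1 - v2| ≤ L * W) (hb1 : |b1| ≤ 5 / 4 * m)
    (hbb : |b1 - b2| ≤ 3 * m * (C * W)) :
    |B1 * v1 * b1 - B2 * v2 * b2| ≤ (2 * C * (C + C') + 2 * L + 4 * C * (C + C')) * W * m := by
  have hsplit : B1 * v1 * b1 - B2 * v2 * b2 =
      (B1 - B2) * v1 * b1 + B2 * (v1 - v2) * b1 + B2 * v2 * (b1 - b2) := by ring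
  rw [hsplit]
  have t1 := linNear_mul (linNear_mul hBB hv1) hb1
  have t2 := linNear_mul (linNear_mul hB2 hv) hb1
  have t3 := linNear_mul (linNear_mul hB2 hv2) hbb
  refine (abs_add_le _ _).trans
    ((add_le_add ((abs_add_le _ _).trans (add_le_add t1 t2)) t3).trans ?_)
  have h1 : 0 ≤ C * (C + C') * W * m := by positivity
  have h2 : 0 ≤ L * W * m := by positivity
  have s1 : 3 / 2 * C * W * (C + C') * (5 / 4 * m) + 11 / 10 * (L * W) * (5 / 4 * m) +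
      11 / 10 * (C + C') * (3 * m * (C * W)) =
      (15 / 8 + 33 / 10) * (C * (C + C') * W * m) + 11 / 8 * (L * W * m) := by ring
  have s2 : (2 * C * (C + C') + 2 * L + 4 * C * (C + C')) * W * m =
      6 * (C * (C + C') * W * m) + 2 * (L * W * m) := by ring
  rw [s1, s2]
  linarith

/-- the algebra of the estimate -/
theorem linNear_alg {r mu C C' W m p B1 B2 q1 q2 w1 w2 b1 b2 : ℝ} (hr : 0 < r) (hr1 : r ≤ 1)
    (hC : 1 ≤ C) (hC' : 1 ≤ C') (hW : 0 ≤ W) (hW1 : W ≤ 1) (hm : 0 ≤ m)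
    (hp : |p| ≤ 3 * W) (hB1 : |B1 - 1| ≤ 1 / 10) (hB2 : |B2 - 1| ≤ 1 / 10)
    (hBB : |B1 - B2| ≤ 3 / 2 * C * W) (hq1 : |q1| ≤ C') (hq2 : |q2| ≤ C')
    (e1 : q1 * B1 = -w1) (e2 : q2 * B2 = -w2) (hw : |w1 - w2| ≤ C * W)
    (hv1 : |mu - r ^ 2 * (p ^ 2 + q1 ^ 2) - mu| ≤ C' * r ^ 2)
    (hv2 : |mu - r ^ 2 * (0 ^ 2 + q2 ^ 2) - mu| ≤ C' * r ^ 2)
    (hmu0 : 0 ≤ mu) (hmu : mu ≤ C) (hb1 : |b1| ≤ 5 / 4 * m) (hbb : |b1 - b2| ≤ 3 * m * (C * W)) :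
    |B1 * (mu - r ^ 2 * (p ^ 2 + q1 ^ 2)) * b1 - B2 * (mu - r ^ 2 * (0 ^ 2 + q2 ^ 2)) * b2| ≤
      (2 * C * (C + C') + 2 * (9 + 2 * C' * (2 * C + 2 * C * C')) + 4 * C * (C + C')) * W * m := by
  have hr2 : r ^ 2 ≤ 1 := pow_le_one₀ hr.le hr1
  have hq := linNear_q hC hC' hW hB1 hBB hq2 e1 e2 hw
  have hv := linNear_v (mu := mu) hr hr1 hW hW1 hp hq1 hq2 hq
  have hva : ∀ v : ℝ, |v - mu| ≤ C' * r ^ 2 → |v| ≤ C + C' := by
    intro v h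
    have h1 : |v| ≤ |v - mu| + |mu| := by
      have h2 := abs_add_le (v - mu) mu
      rwa [sub_add_cancel] at h2
    rw [abs_of_nonneg hmu0] at h1
    have h3 : C' * r ^ 2 ≤ C' := mul_le_of_le_one_right (by linarith) hr2
    linarith
  have hB2' : |B2| ≤ 11 / 10 := by
    have h1 := abs_add_le (B2 - 1) 1
    rw [sub_add_cancel, abs_one] at h1
    linarith
  exact linNear_prod hC hC' (by positivity) hW hm hB2' hBB (hva _ hv1) (hva _ hv2) hv hb1 hbb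

/-- (LIN_NEAR) closeness to `a_*` for `|p| ≤ 3 W1`. -/
theorem coefOf_near_proof (C : ℝ) (k b : ℕ) (hC : 1 ≤ C) (hk : 10 ≤ k) :
    ∃ C' r0 : ℝ, 1 ≤ C' ∧ 0 < r0 ∧ ∀ r : ℝ, 0 < r → r < r0 → ∀ (mu : ℝ)
      (u : ℝ → ℝ → ℝ) (J : J2), 1 / C ≤ mu → mu ≤ C → GoodJ ⟨r, k, b⟩ C u J →
      GoodJ ⟨r, k, b⟩ C u (jetOf u) →
      ∀ p : ℝ, |p| ≤ 3 * (Par.mk r k b).W1 → ∀ y ∈ Icc (-YY) YY,
        |(coefOf ⟨r, k, b⟩ mu J).a p y - astT ⟨r, k, b⟩ mu u y|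
          ≤ C' * (Par.mk r k b).W1 * md ⟨r, k, b⟩ y := by
  obtain ⟨C', r0, hC', hr0, hsz⟩ := goodJ_size C k b hC hk
  obtain ⟨C'', hC'', hb0⟩ := b0_size k b
  refine ⟨2 * C * (C + C') + 2 * (9 + 2 * C' * (2 * C + 2 * C * C')) + 4 * C * (C + C'),
    min r0 (1 / 3), ?_, lt_min hr0 (by norm_num), ?_⟩
  · have h1 : 0 ≤ C * (C + C') := by positivity
    have h2 : 0 ≤ C' * (2 * C + 2 * C * C') := by positivity
    nlinarith
  intro r hr hrr mu u J hmu1 hmu2 hJ hu p hp y hy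
  have hr0' : r < r0 := hrr.trans_le (min_le_left _ _)
  have hr3 : r < 1 / 3 := hrr.trans_le (min_le_right _ _)
  have hr1 : r ≤ 1 := by linarith
  have hW0 : 0 ≤ (Par.mk r k b).W1 := (pow_pos hr _).le
  have hWr : (Par.mk r k b).W1 ≤ r := by
    change r ^ (9 * k) ≤ r
    exact pow_le_of_le_one hr.le hr1 (by omega)
  have hp' : p ∈ Icc (-(7 / 5) : ℝ) (7 / 5) := by
    have := abs_le.mp hp
    constructor <;> linarith
  have h0' : (0 : ℝ) ∈ Icc (-(7 / 5) : ℝ) (7 / 5) := by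
    constructor <;> norm_num
  have hmu0 : 0 ≤ mu := le_trans (by positivity) hmu1
  obtain ⟨a1, -, a3, a4, -, -, -, a8⟩ := hsz r hr hr0' mu u J hmu1 hmu2 hJ p hp' y hy
  obtain ⟨c1, -, c3, c4, -, -, -, c8⟩ := hsz r hr hr0' mu u (jetOf u) hmu1 hmu2 hu 0 h0' y hy
  obtain ⟨n1, n2⟩ := hJ.near p hp y hy
  have hm0 := md_nonneg ⟨r, k, b⟩ hr y
  have hm1 : md ⟨r, k, b⟩ y ≤ 1 := by
    refine (md_le_eps ⟨r, k, b⟩ hr hr1 y).trans ?_
    exact pow_le_one₀ hr.le hr1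
  obtain ⟨l1, l2⟩ := linNear_b0 (P := ⟨r, k, b⟩) hr (x1 := J.wp p y) (x2 := (jetOf u).wp 0 y) (y := y)
    (by linarith) (by linarith)
  have n1' : |J.wp p y - (jetOf u).wp 0 y| ≤ C * (Par.mk r k b).W1 := n1
  have hCW : 0 ≤ C * (Par.mk r k b).W1 := by positivity
  have hBne1 : cB ⟨r, k, b⟩ J p y ≠ 0 := by
    intro h
    rw [h] at a3
    norm_num at a3
  have hBne2 : cB ⟨r, k, b⟩ (jetOf u) 0 y ≠ 0 := by
    intro h
    rw [h] at c3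
    norm_num at c3
  have hBB : |cB ⟨r, k, b⟩ J p y - cB ⟨r, k, b⟩ (jetOf u) 0 y| ≤
      3 / 2 * C * (Par.mk r k b).W1 := by
    have e1 : cB ⟨r, k, b⟩ J p y - cB ⟨r, k, b⟩ (jetOf u) 0 y =
        r ^ 2 * (b0 ⟨r, k, b⟩ (J.wp p y) y - b0 ⟨r, k, b⟩ ((jetOf u).wp 0 y) y) := by
      unfold cB
      ring
    rw [e1, abs_mul, abs_of_nonneg (by positivity : (0 : ℝ) ≤ r ^ 2)]
    have hr2 : r ^ 2 ≤ 1 := pow_le_one₀ hr.le hr1
    calc r ^ 2 * |b0 ⟨r, k, b⟩ (J.wp p y) y - b0 ⟨r, k, b⟩ ((jetOf u).wp 0 y) y|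
        ≤ 1 * |b0 ⟨r, k, b⟩ (J.wp p y) y - b0 ⟨r, k, b⟩ ((jetOf u).wp 0 y) y| :=
          mul_le_mul_of_nonneg_right hr2 (abs_nonneg _)
      _ ≤ 3 / 2 * md ⟨r, k, b⟩ y * |J.wp p y - (jetOf u).wp 0 y| := by
          rw [one_mul]
          exact l1
      _ ≤ 3 / 2 * 1 * (C * (Par.mk r k b).W1) :=
          mul_le_mul (by linarith) n1' (abs_nonneg _) (by norm_num)
      _ = 3 / 2 * C * (Par.mk r k b).W1 := by ring
  have e1 : cq ⟨r, k, b⟩ J p y * cB ⟨r, k, b⟩ J p y = -J.wy p y := by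
    unfold cq
    rw [div_mul_cancel₀ _ hBne1]
  have e2 : cq ⟨r, k, b⟩ (jetOf u) 0 y * cB ⟨r, k, b⟩ (jetOf u) 0 y = -(jetOf u).wy 0 y := by
    unfold cq
    rw [div_mul_cancel₀ _ hBne2]
  have hb1 := (hb0 r hr hr1 (J.wp p y) y (by linarith)).2.2.1
  have hbb : |b0xx ⟨r, k, b⟩ (J.wp p y) y - b0xx ⟨r, k, b⟩ ((jetOf u).wp 0 y) y| ≤
      3 * md ⟨r, k, b⟩ y * (C * (Par.mk r k b).W1) :=
    l2.trans (mul_le_mul_of_nonneg_left n1' (by positivity))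
  exact linNear_alg hr hr1 hC hC' hW0 (hWr.trans hr1) hm0 hp a3 c3 hBB a4 c4 e1 e2 n2 a8 c8 hmu0 hmu2
    hb1 hbb

end

end P229
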