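import Vale.Agent.P229.T.LinSz
import Vale.Agent.P229.T.LinBd2
import Vale.Agent.P229.T.LinNear
import Vale.Agent.P229.T.LinBd1
import Vale.Agent.P229.T.LinCD

/-!
# P229 block T: bounds of the coefficients  (modules LIN_CD, LIN_BD1, LIN_BD2, LIN_NEAR)
-/

namespace P229

open Set Real
open scoped ContDiff

noncomputable section

/-- (LIN_CD) continuity and derivatives of the coefficients (chain rule; `cB ≠ 0`). -/
theorem coefOf_cd {P : Par} (hr : 0 < P.r) {mu : ℝ} {J : J2}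
    (jet : J.IsJet (-(7 / 5)) (7 / 5) (-YY) YY)
    (hB : ∀ p ∈ Icc (-(7 / 5) : ℝ) (7 / 5), ∀ y ∈ Icc (-YY) YY, 1 / 2 ≤ cB P J p y) :
    ContinuousOn (Function.uncurry (coefOf P mu J).t) strip ∧
    ContinuousOn (Function.uncurry (coefOf P mu J).tp) strip ∧
    ContinuousOn (Function.uncurry (coefOf P mu J).ty) strip ∧
    ContinuousOn (Function.uncurry (coefOf P mu J).a) strip ∧
    ContinuousOn (Function.uncurry (coefOf P mu J).ap) strip ∧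
    ContinuousOn (Function.uncurry (coefOf P mu J).d) strip ∧
    ContinuousOn (Function.uncurry (coefOf P mu J).g) strip ∧
    (∀ p ∈ Ioo (-(7 / 5) : ℝ) (7 / 5), ∀ y ∈ Icc (-YY) YY,
      HasDerivAt (fun q => (coefOf P mu J).t q y) ((coefOf P mu J).tp p y) p) ∧
    (∀ p ∈ Icc (-(7 / 5) : ℝ) (7 / 5), ∀ y ∈ Ioo (-YY) YY,
      HasDerivAt (fun q => (coefOf P mu J).t p q) ((coefOf P mu J).ty p y) y) ∧
    (∀ p ∈ Ioo (-(7 / 5) : ℝ) (7 / 5), ∀ y ∈ Icc (-YY) YY,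
      HasDerivAt (fun q => (coefOf P mu J).a q y) ((coefOf P mu J).ap p y) p) :=
  coefOf_cd_proof jet hB

/-- (LIN_NEAR) closeness to `a_*` for `|p| ≤ 3 W1`. All of `x`, `q`, `B`, `varpi` at `(p,y)` for `J`
and at `(0,y)` for `u` differ by `O(W1)`; `b0xx` is Lipschitz in `x` with constant `3 md`. -/
theorem coefOf_near (C : ℝ) (k b : ℕ) (hC : 1 ≤ C) (hk : 10 ≤ k) :
    ∃ C' r0 : ℝ, 1 ≤ C' ∧ 0 < r0 ∧ ∀ r : ℝ, 0 < r → r < r0 → ∀ (mu : ℝ)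
      (u : ℝ → ℝ → ℝ) (J : J2), 1 / C ≤ mu → mu ≤ C → GoodJ ⟨r, k, b⟩ C u J →
      GoodJ ⟨r, k, b⟩ C u (jetOf u) →
      ∀ p : ℝ, |p| ≤ 3 * (Par.mk r k b).W1 → ∀ y ∈ Icc (-YY) YY,
        |(coefOf ⟨r, k, b⟩ mu J).a p y - astT ⟨r, k, b⟩ mu u y|
          ≤ C' * (Par.mk r k b).W1 * md ⟨r, k, b⟩ y := by
  exact coefOf_near_proof C k b hC hk

end

end P229
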