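import Vale.Agent.P229.T.LinSz
import Vale.Agent.P229.F.Bump

/-!
# P229 block T: the right hand side `h = E0(u) - E0(U)`  (module LIN_H)
-/

namespace P229

open Set Real
open scoped ContDiff

noncomputable section

private theorem lh_b0 (P : Par) (hr0 : 0 < P.r) (hr1 : P.r ≤ 1) {x : ℝ} (hx : |x| ≤ 3 / 2)
    (y : ℝ) : |b0 P x y| ≤ 3 := by
  have he0 : 0 ≤ P.eps := by unfold Par.eps; positivity
  have he1 : P.eps ≤ 1 := pow_le_one₀ hr0.le hr1
  have hc0 : 0 ≤ P.epsc := by unfold Par.epsc; positivity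
  have hc1 : P.epsc ≤ 1 := pow_le_one₀ hr0.le hr1
  have hx2 : x ^ 2 ≤ 9 / 4 := by
    rw [← sq_abs x]
    have := pow_le_pow_left₀ (abs_nonneg x) hx 2
    norm_num at this ⊢
    exact this
  have hx0 : 0 ≤ x ^ 2 := sq_nonneg x
  have h1 : P.eps * chi y ≤ 1 := mul_le_one₀ he1 (chi_nonneg y) (chi_le_one y)
  have h1' : 0 ≤ P.eps * chi y := mul_nonneg he0 (chi_nonneg y)
  have h2 : P.epsc * kk y ≤ 1 := mul_le_one₀ hc1 (kk_nonneg y) (kk_le_one y)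
  have h2' : 0 ≤ P.epsc * kk y := mul_nonneg hc0 (kk_nonneg y)
  have e : b0 P x y = -(P.eps * chi y * (x ^ 2 / 2))
      + P.epsc * kk y * (x ^ 2 * (1 / 2 - x ^ 2 / 12)) := by
    unfold b0; ring
  have h3 : P.eps * chi y * (x ^ 2 / 2) ≤ 1 * (9 / 8) :=
    mul_le_mul h1 (by linarith) (by positivity) (by norm_num)
  have h3' : 0 ≤ P.eps * chi y * (x ^ 2 / 2) := mul_nonneg h1' (by positivity)
  have h4 : x ^ 2 * (1 / 2 - x ^ 2 / 12) ≤ 9 / 4 * (1 / 2) :=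
    mul_le_mul hx2 (by linarith) (by linarith) (by norm_num)
  have h4' : 0 ≤ x ^ 2 * (1 / 2 - x ^ 2 / 12) := mul_nonneg hx0 (by linarith)
  have h5 : P.epsc * kk y * (x ^ 2 * (1 / 2 - x ^ 2 / 12)) ≤ 1 * (9 / 4 * (1 / 2)) :=
    mul_le_mul h2 h4 h4' (by norm_num)
  have h5' : 0 ≤ P.epsc * kk y * (x ^ 2 * (1 / 2 - x ^ 2 / 12)) := mul_nonneg h2' h4'
  rw [e, abs_le]
  constructor <;> linarith

private theorem lh_cont_jet (P : Par) (mu : ℝ) (hr0 : 0 < P.r) (hr1 : P.r ≤ 1 / 10) {J : J2}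
    (hJ : J.IsJet (-(7 / 5)) (7 / 5) (-YY) YY) (hx : ∀ q ∈ strip, |J.wp q.1 q.2| ≤ 3 / 2) :
    ContinuousOn (fun q : ℝ × ℝ => EE0 P mu q.1 q.2 (J.wp q.1 q.2) (J.wy q.1 q.2)
      (J.wpp q.1 q.2) (J.wpy q.1 q.2) (J.wyy q.1 q.2)) strip := by
  have hwp : ContinuousOn (fun q : ℝ × ℝ => J.wp q.1 q.2) strip := hJ.cwp
  have hwy : ContinuousOn (fun q : ℝ × ℝ => J.wy q.1 q.2) strip := hJ.cwy
  have hpp : ContinuousOn (fun q : ℝ × ℝ => J.wpp q.1 q.2) strip := hJ.cwpp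
  have hpy : ContinuousOn (fun q : ℝ × ℝ => J.wpy q.1 q.2) strip := hJ.cwpy
  have hyy : ContinuousOn (fun q : ℝ × ℝ => J.wyy q.1 q.2) strip := hJ.cwyy
  have hpair : ContinuousOn (fun q : ℝ × ℝ => (J.wp q.1 q.2, q.2)) strip :=
    hwp.prodMk continuousOn_snd
  have hb : ContinuousOn (fun q : ℝ × ℝ => b0 P (J.wp q.1 q.2) q.2) strip :=
    (continuous_b0 P).comp_continuousOn hpair
  have hbx : ContinuousOn (fun q : ℝ × ℝ => b0x P (J.wp q.1 q.2) q.2) strip :=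
    (continuous_b0x P).comp_continuousOn hpair
  have hbxx : ContinuousOn (fun q : ℝ × ℝ => b0xx P (J.wp q.1 q.2) q.2) strip :=
    (continuous_b0xx P).comp_continuousOn hpair
  have hby : ContinuousOn (fun q : ℝ × ℝ => b0y P (J.wp q.1 q.2) q.2) strip :=
    (continuous_b0y P).comp_continuousOn hpair
  have hB : ContinuousOn (fun q : ℝ × ℝ => 1 + P.r ^ 2 * b0 P (J.wp q.1 q.2) q.2) strip :=
    continuousOn_const.add (continuousOn_const.mul hb)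
  have hne : ∀ q ∈ strip, 1 + P.r ^ 2 * b0 P (J.wp q.1 q.2) q.2 ≠ 0 := by
    intro q hq
    have h1 := abs_le.1 (lh_b0 P hr0 (by linarith) (hx q hq) q.2)
    have h2 : P.r ^ 2 ≤ 1 / 100 := by
      have := pow_le_pow_left₀ hr0.le hr1 2
      norm_num at this ⊢
      exact this
    have h3 : 0 ≤ P.r ^ 2 := sq_nonneg _
    have h4 : -(3 / 100) ≤ P.r ^ 2 * b0 P (J.wp q.1 q.2) q.2 := by nlinarith [h1.1]
    have : 0 < 1 + P.r ^ 2 * b0 P (J.wp q.1 q.2) q.2 := by linarith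
    exact this.ne'
  have hq : ContinuousOn (fun q : ℝ × ℝ => -J.wy q.1 q.2 /
      (1 + P.r ^ 2 * b0 P (J.wp q.1 q.2) q.2)) strip := hwy.neg.div hB hne
  unfold EE0 EEalg
  exact ((((hyy.add ((continuousOn_const.mul ((continuousOn_const.mul hbx).mul hq)).mul hpy)).add
    ((((continuousOn_const.mul hbx).mul hq).pow 2).mul hpp)).sub
    (((hB.mul (continuousOn_const.sub (continuousOn_const.mul
      ((continuousOn_fst.pow 2).add (hq.pow 2))))).mul hbxx).mul hpp)).add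
    (continuousOn_const.mul ((hq.mul hby).sub ((hB.mul continuousOn_fst).mul hbx))))

private theorem lh_h {P : Par} {mu C1 : ℝ} {u : ℝ → ℝ → ℝ} (U : J2) (hu : GoodU P mu C1 u)
    {p y : ℝ} (hp : |p| < 144 / 100) (hy : |y| < 208 / 100) :
    hfunT P mu u U p y = hbump P mu u p y
      - EE0 P mu p y (U.wp p y) (U.wy p y) (U.wpp p y) (U.wpy p y) (U.wyy p y) := by
  unfold hfunT hbump
  rw [hu.pde p y hp hy, sub_zero]

/-- off the bump (`lam ≤ |y|` or `2 lam ≤ |p|`, then `lam ≤ |u_p(p,y)|`) `E0(u) = E(u) = 0`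
(`bb_eq_zero`); on the bump `|E0(u) - E(u)| <= C eta epsc`; `|E0(U)| <= r^Q`.
`|u_p(p,y)| ≥ 99/100 |p| - lam/50` for `|y| ≤ lam` (`u_p(0,0) = 0`, `upp`, `upy`). -/
theorem h_bounds (C1 C2 : ℝ) (k b : ℕ) (hC1 : 1 ≤ C1) (hC2 : 1 ≤ C2) (hk : 10 ≤ k) :
    ∃ C r0 : ℝ, 1 ≤ C ∧ 0 < r0 ∧ ∀ r : ℝ, 0 < r → r < r0 → ∀ (mu : ℝ) (Q : ℕ)
      (u : ℝ → ℝ → ℝ) (U : J2), 1 / C1 ≤ mu → mu ≤ C1 → GoodU ⟨r, k, b⟩ mu C1 u →
      SlowU ⟨r, k, b⟩ mu C2 Q u U →
      (∀ p ∈ Icc (-(7 / 5) : ℝ) (7 / 5), ∀ y ∈ Icc (-YY) YY,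
        (2 * (Par.mk r k b).lam ≤ |p| ∨ (Par.mk r k b).lam ≤ |y|) →
          |hfunT ⟨r, k, b⟩ mu u U p y| ≤ r ^ Q) ∧
      (∀ p ∈ Icc (-(7 / 5) : ℝ) (7 / 5), ∀ y ∈ Icc (-YY) YY,
        |hfunT ⟨r, k, b⟩ mu u U p y|
          ≤ C * ((Par.mk r k b).eta * (Par.mk r k b).epsc) + r ^ Q) ∧
      (∀ p ∈ Icc (-(7 / 5) : ℝ) (7 / 5), ∀ y : ℝ, 1 ≤ |y| → |y| ≤ 2 →
        (vJetT u U).wyy p y = hfunT ⟨r, k, b⟩ mu u U p y) := by
  obtain ⟨Ck, hCk, hk1, hk2, -, -, -, -⟩ := exists_Ck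
  set CB : ℝ := 100 * (C1 + 1) ^ 2 * Ck ^ 2 * (C1 + 10) * 100 with hCB
  have hCB0 : 0 ≤ CB := by positivity
  refine ⟨CB + 2 * C1 * Ck + 1, 1 / 100, ?_, by norm_num, ?_⟩
  · have : 0 ≤ 2 * C1 * Ck := by positivity
    linarith
  intro r hr0 hr mu Q u U hm1 hm2 hu hU
  set P : Par := ⟨r, k, b⟩ with hP
  have hrP0 : 0 < P.r := hr0
  have hrP : P.r ≤ 1 / 2 := by show r ≤ 1 / 2; linarith
  obtain ⟨hl0, hl1, hec0, hec1, heta0, heta1, hr2⟩ := F3_par P hrP0 hrP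
  have he0 : 0 ≤ P.eta * P.epsc := mul_nonneg heta0 hec0
  have he1 : P.eta * P.epsc ≤ 1 := mul_le_one₀ heta1 hec0 hec1
  have hYY : (YY : ℝ) = 41 / 20 := rfl
  have hlt : ∀ p ∈ Icc (-(7 / 5) : ℝ) (7 / 5), ∀ y ∈ Icc (-YY) YY,
      |p| ≤ 14 / 10 ∧ |y| ≤ YY ∧ |p| < 144 / 100 ∧ |y| < 208 / 100 := by
    intro p hp y hy
    have h1 : |p| ≤ 14 / 10 := abs_le.2 ⟨by linarith [hp.1], by linarith [hp.2]⟩
    have h2 : |y| ≤ YY := abs_le.2 ⟨by linarith [hy.1], hy.2⟩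
    exact ⟨h1, h2, by linarith, by rw [hYY] at h2; linarith⟩
  have hEU : ∀ p ∈ Icc (-(7 / 5) : ℝ) (7 / 5), ∀ y ∈ Icc (-YY) YY,
      |EE0 P mu p y (U.wp p y) (U.wy p y) (U.wpp p y) (U.wpy p y) (U.wyy p y)| ≤ r ^ Q := by
    intro p hp y hy
    exact hU.eq p ⟨by linarith [hp.1], by linarith [hp.2]⟩ y hy
  -- off the bump
  have hoff : ∀ p ∈ Icc (-(7 / 5) : ℝ) (7 / 5), ∀ y ∈ Icc (-YY) YY,
      (P.lam ≤ |dx u p y| ∨ P.lam ≤ |y|) → |hfunT P mu u U p y| ≤ r ^ Q := by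
    intro p hp y hy h
    obtain ⟨h1, h2, h3, h4⟩ := hlt p hp y hy
    rw [lh_h U hu h3 h4, hbump_zero hr0 h, zero_sub, abs_neg]
    exact hEU p hp y hy
  refine ⟨?_, ?_, ?_⟩
  · intro p hp y hy h
    obtain ⟨h1, h2, h3, h4⟩ := hlt p hp y hy
    by_cases hyl : P.lam ≤ |y|
    · exact hoff p hp y hy (Or.inr hyl)
    · have hyl' : |y| < P.lam := not_le.1 hyl
      have hp2 : 2 * P.lam ≤ |p| := by
        rcases h with h | h
        · exact h
        · exact absurd h hyl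
      obtain ⟨g1, -, -⟩ := bump_geom (P := P) hC1 hr0 (by show r < 1; linarith) hu h1 h2
      exact hoff p hp y hy (Or.inl (by linarith))
  · intro p hp y hy
    obtain ⟨h1, h2, h3, h4⟩ := hlt p hp y hy
    have hpos : 0 ≤ (CB + 2 * C1 * Ck + 1) * (P.eta * P.epsc) := by positivity
    by_cases hc : P.lam ≤ |dx u p y| ∨ P.lam ≤ |y|
    · exact (hoff p hp y hy hc).trans (by linarith)
    · rw [not_or, not_le, not_le] at hc
      obtain ⟨hx, hyl⟩ := hc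
      obtain ⟨g1, g2, g3⟩ := bump_geom (P := P) hC1 hr0 (by show r < 1; linarith) hu h1 h2
      have hp2 : |p| ≤ 2 * P.lam := by
        have := abs_nonneg p
        linarith
      have huy : |dy u p y| ≤ (C1 + 1) * P.lam := by
        have h1 : C1 * |y| ≤ C1 * P.lam := mul_le_mul_of_nonneg_left hyl.le (by linarith)
        linarith
      have hupp : |dx (dx u) p y| ≤ 2 := by
        have h1 := hu.upp p y h3 h4
        have h2 := abs_le.1 h1
        rw [abs_le]; constructor <;> linarith [h2.1, h2.2]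
      have hupy : |dy (dx u) p y| ≤ 1 := (hu.upy p y h3 h4).trans (by norm_num)
      have hmu : |mu| ≤ C1 := by
        have : 0 < 1 / C1 := by positivity
        rw [abs_of_pos (by linarith)]; exact hm2
      obtain ⟨v0, v1, v2, by0, w0, w1, w2, w3⟩ := F3_vals P hk1 hk2 hrP0 hrP hx hyl
      have key := F3_fin2 P mu u p y (by positivity) hr2 hl0 hl1 he0 he1 (K := C1 + 1)
        (by linarith) hCk hmu v0 v1 v2 by0 w0 w1 w2 w3 hp2 huy hupp hupy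
      have key2 : |mu * (bbxx P (dx u p y) y * dx (dx u) p y)|
          ≤ 2 * C1 * Ck * (P.eta * P.epsc) := by
        rw [abs_mul, abs_mul]
        calc |mu| * (|bbxx P (dx u p y) y| * |dx (dx u) p y|)
            ≤ C1 * (Ck * (P.eta * P.epsc) * 2) := by
              refine mul_le_mul hmu (mul_le_mul w2 hupp (abs_nonneg _) (by positivity))
                (by positivity) (by linarith)
          _ = 2 * C1 * Ck * (P.eta * P.epsc) := by ring
      have key3 : CB * (P.eta * P.epsc * P.r ^ 2 * P.lam ^ 2) ≤ CB * (P.eta * P.epsc) := by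
        refine mul_le_mul_of_nonneg_left ?_ hCB0
        have h5 : P.r ^ 2 * P.lam ^ 2 ≤ 1 := by
          refine mul_le_one₀ (by linarith) (by positivity) ?_
          exact pow_le_one₀ hl0.le (by linarith)
        calc P.eta * P.epsc * P.r ^ 2 * P.lam ^ 2 = P.eta * P.epsc * (P.r ^ 2 * P.lam ^ 2) := by
              ring
          _ ≤ P.eta * P.epsc * 1 := mul_le_mul_of_nonneg_left h5 he0
          _ = P.eta * P.epsc := mul_one _
      have hE := hEU p hp y hy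
      rw [lh_h U hu h3 h4]
      have k1 := abs_le.1 key
      have k2 := abs_le.1 key2
      have k3 := abs_le.1 hE
      have e1 : (CB + 2 * C1 * Ck + 1) * (P.eta * P.epsc) = CB * (P.eta * P.epsc)
        + 2 * C1 * Ck * (P.eta * P.epsc) + P.eta * P.epsc := by ring
      show |_| ≤ (CB + 2 * C1 * Ck + 1) * (P.eta * P.epsc) + r ^ Q
      rw [e1, abs_le]
      rw [← hCB] at k1
      constructor <;> linarith [k1.1, k1.2, k2.1, k2.2, k3.1, k3.2]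
  · intro p hp y hy1 hy2
    have hkk : kk y = 0 := kk_eq_zero hy1
    have hdkk : deriv kk y = 0 := deriv_kk_eq_zero hy1
    have hchi : chi y = 0 := chi_eq_zero hy2
    have hdchi : deriv chi y = 0 := deriv_chi_eq_zero hy2
    have e0 : ∀ x, b0 P x y = 0 := fun x => by unfold b0; rw [hkk, hchi]; ring
    have ex : ∀ x, b0x P x y = 0 := fun x => by unfold b0x; rw [hkk, hchi]; ring
    have exx : ∀ x, b0xx P x y = 0 := fun x => by unfold b0xx; rw [hkk, hchi]; ring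
    have ey : ∀ x, b0y P x y = 0 := fun x => by unfold b0y; rw [hdkk, hdchi]; ring
    unfold hfunT EE0 EEalg vJetT
    simp only [e0, ex, exx, ey]
    ring

/-- continuity of `h` on the strip. -/
theorem h_cont (C1 C2 : ℝ) (k b : ℕ) (hC1 : 1 ≤ C1) (hC2 : 1 ≤ C2) (hk : 10 ≤ k) :
    ∃ r0 : ℝ, 0 < r0 ∧ ∀ r : ℝ, 0 < r → r < r0 → ∀ (mu : ℝ) (Q : ℕ)
      (u : ℝ → ℝ → ℝ) (U : J2), 1 / C1 ≤ mu → mu ≤ C1 → GoodU ⟨r, k, b⟩ mu C1 u →
      SlowU ⟨r, k, b⟩ mu C2 Q u U →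
      ContinuousOn (Function.uncurry (hfunT ⟨r, k, b⟩ mu u U)) strip := by
  refine ⟨min (1 / 10) (1 / (20 * C2)), by positivity, ?_⟩
  intro r hr0 hr mu Q u U hm1 hm2 hu hU
  set P : Par := ⟨r, k, b⟩ with hP
  have hr1 : r < 1 / 10 := hr.trans_le (min_le_left _ _)
  have hr2 : r < 1 / (20 * C2) := hr.trans_le (min_le_right _ _)
  have hs : C2 * P.s ≤ 1 / 20 := by
    have h1 : P.s ≤ r := by
      show r ^ (10 * k) ≤ r
      calc r ^ (10 * k) ≤ r ^ 1 := pow_le_pow_of_le_one hr0.le (by linarith) (by omega)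
        _ = r := pow_one r
    have h2 : C2 * r ≤ 1 / 20 := by
      have h3 : r * (20 * C2) ≤ 1 := by
        have := (lt_div_iff₀ (by positivity : (0 : ℝ) < 20 * C2)).1 hr2
        exact this.le
      linarith
    exact (mul_le_mul_of_nonneg_left h1 (by linarith)).trans h2
  have hYY : (YY : ℝ) = 41 / 20 := rfl
  have hux : ∀ q ∈ strip, |dx u q.1 q.2| ≤ 29 / 20 := by
    rintro ⟨p, y⟩ ⟨hp, hy⟩
    have h1 : |p| ≤ 7 / 5 := abs_le.2 ⟨hp.1, hp.2⟩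
    have h2 : |y| ≤ YY := abs_le.2 ⟨hy.1, hy.2⟩
    have h3 := abs_le.1 (hu.up p y (by linarith) (by rw [hYY] at h2; linarith))
    have h4 := abs_le.1 h1
    exact abs_le.2 ⟨by linarith [h3.1, h4.1], by linarith [h3.2, h4.2]⟩
  have hUj : U.IsJet (-(7 / 5)) (7 / 5) (-YY) YY := by
    have h := hU.jet
    have e : (14 / 10 : ℝ) = 7 / 5 := by norm_num
    rw [e] at h
    exact h
  have hUx : ∀ q ∈ strip, |U.wp q.1 q.2| ≤ 3 / 2 := by
    rintro ⟨p, y⟩ ⟨hp, hy⟩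
    have h1 := abs_le.1 (hux (p, y) ⟨hp, hy⟩)
    have h2 := abs_le.1 ((hU.cp p ⟨by linarith [hp.1], by linarith [hp.2]⟩ y hy).trans hs)
    exact abs_le.2 ⟨by linarith [h1.1, h2.2], by linarith [h1.2, h2.1]⟩
  have c1 := lh_cont_jet P mu hr0 hr1.le (jetOf_isJet hu)
    (fun q hq => (hux q hq).trans (by norm_num))
  have c2 := lh_cont_jet P mu hr0 hr1.le hUj hUx
  exact c1.sub c2

end

end P229
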