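import Vale.Agent.P229.T.LinMVT
import Vale.Agent.P229.T.LinBds
import Vale.Agent.P229.T.LinH

/-!
# P229 block T (and F): `TData` from `GoodU` and `SlowU`  (module LIN_TD)
-/

namespace P229

open Set Real
open scoped ContDiff

noncomputable section

private theorem ltd_goodJ_mono {P : Par} {C C' : ℝ} {u : ℝ → ℝ → ℝ} {J : J2}
    (h : GoodJ P C u J) (hCC : C ≤ C') (hW : 0 ≤ P.W1) : GoodJ P C' u J where
  jet := h.jet
  hx := h.hx
  hpp := h.hpp
  hpy := h.hpy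
  hy := fun p hp y hy => (h.hy p hp y hy).trans hCC
  hyy := fun p hp y hy => (h.hyy p hp y hy).trans hCC
  near := fun p hp y hy =>
    ⟨(h.near p hp y hy).1.trans (mul_le_mul_of_nonneg_right hCC hW),
      (h.near p hp y hy).2.trans (mul_le_mul_of_nonneg_right hCC hW)⟩

private theorem ltd_mono {C C' A m : ℝ} (h : C' ≤ C) (hA : 0 ≤ A) (hm : 0 ≤ m) :
    C' * A * m ≤ C * A * m :=
  mul_le_mul_of_nonneg_right (mul_le_mul_of_nonneg_right h hA) hm

theorem tdata_of (C1 C2 : ℝ) (k b : ℕ) (hC1 : 1 ≤ C1) (hC2 : 1 ≤ C2) (hk : 10 ≤ k) :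
    ∃ C r0 : ℝ, C1 ≤ C ∧ 0 < r0 ∧ ∀ r : ℝ, 0 < r → r < r0 → ∀ (mu : ℝ) (Q : ℕ)
      (u : ℝ → ℝ → ℝ) (U : J2), 1 / C1 ≤ mu → mu ≤ C1 → GoodU ⟨r, k, b⟩ mu C1 u →
      SlowU ⟨r, k, b⟩ mu C2 Q u U →
      TData ⟨r, k, b⟩ mu C Q (astT ⟨r, k, b⟩ mu u) (vJetT u U) (hfunT ⟨r, k, b⟩ mu u U) := by
  obtain ⟨CA, rA, hCA, hrA, HA⟩ := goodJ_of C1 C2 k b hC1 hC2 hk
  obtain ⟨CB, rB, hCB, hrB, HB⟩ := goodJ_u C1 k b hC1 hk
  obtain ⟨C0, hC0⟩ : ∃ C0 : ℝ, C0 = CA + CB + C1 := ⟨_, rfl⟩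
  have hC01 : 1 ≤ C0 := by linarith
  obtain ⟨C3, r3, hC3, hr3, H3⟩ := goodJ_size C0 k b hC01 hk
  obtain ⟨C4, r4, hC4, hr4, H4⟩ := coefOf_bd1 C0 k b hC01 hk
  obtain ⟨C5, r5, hC5, hr5, H5⟩ := coefOf_bd2 C0 k b hC01 hk
  obtain ⟨C6, r6, hC6, hr6, H6⟩ := coefOf_near C0 k b hC01 hk
  obtain ⟨C7, r7, hC7, hr7, H7⟩ := h_bounds C1 C2 k b hC1 hC2 hk
  obtain ⟨r8, hr8, H8⟩ := h_cont C1 C2 k b hC1 hC2 hk
  refine ⟨C0 + C4 + C5 + C6 + C7,
    min (min (min rA rB) (min r3 r4)) (min (min r5 r6) (min (min r7 r8) (1 / C2))),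
    by linarith, by positivity, ?_⟩
  intro r hr hr0 mu Q u U hmu1 hmu2 hu hU
  simp only [lt_min_iff] at hr0
  obtain ⟨⟨⟨hA, hB⟩, h3, h4⟩, ⟨h5, h6⟩, ⟨h7, h8⟩, h9⟩ := hr0
  have hC2r : C2 * r ≤ 1 := by
    rw [lt_div_iff₀ (by linarith)] at h9
    linarith
  have hr1 : r ≤ 1 := by nlinarith
  have hmu1' : 1 / C0 ≤ mu := by
    refine le_trans ?_ hmu1
    exact one_div_le_one_div_of_le (by linarith) (by linarith)
  have hmu2' : mu ≤ C0 := by linarith
  have hW0 : 0 ≤ (Par.mk r k b).W1 := (pow_pos hr _).le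
  have hs1 : (Par.mk r k b).s ≤ r := by
    have h : r ^ (10 * k) ≤ r ^ 1 := pow_le_pow_of_le_one hr.le hr1 (by omega)
    rwa [pow_one] at h
  have he1 : (Par.mk r k b).eps ≤ r := by
    have h : r ^ (20 * k) ≤ r ^ 1 := pow_le_pow_of_le_one hr.le hr1 (by omega)
    rwa [pow_one] at h
  have hC2s : C2 * (Par.mk r k b).s ≤ 1 :=
    (mul_le_mul_of_nonneg_left hs1 (by linarith)).trans hC2r
  have hC2e : C2 * (Par.mk r k b).eps ≤ 1 :=
    (mul_le_mul_of_nonneg_left he1 (by linarith)).trans hC2r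
  have hmd : ∀ y, 0 ≤ md (Par.mk r k b) y := fun y => md_nonneg (Par.mk r k b) hr y
  have hbr : ∀ p : ℝ, p ∈ Icc (-(7 / 5) : ℝ) (7 / 5) → p ∈ Icc (-(14 / 10) : ℝ) (14 / 10) := by
    intro p hp
    exact ⟨by linarith [hp.1], by linarith [hp.2]⟩
  obtain ⟨k1, k2, k3⟩ := H7 r hr h7 mu Q u U hmu1 hmu2 hu hU
  have hV := vJetT_isJet hu hU
  have hUj : U.IsJet (-(7 / 5)) (7 / 5) (-YY) YY :=
    J2.IsJet.mono hU.jet (by norm_num) (by norm_num) le_rfl le_rfl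
  have hGJ : ∀ s ∈ Icc (0 : ℝ) 1, GoodJ ⟨r, k, b⟩ C0 u (U.line (vJetT u U) s) := fun s hs =>
    ltd_goodJ_mono (HA r hr hA mu Q u U hu hU s hs) (by linarith) hW0
  have hGu : GoodJ ⟨r, k, b⟩ C0 u (jetOf u) :=
    ltd_goodJ_mono (HB r hr hB mu u hu) (by linarith) hW0
  have hcB : ∀ s ∈ Icc (0 : ℝ) 1, ∀ p ∈ Icc (-(7 / 5) : ℝ) (7 / 5), ∀ y ∈ Icc (-YY) YY,
      1 / 2 ≤ cB ⟨r, k, b⟩ (U.line (vJetT u U) s) p y := by
    intro s hs p hp y hy
    have h := (H3 r hr h3 mu u _ hmu1' hmu2' (hGJ s hs) p hp y hy).2.2.1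
    have h' := (abs_le.1 h).1
    linarith
  have hr2 : 0 ≤ r ^ 2 := sq_nonneg r
  have hr4 : 0 ≤ r ^ 4 := pow_nonneg hr.le 4
  have heps : 0 ≤ (Par.mk r k b).eps := (pow_pos hr _).le
  have hgood : ∀ s ∈ Icc (0 : ℝ) 1, (coefOf ⟨r, k, b⟩ mu (U.line (vJetT u U) s)).Good
      ⟨r, k, b⟩ mu (C0 + C4 + C5 + C6 + C7) (astT ⟨r, k, b⟩ mu u) := by
    intro s hs
    have hJ := hGJ s hs
    obtain ⟨c1, c2, c3, c4, c5, c6, c7, c8, c9, c10⟩ :=
      coefOf_cd (P := ⟨r, k, b⟩) hr (mu := mu) hJ.jet (hcB s hs)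
    have B1 := H4 r hr h4 mu u _ hmu1' hmu2' hJ
    obtain ⟨l1, l2, l3, l4, l5⟩ := H5 r hr h5 mu u _ hmu1' hmu2' hJ
    have N1 := H6 r hr h6 mu u _ hmu1' hmu2' hJ hGu
    exact
      { ct := c1
        ctp := c2
        cty := c3
        ca := c4
        cap := c5
        cd := c6
        cg := c7
        htp := c8
        hty := c9
        hap := c10
        bt := fun p hp y hy => (B1 p hp y hy).1.trans (ltd_mono (by linarith) hr2 (hmd y))
        btp := fun p hp y hy => (B1 p hp y hy).2.1.trans (ltd_mono (by linarith) hr2 (hmd y))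
        bd := fun p hp y hy => (B1 p hp y hy).2.2.1.trans (ltd_mono (by linarith) hr2 (hmd y))
        bg := fun p hp y hy => (B1 p hp y hy).2.2.2.1.trans (by
          have h := ltd_mono (C := C0 + C4 + C5 + C6 + C7) (C' := C4) (A := r ^ 4)
            (m := (Par.mk r k b).eps) (by linarith) hr4 heps
          exact mul_le_mul_of_nonneg_right h (hmd y))
        ba := fun p hp y hy => (B1 p hp y hy).2.2.2.2
        lay1 := fun p hp y hy h2 => (l1 p hp y hy h2).1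
        lay2 := fun p hp y hy h2 => (l1 p hp y hy h2).2.trans (ltd_mono (by linarith) hr2 (hmd y))
        core0 := l2
        core1 := l3
        core1' := l4
        core2 := l5
        near := fun p hp y hy => (N1 p hp y hy).trans (ltd_mono (by linarith) hW0 (hmd y)) }
  refine
    { jet := hV
      top := fun p hp => ?_
      bot := fun p hp => ?_
      bw := fun p hp y hy => ⟨?_, ?_, ?_⟩
      ch := H8 r hr h8 mu Q u U hmu1 hmu2 hu hU
      hsmall := k1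
      hbump := fun p hp y hy => (k2 p hp y hy).trans ?_
      gap := k3
      weak := ?_ }
  · show u p YY - U.w p YY = 0
    rw [hU.top p (hbr p hp), sub_self]
  · show u p (-YY) - U.w p (-YY) = 0
    rw [hU.bot p (hbr p hp), sub_self]
  · exact (hU.cw p (hbr p hp) y hy).trans hC2e
  · exact (hU.cp p (hbr p hp) y hy).trans hC2s
  · exact (hU.cy p (hbr p hp) y hy).trans hC2e
  · have h : 0 ≤ (Par.mk r k b).eta * (Par.mk r k b).epsc :=
      mul_nonneg (pow_pos hr _).le (pow_pos hr _).le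
    have h' := mul_le_mul_of_nonneg_right (by linarith : C7 ≤ C0 + C4 + C5 + C6 + C7) h
    linarith
  · intro a b' c d ha hab hb hc hcd hd φ hφ
    have hU' : U.IsJet a b' c d := J2.IsJet.mono hUj ha hb hc hd
    have hV' : (vJetT u U).IsJet a b' c d := J2.IsJet.mono hV ha hb hc hd
    obtain ⟨s, hs, he⟩ := lin_weak ⟨r, k, b⟩ mu U (vJetT u U) hab hcd hU' hV'
      (fun s hs p hp y hy => hcB s hs p ⟨ha.trans hp.1, hp.2.trans hb⟩ y
        ⟨hc.trans hy.1, hy.2.trans hd⟩) hφ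
    refine ⟨_, hgood s ⟨hs.1.le, hs.2.le⟩, he.trans ?_⟩
    congr 1
    funext p y
    congr 1
    unfold hfunT
    have e1 : (U.line (vJetT u U) 1).wp p y = dx u p y := by
      simp only [J2.line, vJetT]; ring
    have e2 : (U.line (vJetT u U) 1).wy p y = dy u p y := by
      simp only [J2.line, vJetT]; ring
    have e3 : (U.line (vJetT u U) 1).wpp p y = dx (dx u) p y := by
      simp only [J2.line, vJetT]; ring
    have e4 : (U.line (vJetT u U) 1).wpy p y = dy (dx u) p y := by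
      simp only [J2.line, vJetT]; ring
    have e5 : (U.line (vJetT u U) 1).wyy p y = dy (dy u) p y := by
      simp only [J2.line, vJetT]; ring
    rw [e1, e2, e3, e4, e5]

end

end P229
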