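import Vale.Agent.P229.T.TDefs
import Vale.Agent.P229.Prof

/-!
# P229: facts about the profiles `kk`, `chi` (shared)  (module T_PROF, helper25)

`kk_nonneg`, `kk_le_one`, `kk_even`, `kk_eq_one`, `kk_eq_zero`, `chi_nonneg`, `chi_le_one`,
`chi_even`, `chi_eq_zero`, `chi_eq_zero'`, `chi_eq_one` come from `Vale/Agent/P229/Prof.lean`
(there `chi_eq_one` has the bounds `61/30 ≤ |y| ≤ 62/30`).
-/

namespace P229

open Set Real
open scoped ContDiff

noncomputable section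

theorem kk_smooth : ContDiff ℝ ∞ kk := kk_contDiff

theorem chi_smooth : ContDiff ℝ ∞ chi := chi_contDiff

/-- plateau of the filter. -/
theorem chi_eq_one' {y : ℝ} (h1 : 2 + 1 / 30 ≤ |y|) (h2 : |y| ≤ 21 / 10 - 1 / 30) : chi y = 1 :=
  chi_eq_one (by linarith) (by linarith)

theorem deriv_kk_zero {y : ℝ} (hy : 1 ≤ |y|) : deriv kk y = 0 := deriv_kk_eq_zero hy

theorem deriv2_kk_zero {y : ℝ} (hy : 1 ≤ |y|) : deriv (deriv kk) y = 0 := deriv2_kk_eq_zero hy

theorem deriv_chi_zero {y : ℝ} (hy : |y| ≤ 2) : deriv chi y = 0 := deriv_chi_eq_zero hy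

/-- bounds of the profiles: first and second derivatives, `(f')^2 ≤ C f`. -/
theorem prof_bounds : ∃ Cp : ℝ, 1 ≤ Cp ∧ ∀ y : ℝ,
    |deriv kk y| ≤ Cp ∧ |deriv (deriv kk) y| ≤ Cp ∧ deriv kk y ^ 2 ≤ Cp * kk y ∧
    |deriv chi y| ≤ Cp ∧ |deriv (deriv chi) y| ≤ Cp ∧ deriv chi y ^ 2 ≤ Cp * chi y := by
  obtain ⟨C, h0, h1, h2, h3, h4, h5, h6⟩ := exists_Ck
  refine ⟨C, h0, fun y => ⟨h1 y, h2 y, ?_, h3 y, h4 y, ?_⟩⟩
  · rw [← sq_abs]
    exact h5 y
  · rw [← sq_abs]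
    exact h6 y

theorem md_nonneg (P : Par) (hr : 0 < P.r) (y : ℝ) : 0 ≤ md P y := by
  have h1 : 0 < P.eps := pow_pos hr _
  have h2 : 0 < P.epsc := pow_pos hr _
  have h3 := chi_nonneg y
  have h4 := kk_nonneg y
  unfold md
  positivity

theorem md_le_eps (P : Par) (hr : 0 < P.r) (hr1 : P.r ≤ 1) (y : ℝ) : md P y ≤ P.eps := by
  have h1 : 0 < P.eps := pow_pos hr _
  have h2 : 0 < P.epsc := pow_pos hr _
  have h5 : P.epsc ≤ P.eps := by
    rw [P.epsc_eq']
    have : P.r ^ 2 ≤ 1 := pow_le_one₀ hr.le hr1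
    nlinarith
  unfold md
  rcases le_total (|y|) 2 with h | h
  · rw [chi_eq_zero h, mul_zero, zero_add]
    calc P.epsc * kk y ≤ P.epsc * 1 := mul_le_mul_of_nonneg_left (kk_le_one y) h2.le
      _ ≤ P.eps := by linarith
  · rw [kk_eq_zero (by linarith : 1 ≤ |y|), mul_zero, add_zero]
    calc P.eps * chi y ≤ P.eps * 1 := mul_le_mul_of_nonneg_left (chi_le_one y) h1.le
      _ = P.eps := mul_one _

theorem md_core (P : Par) {y : ℝ} (hy : |y| ≤ 2) : md P y = P.epsc * kk y := by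
  rw [md, chi_eq_zero hy]; ring

theorem md_lay (P : Par) {y : ℝ} (hy : 1 ≤ |y|) : md P y = P.eps * chi y := by
  rw [md, kk_eq_zero hy]; ring

theorem md_gap (P : Par) {y : ℝ} (hy : 1 ≤ |y|) (hy2 : |y| ≤ 2) : md P y = 0 := by
  rw [md_lay P hy, chi_eq_zero hy2]; ring

theorem md_even (P : Par) (y : ℝ) : md P (-y) = md P y := by
  rw [md, md, chi_even, kk_even]

theorem md_cont (P : Par) : Continuous (md P) := by
  unfold md
  exact (continuous_const.mul chi_contDiff.continuous).add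
    (continuous_const.mul kk_contDiff.continuous)

end

end P229
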