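import Vale.Agent.P229.T.Ident

/-!
# P229, block T: the elliptic energy inequality (used in the start strip and in the layers)
(helper97)
-/

namespace P229

open Set Real MeasureTheory intervalIntegral

noncomputable section

variable {a b c d : ℝ} {tau taup tauy al alp : ℝ → ℝ → ℝ} {v : J2}

/-- Poincare inequality with a weight in `p`. -/
theorem I2_poincare (hab : a ≤ b) (hcd : c ≤ d) (hv : v.IsJet a b c d) {z : ℝ → ℝ}
    (hz : ContinuousOn z (Icc a b)) (hz0 : ∀ p ∈ Icc a b, 0 ≤ z p)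
    (h0 : ∀ p ∈ Icc a b, v.w p d = 0) :
    I2 a b c d (fun p y => z p * v.w p y ^ 2)
      ≤ (d - c) ^ 2 * I2 a b c d (fun p y => z p * v.wy p y ^ 2) := by
  have cz : CR a b c d (fun p _ => z p) := CR.ofP hz
  have c1 : CR a b c d (fun p y => z p * v.w p y ^ 2) := cz.mul (CR.pow hv.cw 2)
  have c2 : CR a b c d (fun p y => z p * v.wy p y ^ 2) := cz.mul (CR.pow hv.cwy 2)
  rw [← I2_const_mul]
  unfold I2
  apply intervalIntegral.integral_mono_on hab (c1.intervalIntegrable hab hcd)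
    (((CR.const a b c d _).mul c2).intervalIntegrable hab hcd)
  intro p hp
  have hw : ContinuousOn (fun y => v.w p y) (Icc c d) := CR.inner hv.cw hp
  have hwy : ContinuousOn (fun y => v.wy p y) (Icc c d) := CR.inner hv.cwy hp
  have key : ∀ y ∈ Icc c d, z p * v.w p y ^ 2
      ≤ z p * ((d - c) * ∫ t in c..d, (v.wy p t) ^ 2) := by
    intro y hy
    exact mul_le_mul_of_nonneg_left
      (sq_le_of_zero_right hcd hw hwy (fun y hy => hv.hy p hp y hy) (h0 p hp) hy) (hz0 p hp)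
  calc ∫ y in c..d, z p * v.w p y ^ 2
      ≤ ∫ y in c..d, z p * ((d - c) * ∫ t in c..d, (v.wy p t) ^ 2) :=
        intervalIntegral.integral_mono_on hcd (c1.inner_integrable hcd hp)
          intervalIntegrable_const key
    _ = (d - c) ^ 2 * (z p * ∫ t in c..d, (v.wy p t) ^ 2) := by
        rw [intervalIntegral.integral_const, smul_eq_mul]; ring
    _ = ∫ y in c..d, (d - c) ^ 2 * (z p * v.wy p y ^ 2) := by
        rw [intervalIntegral.integral_const_mul, intervalIntegral.integral_const_mul]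

/-- trace inequality at `y = c` with a weight in `p`. -/
theorem trace_le (hab : a ≤ b) (hcd : c ≤ d) (hv : v.IsJet a b c d) {z : ℝ → ℝ}
    (hz : ContinuousOn z (Icc a b)) (hz0 : ∀ p ∈ Icc a b, 0 ≤ z p)
    (h0 : ∀ p ∈ Icc a b, v.w p d = 0) :
    (∫ p in a..b, z p * v.w p c ^ 2)
      ≤ (d - c) * I2 a b c d (fun p y => z p * v.wy p y ^ 2) := by
  have cz : CR a b c d (fun p _ => z p) := CR.ofP hz
  have c2 : CR a b c d (fun p y => z p * v.wy p y ^ 2) := cz.mul (CR.pow hv.cwy 2)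
  rw [← I2_const_mul]
  unfold I2
  have c1 : ContinuousOn (fun p => z p * v.w p c ^ 2) (Icc a b) :=
    hz.mul ((CR.outer hv.cw (left_mem_Icc.2 hcd)).pow 2)
  apply intervalIntegral.integral_mono_on hab (c1.intervalIntegrable_of_Icc hab)
    (((CR.const a b c d _).mul c2).intervalIntegrable hab hcd)
  intro p hp
  have hw : ContinuousOn (fun y => v.w p y) (Icc c d) := CR.inner hv.cw hp
  have hwy : ContinuousOn (fun y => v.wy p y) (Icc c d) := CR.inner hv.cwy hp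
  have := mul_le_mul_of_nonneg_left
      (sq_le_of_zero_right hcd hw hwy (fun y hy => hv.hy p hp y hy) (h0 p hp)
        (left_mem_Icc.2 hcd)) (hz0 p hp)
  rw [intervalIntegral.integral_const_mul, intervalIntegral.integral_const_mul]
  linarith

theorem ptw_1 {z z' A V1 Q δ : ℝ} (zp : 0 < z) (hA0 : 0 ≤ A)
    (h2 : z' ^ 2 * A ≤ δ * z ^ 2) :
    |z'| * A * V1 * Q ≤ z * (A * Q ^ 2 / 4 + δ * V1 ^ 2) := by
  have h3 : z * (|z'| * A * V1 * Q) ≤ z * (z * (A * Q ^ 2 / 4 + δ * V1 ^ 2)) := by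
    have h4 : |z'| ^ 2 = z' ^ 2 := sq_abs _
    have h5 : z' ^ 2 * A * V1 ^ 2 ≤ δ * z ^ 2 * V1 ^ 2 :=
      mul_le_mul_of_nonneg_right h2 (sq_nonneg _)
    have h6 : 0 ≤ A * (|z'| * V1 - z * Q / 2) ^ 2 := mul_nonneg hA0 (sq_nonneg _)
    have h7 : A * (|z'| * V1 - z * Q / 2) ^ 2 = z' ^ 2 * A * V1 ^ 2
        - z * (|z'| * A * V1 * Q) + z ^ 2 * (A * Q ^ 2 / 4) := by
      rw [← h4]; ring
    have h8 : z * (z * (A * Q ^ 2 / 4 + δ * V1 ^ 2)) = z ^ 2 * (A * Q ^ 2 / 4)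
      + δ * z ^ 2 * V1 ^ 2 := by ring
    linarith
  exact le_of_mul_le_mul_left h3 zp

theorem ptw_2 {z X V1 G δ : ℝ} (zp : 0 < z) (hδ : 0 ≤ δ) (hV : 0 ≤ V1) (hG : 0 ≤ G)
    (h1 : X ≤ δ * z) : X * V1 * G ≤ z * (δ * (V1 ^ 2 + G ^ 2) / 2) := by
  have h2 : X * V1 * G ≤ (δ * z) * V1 * G := by gcongr
  have h3 : 0 ≤ δ * z * (V1 - G) ^ 2 := by positivity
  have h4 : δ * z * (V1 - G) ^ 2 = 2 * (z * (δ * (V1 ^ 2 + G ^ 2) / 2)) - 2 * ((δ * z) * V1 * G) := by
    ring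
  linarith

theorem ptw_3 {A V1 Q G δ e0 D L s : ℝ} (hδ : 0 ≤ δ) (hD : 0 ≤ D) (hV : 0 ≤ V1)
    (hss : s ^ 2 = A) (h1 : L ≤ e0 + δ * (s * Q + G)) :
    V1 * L ≤ (1 / (32 * (D + 1))) * V1 ^ 2 + 8 * (D + 1) * e0 ^ 2 + δ * V1 ^ 2
      + δ * (A * Q ^ 2 + G ^ 2) / 2 := by
  have h2 : V1 * L ≤ V1 * (e0 + δ * (s * Q + G)) := mul_le_mul_of_nonneg_left h1 hV
  have h3 : V1 * e0 ≤ (1 / (32 * (D + 1))) * V1 ^ 2 + 8 * (D + 1) * e0 ^ 2 := by
    have h4 : 0 ≤ (1 / (32 * (D + 1))) * (V1 - 16 * (D + 1) * e0) ^ 2 := by positivity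
    have h5 : (1 / (32 * (D + 1))) * (V1 - 16 * (D + 1) * e0) ^ 2
        = (1 / (32 * (D + 1))) * V1 ^ 2 - V1 * e0 + 8 * (D + 1) * e0 ^ 2 := by
      field_simp; ring
    linarith
  have h4 : V1 * (δ * (s * Q + G)) ≤ δ * V1 ^ 2 + δ * (A * Q ^ 2 + G ^ 2) / 2 := by
    have h5 : 0 ≤ δ * ((V1 - s * Q) ^ 2 + (V1 - G) ^ 2) := by positivity
    have h6 : δ * ((V1 - s * Q) ^ 2 + (V1 - G) ^ 2) = 2 * (δ * V1 ^ 2 + δ * (s ^ 2 * Q ^ 2
      + G ^ 2) / 2) - 2 * (V1 * (δ * (s * Q + G))) := by ring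
    rw [hss] at h6
    linarith
  have h7 : V1 * (e0 + δ * (s * Q + G)) = V1 * e0 + V1 * (δ * (s * Q + G)) := by ring
  rw [h7] at h2
  linarith

theorem ptw_bound {z z' t tp α w wp g L δ e0 D : ℝ} (zp : 0 < z) (hδ : 0 ≤ δ) (hD : 0 ≤ D)
    (al0 : α ≤ 0) (h1 : |z' * t + z * tp| ≤ δ * z) (h2 : z' ^ 2 * (-α) ≤ δ * z ^ 2)
    (h3 : |L| ≤ e0 + δ * (√(-α) * |wp| + |g|)) :
    |z' * α * w * wp - (z' * t + z * tp) * w * g - z * w * L|
      ≤ (1 / 4 + δ) * (z * (g ^ 2 + (-α) * wp ^ 2))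
        + (5 / 2 * δ + 1 / (32 * (D + 1))) * (z * w ^ 2) + 8 * (D + 1) * e0 ^ 2 * z := by
  have hA0 : 0 ≤ -α := by linarith
  have hss : (√(-α)) ^ 2 = -α := Real.sq_sqrt hA0
  have t1 : |z' * α * w * wp| ≤ z * ((-α) * |wp| ^ 2 / 4 + δ * |w| ^ 2) := by
    have e : |z' * α * w * wp| = |z'| * (-α) * |w| * |wp| := by
      rw [abs_mul, abs_mul, abs_mul, abs_of_nonpos al0]
    rw [e]; exact ptw_1 zp hA0 h2
  have t2 : |(z' * t + z * tp) * w * g| ≤ z * (δ * (|w| ^ 2 + |g| ^ 2) / 2) := by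
    rw [abs_mul, abs_mul]
    exact ptw_2 zp hδ (abs_nonneg _) (abs_nonneg _) h1
  have t3 : |z * w * L| ≤ z * ((1 / (32 * (D + 1))) * |w| ^ 2 + 8 * (D + 1) * e0 ^ 2
      + δ * |w| ^ 2 + δ * ((-α) * |wp| ^ 2 + |g| ^ 2) / 2) := by
    rw [abs_mul, abs_mul, abs_of_pos zp, mul_assoc]
    exact mul_le_mul_of_nonneg_left (ptw_3 hδ hD (abs_nonneg _) hss h3) zp.le
  have t4 : |z' * α * w * wp - (z' * t + z * tp) * w * g - z * w * L|
      ≤ |z' * α * w * wp| + |(z' * t + z * tp) * w * g| + |z * w * L| := by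
    have a1 := abs_sub (z' * α * w * wp - (z' * t + z * tp) * w * g) (z * w * L)
    have a2 := abs_sub (z' * α * w * wp) ((z' * t + z * tp) * w * g)
    linarith
  rw [sq_abs, sq_abs] at t1 t2
  rw [sq_abs, sq_abs, sq_abs] at t3
  have n1 : 0 ≤ z * g ^ 2 := by positivity
  have n2 : 0 ≤ z * ((-α) * wp ^ 2) * δ := by positivity
  have e : (1 / 4 + δ) * (z * (g ^ 2 + (-α) * wp ^ 2))
        + (5 / 2 * δ + 1 / (32 * (D + 1))) * (z * w ^ 2) + 8 * (D + 1) * e0 ^ 2 * z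
      = (z * ((-α) * wp ^ 2 / 4 + δ * w ^ 2) + z * (δ * (w ^ 2 + g ^ 2) / 2)
        + z * ((1 / (32 * (D + 1))) * w ^ 2 + 8 * (D + 1) * e0 ^ 2
      + δ * w ^ 2 + δ * ((-α) * wp ^ 2 + g ^ 2) / 2))
        + (1 / 4 * (z * g ^ 2) + 1 / 2 * (z * ((-α) * wp ^ 2) * δ)) := by ring
  rw [e]
  linarith

/-- **Elliptic energy inequality.** `al ≤ 0`, `v = 0` on `y = d`, positive weight `z(p)`.
The equation is used only in the weak form `hL` (`L0 v` replaced by `F` after pairing with `z v`). -/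
theorem ell_energy {F : ℝ → ℝ → ℝ} (hab : a ≤ b) (hcd : c ≤ d) (hv : v.IsJet a b c d)
    (hc : CoefJet a b c d tau taup tauy al alp) {z z' : ℝ → ℝ}
    (hz : ContinuousOn z (Icc a b)) (hz' : ContinuousOn z' (Icc a b))
    (hzd : ∀ p ∈ Ioo a b, HasDerivAt z (z' p) p)
    (hzpos : ∀ p ∈ Icc a b, 0 < z p)
    (h0 : ∀ p ∈ Icc a b, v.w p d = 0)
    {δ e0 : ℝ} (hδ0 : 0 ≤ δ) (hδ : δ * (16 * (5 * (d - c) ^ 2 + 1)) ≤ 1)
    (hal : ∀ p ∈ Icc a b, ∀ y ∈ Icc c d, al p y ≤ 0)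
    (hA1 : ∀ p ∈ Icc a b, ∀ y ∈ Icc c d, |z' p * tau p y + z p * taup p y| ≤ δ * z p)
    (hA2 : ∀ p ∈ Icc a b, ∀ y ∈ Icc c d, (z' p) ^ 2 * (-al p y) ≤ δ * (z p) ^ 2)
    (cL : CR a b c d F)
    (hL : I2 a b c d (fun p y => z p * v.w p y * L0 v tau taup tauy al alp p y)
      = I2 a b c d (fun p y => z p * v.w p y * F p y))
    (hA3 : ∀ p ∈ Icc a b, ∀ y ∈ Icc c d, |F p y|
      ≤ e0 + δ * (√(-al p y) * |v.wp p y| + |gD v tau p y|))
    (hA4 : ∀ p ∈ Icc a b, ∀ y ∈ Icc c d, (tau p y) ^ 2 ≤ -al p y) :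
    5 / 8 * I2 a b c d (fun p y => z p * (gD v tau p y ^ 2 + (-al p y) * v.wp p y ^ 2))
      ≤ 8 * ((d - c) ^ 2 + 1) * e0 ^ 2 * I2 a b c d (fun p _ => z p)
        + |∫ p in a..b, z p * v.w p c * gD v tau p c|
        + |∫ y in c..d, z b * v.w b y * (tau b y * gD v tau b y - al b y * v.wp b y)|
        + |∫ y in c..d, z a * v.w a y * (tau a y * gD v tau a y - al a y * v.wp a y)| := by
  have cz : CR a b c d (fun p _ => z p) := CR.ofP hz
  have cz' : CR a b c d (fun p _ => z' p) := CR.ofP hz'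
  have cw : CR a b c d v.w := hv.cw
  have cwp : CR a b c d v.wp := hv.cwp
  have cwy : CR a b c d v.wy := hv.cwy
  have cg := cr_gD hv hc
  have cal : CR a b c d al := hc.cal
  have ctau : CR a b c d tau := hc.ctau
  set D := (d - c) ^ 2 with hD
  have hD0 : 0 ≤ D := sq_nonneg _
  have id2 := ident2 hab hcd hv hc hz hz' hzd
  have e1 : (∫ p in a..b, z p * v.w p d * gD v tau p d) = 0 := by
    rw [← intervalIntegral.integral_zero (a := a) (b := b) (μ := volume)]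
    apply intervalIntegral.integral_congr
    intro p hp
    rw [uIcc_of_le hab] at hp
    simp [h0 p hp]
  rw [e1, hL] at id2
  -- abbreviations
  have cG : CR a b c d (fun p y => z p * gD v tau p y ^ 2) := cz.mul (cg.pow 2)
  have cA : CR a b c d (fun p y => z p * al p y * v.wp p y ^ 2) := (cz.mul cal).mul (cwp.pow 2)
  have cTa : CR a b c d (fun p y => z' p * al p y * v.w p y * v.wp p y) :=
    ((cz'.mul cal).mul cw).mul cwp
  have cTb : CR a b c d (fun p y => (z' p * tau p y + z p * taup p y) * v.w p y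
      * gD v tau p y) := (((cz'.mul ctau).add (cz.mul hc.ctaup)).mul cw).mul cg
  have cTc : CR a b c d (fun p y => z p * v.w p y * F p y) :=
    (cz.mul cw).mul cL
  have cS : CR a b c d (fun p y => z p * (gD v tau p y ^ 2 + (-al p y) * v.wp p y ^ 2)) :=
    cz.mul ((cg.pow 2).add (cal.neg.mul (cwp.pow 2)))
  have cV : CR a b c d (fun p y => z p * v.w p y ^ 2) := cz.mul (cw.pow 2)
  set S := I2 a b c d (fun p y => z p * (gD v tau p y ^ 2 + (-al p y) * v.wp p y ^ 2)) with hS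
  have hSe : S = I2 a b c d (fun p y => z p * gD v tau p y ^ 2)
      - I2 a b c d (fun p y => z p * al p y * v.wp p y ^ 2) := by
    rw [← I2_sub hab hcd cG cA, hS]
    exact I2_congr hab hcd (fun p _ y _ => by ring)
  have hS0 : 0 ≤ S := I2_nonneg hab hcd (fun p hp y hy => mul_nonneg (hzpos p hp).le
    (add_nonneg (sq_nonneg _) (mul_nonneg (by linarith [hal p hp y hy]) (sq_nonneg _))))
  -- Poincare
  have hP := I2_poincare hab hcd hv hz (fun p hp => (hzpos p hp).le) h0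
  have hP2 : I2 a b c d (fun p y => z p * v.wy p y ^ 2) ≤ 2 * S := by
    rw [hS, ← I2_const_mul]
    apply I2_mono hab hcd (cz.mul (cwy.pow 2)) ((CR.const a b c d _).mul cS)
    intro p hp y hy
    have h1 : v.wy p y = gD v tau p y - tau p y * v.wp p y := by unfold gD; ring
    have h2 := hA4 p hp y hy
    have h3 : v.wy p y ^ 2 ≤ 2 * (gD v tau p y ^ 2 + (-al p y) * v.wp p y ^ 2) := by
      rw [h1]
      have h4 : (tau p y) ^ 2 * v.wp p y ^ 2 ≤ (-al p y) * v.wp p y ^ 2 :=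
        mul_le_mul_of_nonneg_right h2 (sq_nonneg _)
      nlinarith [sq_nonneg (gD v tau p y + tau p y * v.wp p y)]
    have := mul_le_mul_of_nonneg_left h3 (hzpos p hp).le
    linarith
  set V := I2 a b c d (fun p y => z p * v.w p y ^ 2) with hV
  have hV2 : V ≤ 2 * D * S := by nlinarith
  have hV0 : 0 ≤ V := I2_nonneg hab hcd (fun p hp y _ => mul_nonneg (hzpos p hp).le (sq_nonneg _))
  -- pointwise bound
  set η : ℝ := 1 / (32 * (D + 1)) with hη
  have hη0 : 0 < η := by positivity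
  set Z := I2 a b c d (fun p _ => z p) with hZ
  have hbound : |I2 a b c d (fun p y => z' p * al p y * v.w p y * v.wp p y
        - (z' p * tau p y + z p * taup p y) * v.w p y * gD v tau p y
        - z p * v.w p y * F p y)|
      ≤ (1 / 4 + δ) * S + (5 / 2 * δ + η) * V + 8 * (D + 1) * e0 ^ 2 * Z := by
    have cR : CR a b c d (fun p y => (1 / 4 + δ) * (z p * (gD v tau p y ^ 2
        + (-al p y) * v.wp p y ^ 2)) + (5 / 2 * δ + η) * (z p * v.w p y ^ 2)
        + 8 * (D + 1) * e0 ^ 2 * z p) :=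
      (((CR.const a b c d _).mul cS).add ((CR.const a b c d _).mul cV)).add
        ((CR.const a b c d _).mul cz)
    have hle := I2_abs_le hab hcd ((cTa.sub cTb).sub cTc) cR (by
      intro p hp y hy
      have zp := hzpos p hp
      have al0 := hal p hp y hy
      have h3 := hA3 p hp y hy
      have := ptw_bound (z := z p) (z' := z' p) (t := tau p y) (tp := taup p y) (α := al p y)
        (w := v.w p y) (wp := v.wp p y) (g := gD v tau p y)
        (L := F p y) (δ := δ) (e0 := e0) (D := D) zp hδ0 hD0 al0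
        (hA1 p hp y hy) (hA2 p hp y hy) h3
      exact this)
    refine hle.trans (le_of_eq ?_)
    rw [I2_add hab hcd (((CR.const a b c d _).mul cS).add ((CR.const a b c d _).mul cV))
        ((CR.const a b c d _).mul cz), I2_add hab hcd ((CR.const a b c d _).mul cS)
        ((CR.const a b c d _).mul cV), I2_const_mul, I2_const_mul, I2_const_mul]
  rw [I2_sub hab hcd (cTa.sub cTb) cTc, I2_sub hab hcd cTa cTb] at hbound
  -- conclusion
  have hfin : S ≤ (1 / 4 + δ) * S + (5 / 2 * δ + η) * V + 8 * (D + 1) * e0 ^ 2 * Z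
      + |∫ p in a..b, z p * v.w p c * gD v tau p c|
      + |∫ y in c..d, z b * v.w b y * (tau b y * gD v tau b y - al b y * v.wp b y)|
      + |∫ y in c..d, z a * v.w a y * (tau a y * gD v tau a y - al a y * v.wp a y)| := by
    have h1 := le_abs_self (I2 a b c d (fun p y => z' p * al p y * v.w p y * v.wp p y)
      - I2 a b c d (fun p y => (z' p * tau p y + z p * taup p y) * v.w p y * gD v tau p y)
      - I2 a b c d (fun p y => z p * v.w p y * F p y))
    have h2 := neg_abs_le (∫ p in a..b, z p * v.w p c * gD v tau p c)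
    have h3 := le_abs_self
      (∫ y in c..d, z b * v.w b y * (tau b y * gD v tau b y - al b y * v.wp b y))
    have h4 := neg_abs_le
      (∫ y in c..d, z a * v.w a y * (tau a y * gD v tau a y - al a y * v.wp a y))
    linarith
  have hηV : η * V ≤ S / 16 := by
    have h1 : η * V ≤ η * (2 * D * S) := mul_le_mul_of_nonneg_left hV2 hη0.le
    have h2 : η * (2 * D * S) = (D / (D + 1)) * S / 16 := by rw [hη]; field_simp; ring
    have h3 : D / (D + 1) ≤ 1 := by rw [div_le_one (by linarith)]; linarith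
    have h4 : (D / (D + 1)) * S ≤ 1 * S := mul_le_mul_of_nonneg_right h3 hS0
    linarith
  have hδV : δ * S + 5 / 2 * δ * V ≤ S / 16 := by
    have h1 : δ * V ≤ δ * (2 * D * S) := mul_le_mul_of_nonneg_left hV2 hδ0
    have h2 : (δ * (16 * (5 * D + 1))) * S ≤ 1 * S := mul_le_mul_of_nonneg_right hδ hS0
    nlinarith
  nlinarith

end

end P229
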