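import Vale.Agent.P229.T.TDefs
import Vale.Agent.P229.T.Ell

/-!
# P229 block T: calculus of iterated integrals over rectangles  (module T_CALC)
All integrands are continuous on the closed rectangle `Icc a b ×ˢ Icc c d`.
-/

namespace P229

open Set Real MeasureTheory
open scoped ContDiff

noncomputable section

variable {a b c d : ℝ}

theorem II_inner_int (hcd : c ≤ d) {f : ℝ → ℝ → ℝ}
    (hf : ContinuousOn (Function.uncurry f) (Icc a b ×ˢ Icc c d)) {p : ℝ} (hp : p ∈ Icc a b) :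
    IntervalIntegrable (fun y => f p y) volume c d :=
  CR.inner_integrable hcd hf hp

theorem II_outer_cont (hab : a ≤ b) (hcd : c ≤ d) {f : ℝ → ℝ → ℝ}
    (hf : ContinuousOn (Function.uncurry f) (Icc a b ×ˢ Icc c d)) :
    ContinuousOn (fun p => ∫ y in c..d, f p y) (Icc a b) :=
  CR.integral_continuousOn hab hcd hf

theorem II_outer_int (hab : a ≤ b) (hcd : c ≤ d) {f : ℝ → ℝ → ℝ}
    (hf : ContinuousOn (Function.uncurry f) (Icc a b ×ˢ Icc c d)) :
    IntervalIntegrable (fun p => ∫ y in c..d, f p y) volume a b :=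
  CR.intervalIntegrable hab hcd hf

/-- swap of the two integrals. -/
theorem II_swap (hab : a ≤ b) (hcd : c ≤ d) {f : ℝ → ℝ → ℝ}
    (hf : ContinuousOn (Function.uncurry f) (Icc a b ×ˢ Icc c d)) :
    II a b c d f = ∫ y in c..d, ∫ p in a..b, f p y :=
  I2_swap hab hcd hf

theorem II_add (hab : a ≤ b) (hcd : c ≤ d) {f g : ℝ → ℝ → ℝ}
    (hf : ContinuousOn (Function.uncurry f) (Icc a b ×ˢ Icc c d))
    (hg : ContinuousOn (Function.uncurry g) (Icc a b ×ˢ Icc c d)) :
    II a b c d (fun p y => f p y + g p y) = II a b c d f + II a b c d g :=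
  I2_add hab hcd hf hg

theorem II_sub (hab : a ≤ b) (hcd : c ≤ d) {f g : ℝ → ℝ → ℝ}
    (hf : ContinuousOn (Function.uncurry f) (Icc a b ×ˢ Icc c d))
    (hg : ContinuousOn (Function.uncurry g) (Icc a b ×ˢ Icc c d)) :
    II a b c d (fun p y => f p y - g p y) = II a b c d f - II a b c d g :=
  I2_sub hab hcd hf hg

theorem II_smul (k : ℝ) (f : ℝ → ℝ → ℝ) :
    II a b c d (fun p y => k * f p y) = k * II a b c d f := by
  simp [II, intervalIntegral.integral_const_mul]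

theorem II_congr (hab : a ≤ b) (hcd : c ≤ d) {f g : ℝ → ℝ → ℝ}
    (h : ∀ p ∈ Icc a b, ∀ y ∈ Icc c d, f p y = g p y) :
    II a b c d f = II a b c d g :=
  I2_congr hab hcd h

theorem II_mono (hab : a ≤ b) (hcd : c ≤ d) {f g : ℝ → ℝ → ℝ}
    (hf : ContinuousOn (Function.uncurry f) (Icc a b ×ˢ Icc c d))
    (hg : ContinuousOn (Function.uncurry g) (Icc a b ×ˢ Icc c d))
    (h : ∀ p ∈ Icc a b, ∀ y ∈ Icc c d, f p y ≤ g p y) :
    II a b c d f ≤ II a b c d g :=
  I2_mono hab hcd hf hg h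

theorem II_nonneg (hab : a ≤ b) (hcd : c ≤ d) {f : ℝ → ℝ → ℝ}
    (h : ∀ p ∈ Icc a b, ∀ y ∈ Icc c d, 0 ≤ f p y) :
    0 ≤ II a b c d f :=
  I2_nonneg hab hcd h

theorem II_abs_le (hab : a ≤ b) (hcd : c ≤ d) {f g : ℝ → ℝ → ℝ}
    (hf : ContinuousOn (Function.uncurry f) (Icc a b ×ˢ Icc c d))
    (hg : ContinuousOn (Function.uncurry g) (Icc a b ×ˢ Icc c d))
    (h : ∀ p ∈ Icc a b, ∀ y ∈ Icc c d, |f p y| ≤ g p y) :
    |II a b c d f| ≤ II a b c d g :=
  I2_abs_le hab hcd hf hg h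

theorem II_const (k : ℝ) : II a b c d (fun _ _ => k) = (b - a) * (d - c) * k := by
  simp only [II, intervalIntegral.integral_const, smul_eq_mul]; ring

/-- additivity in `y`. -/
theorem II_split_y (hab : a ≤ b) {e : ℝ} (hce : c ≤ e) (hed : e ≤ d) {f : ℝ → ℝ → ℝ}
    (hf : ContinuousOn (Function.uncurry f) (Icc a b ×ˢ Icc c d)) :
    II a b c d f = II a b c e f + II a b e d f :=
  I2_split_y hab hce hed hf

/-- additivity in `p`. -/
theorem II_split_p (hcd : c ≤ d) {e : ℝ} (hae : a ≤ e) (heb : e ≤ b) {f : ℝ → ℝ → ℝ}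
    (hf : ContinuousOn (Function.uncurry f) (Icc a b ×ˢ Icc c d)) :
    II a b c d f = II a e c d f + II e b c d f :=
  I2_split_p hae heb hcd hf

/-- a non negative function has a smaller integral over a sub rectangle. -/
theorem II_mono_rect {a' b' c' d' : ℝ} (ha : a ≤ a') (hab : a' ≤ b') (hb : b' ≤ b)
    (hc : c ≤ c') (hcd : c' ≤ d') (hd : d' ≤ d) {f : ℝ → ℝ → ℝ}
    (hf : ContinuousOn (Function.uncurry f) (Icc a b ×ˢ Icc c d))
    (h : ∀ p ∈ Icc a b, ∀ y ∈ Icc c d, 0 ≤ f p y) :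
    II a' b' c' d' f ≤ II a b c d f :=
  I2_mono_rect hf ha hab hb hc hcd hd h

/-- integral of a `p`-derivative. -/
theorem II_dp (hab : a ≤ b) (hcd : c ≤ d) {F Fp : ℝ → ℝ → ℝ}
    (hF : ContinuousOn (Function.uncurry F) (Icc a b ×ˢ Icc c d))
    (hFp : ContinuousOn (Function.uncurry Fp) (Icc a b ×ˢ Icc c d))
    (hd : ∀ p ∈ Ioo a b, ∀ y ∈ Icc c d, HasDerivAt (fun q => F q y) (Fp p y) p) :
    II a b c d Fp = ∫ y in c..d, (F b y - F a y) := by
  rw [intervalIntegral.integral_sub (CR.inner_integrable hcd hF (right_mem_Icc.2 hab))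
    (CR.inner_integrable hcd hF (left_mem_Icc.2 hab))]
  exact I2_dp hab hcd hF hFp hd

/-- integral of a `y`-derivative. -/
theorem II_dy (hab : a ≤ b) (hcd : c ≤ d) {F Fy : ℝ → ℝ → ℝ}
    (hF : ContinuousOn (Function.uncurry F) (Icc a b ×ˢ Icc c d))
    (hFy : ContinuousOn (Function.uncurry Fy) (Icc a b ×ˢ Icc c d))
    (hd : ∀ p ∈ Icc a b, ∀ y ∈ Ioo c d, HasDerivAt (fun q => F p q) (Fy p y) y) :
    II a b c d Fy = ∫ p in a..b, (F p d - F p c) := by
  rw [intervalIntegral.integral_sub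
    ((CR.outer hF (right_mem_Icc.2 hcd)).intervalIntegrable_of_Icc hab)
    ((CR.outer hF (left_mem_Icc.2 hcd)).intervalIntegrable_of_Icc hab)]
  exact I2_dy hab hcd hF hFy hd

/-- one dimensional Poincare-type inequality, pointwise: `f = 0` at the right end. -/
theorem sq_le_of_right (hcd : c ≤ d) {f f' : ℝ → ℝ} (hf : ContinuousOn f (Icc c d))
    (hf' : ContinuousOn f' (Icc c d)) (hd : ∀ y ∈ Ioo c d, HasDerivAt f (f' y) y)
    (h0 : f d = 0) {y : ℝ} (hy : y ∈ Icc c d) :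
    f y ^ 2 ≤ (d - c) * ∫ t in c..d, f' t ^ 2 :=
  sq_le_of_zero_right hcd hf hf' hd h0 hy

/-- integrated version with an extra weight (product weight depending on the outer variable). -/
theorem II_poincare (hab : a ≤ b) (hcd : c ≤ d) {om : ℝ → ℝ} (hom : ContinuousOn om (Icc a b))
    (hom0 : ∀ p ∈ Icc a b, 0 ≤ om p) {f f' : ℝ → ℝ → ℝ}
    (hf : ContinuousOn (Function.uncurry f) (Icc a b ×ˢ Icc c d))
    (hf' : ContinuousOn (Function.uncurry f') (Icc a b ×ˢ Icc c d))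
    (hd : ∀ p ∈ Icc a b, ∀ y ∈ Ioo c d, HasDerivAt (fun q => f p q) (f' p y) y)
    (h0 : ∀ p ∈ Icc a b, f p d = 0) :
    II a b c d (fun p y => om p * f p y ^ 2)
      ≤ (d - c) ^ 2 * II a b c d (fun p y => om p * f' p y ^ 2) := by
  rw [← II_smul]
  unfold II
  have h1 : CR a b c d (fun p y => om p * f p y ^ 2) := (CR.ofP hom).mul (CR.pow hf 2)
  have h2 : CR a b c d (fun p y => (d - c) ^ 2 * (om p * f' p y ^ 2)) :=
    (CR.const a b c d _).mul ((CR.ofP hom).mul (CR.pow hf' 2))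
  apply intervalIntegral.integral_mono_on hab (h1.intervalIntegrable hab hcd)
    (h2.intervalIntegrable hab hcd)
  intro p hp
  have h3 : ∀ y ∈ Icc c d, om p * f p y ^ 2 ≤ om p * ((d - c) * ∫ t in c..d, f' p t ^ 2) := by
    intro y hy
    exact mul_le_mul_of_nonneg_left
      (sq_le_of_zero_right hcd (CR.inner hf hp) (CR.inner hf' hp) (hd p hp) (h0 p hp) hy)
      (hom0 p hp)
  have h4 := intervalIntegral.integral_mono_on hcd (h1.inner_integrable hcd hp)
    (intervalIntegrable_const (c := om p * ((d - c) * ∫ t in c..d, f' p t ^ 2))) h3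
  rw [intervalIntegral.integral_const, smul_eq_mul] at h4
  have h5 : (∫ y in c..d, (d - c) ^ 2 * (om p * f' p y ^ 2))
      = (d - c) * (om p * ((d - c) * ∫ t in c..d, f' p t ^ 2)) := by
    rw [intervalIntegral.integral_const_mul, intervalIntegral.integral_const_mul]; ring
  rw [h5]; exact h4

end

end P229
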