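import Vale.Agent.P229.T.Prof
import Vale.Agent.P229.T.Ell
import Vale.Agent.P229.T.Calc

/-!
# P229 block T: glue between `Coef`, `II` (TDefs) and `CoefJet`, `I2`, `L0`, `gD` (Ident)
-/

namespace P229

open Set Real MeasureTheory
open scoped ContDiff

noncomputable section

theorem II_eq_I2 (a b c d : ℝ) (f : ℝ → ℝ → ℝ) : II a b c d f = I2 a b c d f := rfl

theorem Coef.gd_eq (κ : Coef) (V : J2) (p y : ℝ) : κ.gd V p y = gD V κ.t p y := rfl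

theorem Coef.L_eq (κ : Coef) (V : J2) (p y : ℝ) :
    κ.L V p y = L0 V κ.t κ.tp κ.ty κ.a κ.ap p y
      + (κ.d p y * V.wp p y + κ.g p y * gD V κ.t p y) := by
  simp only [Coef.L, L0, gDy, gDp, gD, Coef.gd]; ring

/-- every continuous function on the strip restricted to a rectangle. -/
theorem CR_of_strip {f : ℝ → ℝ → ℝ} (h : ContinuousOn (Function.uncurry f) strip) {a b c d : ℝ}
    (ha : -(7 / 5) ≤ a) (hb : b ≤ 7 / 5) (hc : -YY ≤ c) (hd : d ≤ YY) : CR a b c d f :=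
  h.mono (Set.prod_mono (Icc_subset_Icc ha hb) (Icc_subset_Icc hc hd))

theorem Coef.Good.coefJet {κ : Coef} {P : Par} {mu C : ℝ} {ast : ℝ → ℝ}
    (h : κ.Good P mu C ast) {a b c d : ℝ}
    (ha : -(7 / 5) ≤ a) (hb : b ≤ 7 / 5) (hc : -YY ≤ c) (hd : d ≤ YY) :
    CoefJet a b c d κ.t κ.tp κ.ty κ.a κ.ap :=
  CoefJet.mono (a := -(7 / 5)) (b := 7 / 5) (c := -YY) (d := YY)
    ⟨h.ct, h.ctp, h.cty, h.ca, h.cap, h.htp, h.hty, h.hap⟩ ha hb hc hd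

theorem TData.jet_mono {P : Par} {mu C : ℝ} {N : ℕ} {ast : ℝ → ℝ} {V : J2} {h : ℝ → ℝ → ℝ}
    (T : TData P mu C N ast V h) {a b c d : ℝ}
    (ha : -(7 / 5) ≤ a) (hb : b ≤ 7 / 5) (hc : -YY ≤ c) (hd : d ≤ YY) : V.IsJet a b c d :=
  T.jet.mono ha hb hc hd

private theorem glue_aux {P : Par} {mu C : ℝ} {N : ℕ} {ast : ℝ → ℝ} {V : J2} {h : ℝ → ℝ → ℝ}
    (T : TData P mu C N ast V h) {y : ℝ} (hy : y ∈ Icc (-YY) YY)
    (h0 : ∀ p ∈ Icc (-(7 / 5) : ℝ) (7 / 5), V.w p y = 0) {p : ℝ}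
    (hp : p ∈ Icc (-(7 / 5) : ℝ) (7 / 5)) : V.wp p y = 0 := by
  have h1 : ∀ q ∈ Ioo (-(7 / 5) : ℝ) (7 / 5), V.wp q y = 0 := by
    intro q hq
    have hd := T.jet.hp q hq y hy
    have he : (fun t => V.w t y) =ᶠ[nhds q] fun _ => (0 : ℝ) := by
      filter_upwards [Ioo_mem_nhds hq.1 hq.2] with t ht
      exact h0 t (Ioo_subset_Icc_self ht)
    exact (hd.congr_of_eventuallyEq he.symm).unique (hasDerivAt_const q (0 : ℝ))
  have hc : CR (-(7 / 5)) (7 / 5) (-YY) YY V.wp := T.jet.cwp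
  have h2 : Set.EqOn (fun q => V.wp q y) (fun _ => (0 : ℝ)) (Icc (-(7 / 5) : ℝ) (7 / 5)) := by
    refine Set.EqOn.of_subset_closure (s := Ioo (-(7 / 5) : ℝ) (7 / 5)) (fun q hq => h1 q hq)
      (hc.outer hy) continuousOn_const Ioo_subset_Icc_self ?_
    rw [closure_Ioo (by norm_num)]
  exact h2 hp

/-- `v_p = 0` on the horizontal sides (all `p` in the closed interval). -/
theorem TData.wp_top {P : Par} {mu C : ℝ} {N : ℕ} {ast : ℝ → ℝ} {V : J2} {h : ℝ → ℝ → ℝ}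
    (T : TData P mu C N ast V h) {p : ℝ} (hp : p ∈ Icc (-(7 / 5) : ℝ) (7 / 5)) :
    V.wp p YY = 0 :=
  glue_aux T ⟨by unfold YY; norm_num, le_rfl⟩ T.top hp

theorem TData.wp_bot {P : Par} {mu C : ℝ} {N : ℕ} {ast : ℝ → ℝ} {V : J2} {h : ℝ → ℝ → ℝ}
    (T : TData P mu C N ast V h) {p : ℝ} (hp : p ∈ Icc (-(7 / 5) : ℝ) (7 / 5)) :
    V.wp p (-YY) = 0 :=
  glue_aux T ⟨le_rfl, by unfold YY; norm_num⟩ T.bot hp

/-- `en` is continuous on every rectangle of the strip. -/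
theorem TData.cr_en {P : Par} {mu C : ℝ} {N : ℕ} {ast : ℝ → ℝ} {V : J2} {h : ℝ → ℝ → ℝ}
    (T : TData P mu C N ast V h) {a b c d : ℝ}
    (ha : -(7 / 5) ≤ a) (hb : b ≤ 7 / 5) (hc : -YY ≤ c) (hd : d ≤ YY) :
    CR a b c d (en P mu V) := by
  have hj := T.jet_mono ha hb hc hd
  have h1 : CR a b c d V.wy := hj.cwy
  have h2 : CR a b c d V.wp := hj.cwp
  have h3 : CR a b c d (fun _ y => mu * md P y) :=
    CR.ofY ((continuous_const.mul (md_cont P)).continuousOn)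
  exact (h1.pow 2).add (h3.mul (h2.pow 2))

theorem en_nonneg {P : Par} (hr : 0 < P.r) {mu : ℝ} (hmu : 0 ≤ mu) (V : J2) (p y : ℝ) :
    0 ≤ en P mu V p y := by
  have := md_nonneg P hr y
  unfold en
  positivity

end

end P229
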