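import Vale.Agent.P229.T.CoefB
import Vale.Agent.P229.T.Glue
import Vale.Agent.P229.T.Prof

/-!
# P229 block T: the reflections `p ↦ -p` and `y ↦ -y` of `TData`  (module T_REFL)
-/

namespace P229

open Set Real MeasureTheory
open scoped ContDiff

noncomputable section

/-- `v(-p,y)`. -/
def J2.rp (V : J2) : J2 where
  w := fun p y => V.w (-p) y
  wp := fun p y => -V.wp (-p) y
  wy := fun p y => V.wy (-p) y
  wpp := fun p y => V.wpp (-p) y
  wpy := fun p y => -V.wpy (-p) y
  wyy := fun p y => V.wyy (-p) y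

/-- `v(p,-y)`. -/
def J2.ry (V : J2) : J2 where
  w := fun p y => V.w p (-y)
  wp := fun p y => V.wp p (-y)
  wy := fun p y => -V.wy p (-y)
  wpp := fun p y => V.wpp p (-y)
  wpy := fun p y => -V.wpy p (-y)
  wyy := fun p y => V.wyy p (-y)

def Coef.rp (κ : Coef) : Coef where
  t := fun p y => -κ.t (-p) y
  tp := fun p y => κ.tp (-p) y
  ty := fun p y => -κ.ty (-p) y
  a := fun p y => κ.a (-p) y
  ap := fun p y => -κ.ap (-p) y
  d := fun p y => -κ.d (-p) y
  g := fun p y => κ.g (-p) y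

def Coef.ry (κ : Coef) : Coef where
  t := fun p y => -κ.t p (-y)
  tp := fun p y => -κ.tp p (-y)
  ty := fun p y => κ.ty p (-y)
  a := fun p y => κ.a p (-y)
  ap := fun p y => κ.ap p (-y)
  d := fun p y => κ.d p (-y)
  g := fun p y => -κ.g p (-y)

theorem Coef.L_rp (κ : Coef) (V : J2) (p y : ℝ) : κ.rp.L V.rp p y = κ.L V (-p) y := by
  simp only [Coef.L, Coef.rp, J2.rp, Coef.gd]; ring

theorem Coef.L_ry (κ : Coef) (V : J2) (p y : ℝ) : κ.ry.L V.ry p y = κ.L V p (-y) := by
  simp only [Coef.L, Coef.ry, J2.ry, Coef.gd]; ring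

/-! ### reflections of functions and jets -/

section

variable {a b c d : ℝ}

theorem CR.ry {f : ℝ → ℝ → ℝ} (hf : CR a b c d f) : CR a b (-d) (-c) (fun p y => f p (-y)) := by
  have h1 : ContinuousOn (fun z : ℝ × ℝ => (z.1, -z.2)) (Icc a b ×ˢ Icc (-d) (-c)) := by fun_prop
  have h2 := ContinuousOn.comp (g := Function.uncurry f) hf h1
    (fun z hz => ⟨hz.1, by linarith [hz.2.2], by linarith [hz.2.1]⟩)
  exact h2

theorem CR.rp {f : ℝ → ℝ → ℝ} (hf : CR a b c d f) : CR (-b) (-a) c d (fun p y => f (-p) y) := by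
  have h1 : ContinuousOn (fun z : ℝ × ℝ => (-z.1, z.2)) (Icc (-b) (-a) ×ˢ Icc c d) := by fun_prop
  have h2 := ContinuousOn.comp (g := Function.uncurry f) hf h1
    (fun z hz => ⟨⟨by linarith [hz.1.2], by linarith [hz.1.1]⟩, hz.2⟩)
  exact h2

theorem hasDerivAt_neg_arg {f : ℝ → ℝ} {f' x : ℝ} (h : HasDerivAt f f' (-x)) :
    HasDerivAt (fun t => f (-t)) (-f') x := by
  have h1 : HasDerivAt (fun t => f (-t)) ((-1 : ℝ) • f') x :=
    HasDerivAt.scomp x h (hasDerivAt_neg x)
  exact h1.congr_deriv (by simp)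

theorem J2.IsJet.ry {v : J2} (h : v.IsJet a b c d) : v.ry.IsJet a b (-d) (-c) where
  cw := CR.ry h.cw
  cwp := CR.ry h.cwp
  cwy := CR.neg (CR.ry h.cwy)
  cwpp := CR.ry h.cwpp
  cwpy := CR.neg (CR.ry h.cwpy)
  cwyy := CR.ry h.cwyy
  hp := fun p hp y hy => h.hp p hp (-y) ⟨by linarith [hy.2], by linarith [hy.1]⟩
  hpp := fun p hp y hy => h.hpp p hp (-y) ⟨by linarith [hy.2], by linarith [hy.1]⟩
  hyp := fun p hp y hy => (h.hyp p hp (-y) ⟨by linarith [hy.2], by linarith [hy.1]⟩).neg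
  hy := fun p hp y hy =>
    hasDerivAt_neg_arg (h.hy p hp (-y) ⟨by linarith [hy.2], by linarith [hy.1]⟩)
  hpy := fun p hp y hy =>
    hasDerivAt_neg_arg (h.hpy p hp (-y) ⟨by linarith [hy.2], by linarith [hy.1]⟩)
  hyy := fun p hp y hy => by
    have := (hasDerivAt_neg_arg (h.hyy p hp (-y) ⟨by linarith [hy.2], by linarith [hy.1]⟩)).neg
    exact this.congr_deriv (neg_neg _)

theorem J2.IsJet.rp {v : J2} (h : v.IsJet a b c d) : v.rp.IsJet (-b) (-a) c d where
  cw := CR.rp h.cw
  cwp := CR.neg (CR.rp h.cwp)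
  cwy := CR.rp h.cwy
  cwpp := CR.rp h.cwpp
  cwpy := CR.neg (CR.rp h.cwpy)
  cwyy := CR.rp h.cwyy
  hp := fun p hp y hy =>
    hasDerivAt_neg_arg (h.hp (-p) ⟨by linarith [hp.2], by linarith [hp.1]⟩ y hy)
  hpp := fun p hp y hy => by
    have := (hasDerivAt_neg_arg
      (h.hpp (-p) ⟨by linarith [hp.2], by linarith [hp.1]⟩ y hy)).neg
    exact this.congr_deriv (neg_neg _)
  hyp := fun p hp y hy =>
    hasDerivAt_neg_arg (h.hyp (-p) ⟨by linarith [hp.2], by linarith [hp.1]⟩ y hy)
  hy := fun p hp y hy => h.hy (-p) ⟨by linarith [hp.2], by linarith [hp.1]⟩ y hy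
  hpy := fun p hp y hy => (h.hpy (-p) ⟨by linarith [hp.2], by linarith [hp.1]⟩ y hy).neg
  hyy := fun p hp y hy => h.hyy (-p) ⟨by linarith [hp.2], by linarith [hp.1]⟩ y hy

end

/-- change of variables in the integrals. -/
theorem II_rp (a b c d : ℝ) (f : ℝ → ℝ → ℝ) :
    II a b c d (fun p y => f (-p) y) = II (-b) (-a) c d f := by
  unfold II
  have := intervalIntegral.integral_comp_neg (a := a) (b := b)
    (fun p => ∫ y in c..d, f p y)
  exact this

theorem II_ry (a b c d : ℝ) (f : ℝ → ℝ → ℝ) :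
    II a b c d (fun p y => f p (-y)) = II a b (-d) (-c) f := by
  unfold II
  simp

/-! ### reflections of the coefficients -/

theorem mem_neg75 {p : ℝ} (hp : p ∈ Icc (-(7 / 5) : ℝ) (7 / 5)) :
    -p ∈ Icc (-(7 / 5) : ℝ) (7 / 5) := ⟨by linarith [hp.2], by linarith [hp.1]⟩

theorem mem_neg75o {p : ℝ} (hp : p ∈ Ioo (-(7 / 5) : ℝ) (7 / 5)) :
    -p ∈ Ioo (-(7 / 5) : ℝ) (7 / 5) := ⟨by linarith [hp.2], by linarith [hp.1]⟩

theorem mem_negYY {p : ℝ} (hp : p ∈ Icc (-YY) YY) : -p ∈ Icc (-YY) YY :=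
  ⟨by linarith [hp.2], by linarith [hp.1]⟩

theorem mem_negYYo {p : ℝ} (hp : p ∈ Ioo (-YY) YY) : -p ∈ Ioo (-YY) YY :=
  ⟨by linarith [hp.2], by linarith [hp.1]⟩

theorem strip_rp {f : ℝ → ℝ → ℝ} (hf : ContinuousOn (Function.uncurry f) strip) :
    ContinuousOn (Function.uncurry (fun p y => f (-p) y)) strip := by
  have := CR.rp (a := -(7 / 5)) (b := 7 / 5) (c := -YY) (d := YY) hf
  rw [neg_neg] at this
  exact this

theorem strip_ry {f : ℝ → ℝ → ℝ} (hf : ContinuousOn (Function.uncurry f) strip) :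
    ContinuousOn (Function.uncurry (fun p y => f p (-y))) strip := by
  have := CR.ry (a := -(7 / 5)) (b := 7 / 5) (c := -YY) (d := YY) hf
  rw [neg_neg] at this
  exact this

theorem Coef.Good.rp {κ : Coef} {P : Par} {mu C : ℝ} {ast : ℝ → ℝ}
    (hκ : κ.Good P mu C ast) : κ.rp.Good P mu C ast where
  ct := (strip_rp hκ.ct).neg
  ctp := strip_rp hκ.ctp
  cty := (strip_rp hκ.cty).neg
  ca := strip_rp hκ.ca
  cap := (strip_rp hκ.cap).neg
  cd := (strip_rp hκ.cd).neg
  cg := strip_rp hκ.cg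
  htp := fun p hp y hy => by
    have := (hasDerivAt_neg_arg (hκ.htp (-p) (mem_neg75o hp) y hy)).neg
    exact this.congr_deriv (neg_neg _)
  hty := fun p hp y hy => (hκ.hty (-p) (mem_neg75 hp) y hy).neg
  hap := fun p hp y hy => hasDerivAt_neg_arg (hκ.hap (-p) (mem_neg75o hp) y hy)
  bt := fun p hp y hy => by
    have := hκ.bt (-p) (mem_neg75 hp) y hy
    simpa only [Coef.rp, abs_neg] using this
  btp := fun p hp y hy => hκ.btp (-p) (mem_neg75 hp) y hy
  bd := fun p hp y hy => by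
    have := hκ.bd (-p) (mem_neg75 hp) y hy
    simpa only [Coef.rp, abs_neg] using this
  bg := fun p hp y hy => hκ.bg (-p) (mem_neg75 hp) y hy
  ba := fun p hp y hy => hκ.ba (-p) (mem_neg75 hp) y hy
  lay1 := fun p hp y hy h => hκ.lay1 (-p) (mem_neg75 hp) y hy h
  lay2 := fun p hp y hy h => by
    have := hκ.lay2 (-p) (mem_neg75 hp) y hy h
    simpa only [Coef.rp, abs_neg] using this
  core0 := fun p hp y h1 h2 => hκ.core0 (-p) (mem_neg75 hp) y (by rwa [abs_neg]) h2
  core1 := fun p hp y h => by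
    have := hκ.core1' (-p) ⟨by linarith [hp.2], by linarith [hp.1]⟩ y h
    simpa only [Coef.rp, sub_eq_add_neg] using this
  core1' := fun p hp y h => by
    have := hκ.core1 (-p) ⟨by linarith [hp.2], by linarith [hp.1]⟩ y h
    simpa only [Coef.rp, sub_neg_eq_add] using this
  core2 := fun p hp y h => hκ.core2 (-p) ⟨by linarith [hp.2], by linarith [hp.1]⟩ y h
  near := fun p hp y hy => hκ.near (-p) (by rwa [abs_neg]) y hy

theorem Coef.Good.ry {κ : Coef} {P : Par} {mu C : ℝ} {ast : ℝ → ℝ}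
    (hκ : κ.Good P mu C ast) : κ.ry.Good P mu C (fun y => ast (-y)) where
  ct := (strip_ry hκ.ct).neg
  ctp := (strip_ry hκ.ctp).neg
  cty := strip_ry hκ.cty
  ca := strip_ry hκ.ca
  cap := strip_ry hκ.cap
  cd := strip_ry hκ.cd
  cg := (strip_ry hκ.cg).neg
  htp := fun p hp y hy => (hκ.htp p hp (-y) (mem_negYY hy)).neg
  hty := fun p hp y hy => by
    have := (hasDerivAt_neg_arg (hκ.hty p hp (-y) (mem_negYYo hy))).neg
    exact this.congr_deriv (neg_neg _)
  hap := fun p hp y hy => hκ.hap p hp (-y) (mem_negYY hy)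
  bt := fun p hp y hy => by
    have := hκ.bt p hp (-y) (mem_negYY hy)
    simpa only [Coef.ry, abs_neg, md_even] using this
  btp := fun p hp y hy => by
    have := hκ.btp p hp (-y) (mem_negYY hy)
    simpa only [Coef.ry, abs_neg, md_even] using this
  bd := fun p hp y hy => by
    have := hκ.bd p hp (-y) (mem_negYY hy)
    simpa only [Coef.ry, md_even] using this
  bg := fun p hp y hy => by
    have := hκ.bg p hp (-y) (mem_negYY hy)
    simpa only [Coef.ry, neg_sq, md_even] using this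
  ba := fun p hp y hy => by
    have := hκ.ba p hp (-y) (mem_negYY hy)
    simpa only [Coef.ry, md_even] using this
  lay1 := fun p hp y hy h => by
    have := hκ.lay1 p hp (-y) (mem_negYY hy) (by rwa [abs_neg])
    simpa only [Coef.ry, md_even] using this
  lay2 := fun p hp y hy h => by
    have := hκ.lay2 p hp (-y) (mem_negYY hy) (by rwa [abs_neg])
    simpa only [Coef.ry, md_even] using this
  core0 := fun p hp y h1 h2 => by
    have := hκ.core0 p hp (-y) h1 (by rwa [abs_neg])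
    simpa only [Coef.ry, md_even] using this
  core1 := fun p hp y h => by
    have := hκ.core1 p hp (-y) (by rwa [abs_neg])
    simpa only [Coef.ry, md_even] using this
  core1' := fun p hp y h => by
    have := hκ.core1' p hp (-y) (by rwa [abs_neg])
    simpa only [Coef.ry, md_even] using this
  core2 := fun p hp y h => by
    have := hκ.core2 p hp (-y) (by rwa [abs_neg])
    simpa only [Coef.ry, md_even] using this
  near := fun p hp y hy => by
    have := hκ.near p hp (-y) (mem_negYY hy)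
    simpa only [Coef.ry, md_even] using this

theorem TData.rp {P : Par} {mu C : ℝ} {N : ℕ} {ast : ℝ → ℝ} {V : J2} {h : ℝ → ℝ → ℝ}
    (T : TData P mu C N ast V h) : TData P mu C N ast V.rp (fun p y => h (-p) y) where
  jet := by
    have := T.jet.rp
    rwa [neg_neg] at this
  top := fun p hp => T.top (-p) (mem_neg75 hp)
  bot := fun p hp => T.bot (-p) (mem_neg75 hp)
  bw := fun p hp y hy => by
    have := T.bw (-p) (mem_neg75 hp) y hy
    simpa only [J2.rp, abs_neg] using this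
  ch := strip_rp T.ch
  hsmall := fun p hp y hy h1 => T.hsmall (-p) (mem_neg75 hp) y hy (by rwa [abs_neg])
  hbump := fun p hp y hy => T.hbump (-p) (mem_neg75 hp) y hy
  gap := fun p hp y h1 h2 => T.gap (-p) (mem_neg75 hp) y h1 h2
  weak := by
    intro a b c d ha hab hb hc hcd hd φ hφ
    have hφ' : ContinuousOn (Function.uncurry (fun p y => φ (-p) y))
        (Icc (-b) (-a) ×ˢ Icc c d) := CR.rp hφ
    obtain ⟨κ, hκ, e⟩ := T.weak (-b) (-a) c d (by linarith) (by linarith) (by linarith) hc hcd hd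
      _ hφ'
    refine ⟨κ.rp, hκ.rp, ?_⟩
    have e1 := II_rp a b c d (fun p y => φ (-p) y * κ.L V p y)
    have e2 := II_rp a b c d (fun p y => φ (-p) y * h p y)
    simp only [neg_neg] at e1 e2
    simp only [Coef.L_rp]
    rw [e1, e2, e]

theorem TData.ry {P : Par} {mu C : ℝ} {N : ℕ} {ast : ℝ → ℝ} {V : J2} {h : ℝ → ℝ → ℝ}
    (T : TData P mu C N ast V h) :
    TData P mu C N (fun y => ast (-y)) V.ry (fun p y => h p (-y)) where
  jet := by
    have := T.jet.ry
    rwa [neg_neg] at this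
  top := fun p hp => T.bot p hp
  bot := fun p hp => by
    have := T.top p hp
    simpa only [J2.ry, neg_neg] using this
  bw := fun p hp y hy => by
    have := T.bw p hp (-y) (mem_negYY hy)
    simpa only [J2.ry, abs_neg] using this
  ch := strip_ry T.ch
  hsmall := fun p hp y hy h1 => T.hsmall p hp (-y) (mem_negYY hy) (by rwa [abs_neg])
  hbump := fun p hp y hy => T.hbump p hp (-y) (mem_negYY hy)
  gap := fun p hp y h1 h2 => T.gap p hp (-y) (by rwa [abs_neg]) (by rwa [abs_neg])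
  weak := by
    intro a b c d ha hab hb hc hcd hd φ hφ
    have hφ' : ContinuousOn (Function.uncurry (fun p y => φ p (-y)))
        (Icc a b ×ˢ Icc (-d) (-c)) := CR.ry hφ
    obtain ⟨κ, hκ, e⟩ := T.weak a b (-d) (-c) ha hab hb (by linarith) (by linarith) (by linarith)
      _ hφ'
    refine ⟨κ.ry, hκ.ry, ?_⟩
    have e1 := II_ry a b c d (fun p y => φ p (-y) * κ.L V p y)
    have e2 := II_ry a b c d (fun p y => φ p (-y) * h p y)
    simp only [neg_neg] at e1 e2
    simp only [Coef.L_ry]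
    rw [e1, e2, e]

end

end P229
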