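import Vale.Agent.P229.T.TDefs

/-!
# P229 block T: the first exponential weight (module T_WT1, helper25)
-/

namespace P229

open Set Real
open scoped ContDiff

noncomputable section

def wt1sg (t : ℝ) : ℝ := 1 / (1 + Real.exp t)

theorem wt1sg_pos (t : ℝ) : 0 < wt1sg t := by
  unfold wt1sg
  have := Real.exp_pos t
  positivity

theorem wt1sg_lt_one (t : ℝ) : wt1sg t < 1 := by
  unfold wt1sg
  have := Real.exp_pos t
  rw [div_lt_one (by positivity)]
  linarith

theorem wt1sg_one_sub (t : ℝ) : 1 - wt1sg t = Real.exp t / (1 + Real.exp t) := by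
  unfold wt1sg
  have := Real.exp_pos t
  field_simp
  ring

theorem wt1sg_hasDerivAt (t : ℝ) : HasDerivAt wt1sg (-(wt1sg t * (1 - wt1sg t))) t := by
  have h0 := Real.exp_pos t
  have h1 : HasDerivAt (fun t : ℝ => (1 + Real.exp t)⁻¹)
      (-(Real.exp t) / (1 + Real.exp t) ^ 2) t :=
    ((Real.hasDerivAt_exp t).const_add 1).inv (by positivity)
  have h2 : wt1sg = fun t : ℝ => (1 + Real.exp t)⁻¹ := by
    funext t
    unfold wt1sg
    rw [one_div]
  have h3 : -(wt1sg t * (1 - wt1sg t)) = -(Real.exp t) / (1 + Real.exp t) ^ 2 := by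
    rw [wt1sg_one_sub]
    unfold wt1sg
    field_simp
  rw [h3, h2]
  exact h1

theorem wt1sg_le_exp (t : ℝ) : wt1sg t ≤ Real.exp (-t) := by
  unfold wt1sg
  have h0 := Real.exp_pos t
  rw [Real.exp_neg, ← one_div]
  apply one_div_le_one_div_of_le h0
  linarith

theorem wt1sg_one_sub_le (t : ℝ) : 1 - wt1sg t ≤ Real.exp t := by
  rw [wt1sg_one_sub]
  have h0 := Real.exp_pos t
  rw [div_le_iff₀ (by positivity)]
  nlinarith

theorem wt1sg_half {t : ℝ} (ht : t ≤ 0) : 1 / 2 ≤ wt1sg t := by
  unfold wt1sg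
  have h0 := Real.exp_pos t
  apply one_div_le_one_div_of_le (by positivity)
  have := Real.exp_le_one_iff.2 ht
  linarith

theorem wt1sg_mid {t : ℝ} (ht : |t| ≤ 1) : 19 / 100 ≤ wt1sg t * (1 - wt1sg t) := by
  rw [wt1sg_one_sub]
  unfold wt1sg
  have h0 := Real.exp_pos t
  have h1 := abs_le.1 ht
  have h2 : Real.exp t ≤ 2.7182818286 := (Real.exp_le_exp.2 h1.2).trans Real.exp_one_lt_d9.le
  have h3 : 1 / 2.7182818286 ≤ Real.exp t := by
    have h4 : Real.exp (-1) ≤ Real.exp t := Real.exp_le_exp.2 h1.1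
    have h5 : 1 / 2.7182818286 ≤ Real.exp (-1) := by
      rw [Real.exp_neg, ← one_div]
      exact one_div_le_one_div_of_le (Real.exp_pos 1) Real.exp_one_lt_d9.le
    linarith
  have h6 : (36 / 100 : ℝ) ≤ 1 / 2.7182818286 := by norm_num
  have h7 : 36 / 100 ≤ Real.exp t := h6.trans h3
  have h8 : 1 / (1 + Real.exp t) * (Real.exp t / (1 + Real.exp t))
      = Real.exp t / (1 + Real.exp t) ^ 2 := by
    field_simp
  rw [h8, le_div_iff₀ (by positivity)]
  have h9 : (Real.exp t - 36 / 100) * (Real.exp t - 2.7182818286) ≤ 0 :=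
    mul_nonpos_of_nonneg_of_nonpos (by linarith) (by linarith)
  nlinarith

def wt1z (pe W p : ℝ) : ℝ := Real.exp (-p) * wt1sg ((p - pe) / W)

def wt1w (pe W p : ℝ) : ℝ :=
  Real.exp (-p) * (wt1sg ((p - pe) / W) +
    wt1sg ((p - pe) / W) * (1 - wt1sg ((p - pe) / W)) / W)

def wt1w' (pe W p : ℝ) : ℝ :=
  -(Real.exp (-p) * (wt1sg ((p - pe) / W) +
    2 * (wt1sg ((p - pe) / W) * (1 - wt1sg ((p - pe) / W))) / W +
    wt1sg ((p - pe) / W) * (1 - wt1sg ((p - pe) / W)) * (1 - 2 * wt1sg ((p - pe) / W)) / W ^ 2))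

theorem wt1_hS {pe W : ℝ} (p : ℝ) :
    HasDerivAt (fun p => wt1sg ((p - pe) / W))
      (-(wt1sg ((p - pe) / W) * (1 - wt1sg ((p - pe) / W))) / W) p := by
  have h1 : HasDerivAt (fun p : ℝ => (p - pe) / W) (1 / W) p :=
    ((hasDerivAt_id p).sub_const pe).div_const W
  have h2 := (wt1sg_hasDerivAt ((p - pe) / W)).comp p h1
  refine h2.congr_deriv ?_
  ring

theorem wt1_hexp (p : ℝ) : HasDerivAt (fun p : ℝ => Real.exp (-p)) (-Real.exp (-p)) p := by
  have h := (hasDerivAt_neg p).exp
  refine h.congr_deriv ?_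
  ring

theorem wt1_hz {pe W : ℝ} (p : ℝ) : HasDerivAt (wt1z pe W) (-wt1w pe W p) p := by
  have h := (wt1_hexp p).mul (wt1_hS (pe := pe) (W := W) p)
  refine h.congr_deriv ?_
  unfold wt1w
  ring

theorem wt1_hw {pe W : ℝ} (hW : W ≠ 0) (p : ℝ) :
    HasDerivAt (wt1w pe W) (wt1w' pe W p) p := by
  have h1 := wt1_hS (pe := pe) (W := W) p
  have h2 := (h1.mul (h1.const_sub 1)).div_const W
  have h := (wt1_hexp p).mul (h1.add h2)
  refine h.congr_deriv ?_
  unfold wt1w'
  simp only [Pi.add_apply, Pi.mul_apply]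
  field_simp
  ring

theorem wt1_cw' (pe W : ℝ) : Continuous (wt1w' pe W) := by
  have h0 : Continuous wt1sg :=
    continuous_iff_continuousAt.2 fun t => (wt1sg_hasDerivAt t).continuousAt
  have h1 : Continuous (fun p : ℝ => wt1sg ((p - pe) / W)) := h0.comp (by fun_prop)
  unfold wt1w'
  fun_prop

theorem wt1_w'b {pe W : ℝ} (hW : 0 < W) (hW1 : W ≤ 1) (p : ℝ) :
    |wt1w' pe W p| ≤ 3 / W * wt1w pe W p := by
  unfold wt1w' wt1w
  set S := wt1sg ((p - pe) / W) with hS
  have h0 : 0 < S := wt1sg_pos _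
  have h1 : S < 1 := wt1sg_lt_one _
  have he := Real.exp_pos (-p)
  have hp : 0 < S * (1 - S) := mul_pos h0 (by linarith)
  rw [abs_neg, abs_mul, abs_of_pos he]
  have h2 : |S + 2 * (S * (1 - S)) / W + S * (1 - S) * (1 - 2 * S) / W ^ 2|
      ≤ S + 2 * (S * (1 - S)) / W + S * (1 - S) / W ^ 2 := by
    have h3 : |S * (1 - S) * (1 - 2 * S) / W ^ 2| ≤ S * (1 - S) / W ^ 2 := by
      rw [abs_div, abs_mul, abs_of_pos hp, abs_of_pos (by positivity : 0 < W ^ 2)]
      apply div_le_div_of_nonneg_right _ (by positivity)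
      have h4 : |1 - 2 * S| ≤ 1 := by
        rw [abs_le]
        constructor <;> linarith
      nlinarith
    calc |S + 2 * (S * (1 - S)) / W + S * (1 - S) * (1 - 2 * S) / W ^ 2|
        ≤ |S + 2 * (S * (1 - S)) / W| + |S * (1 - S) * (1 - 2 * S) / W ^ 2| := abs_add_le _ _
      _ ≤ _ := by
          rw [abs_of_pos (by positivity)]
          linarith
  have h5 : S + 2 * (S * (1 - S)) / W + S * (1 - S) / W ^ 2
      ≤ 3 / W * (S + S * (1 - S) / W) := by
    have h6 : 3 / W * (S + S * (1 - S) / W) = 3 * (S / W) + 3 * (S * (1 - S) / W ^ 2) := by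
      field_simp
    have h7 : S ≤ S / W := by
      rw [le_div_iff₀ hW]
      nlinarith
    have h8 : 2 * (S * (1 - S)) / W ≤ 2 * (S / W) := by
      rw [mul_div_assoc]
      apply mul_le_mul_of_nonneg_left _ (by norm_num)
      apply div_le_div_of_nonneg_right _ hW.le
      nlinarith
    have h9 : 0 < S * (1 - S) / W ^ 2 := by positivity
    rw [h6]
    linarith
  calc Real.exp (-p) * |S + 2 * (S * (1 - S)) / W + S * (1 - S) * (1 - 2 * S) / W ^ 2|
      ≤ Real.exp (-p) * (3 / W * (S + S * (1 - S) / W)) :=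
        mul_le_mul_of_nonneg_left (h2.trans h5) he.le
    _ = _ := by ring

theorem wt1_zw {pe W : ℝ} (hW : 0 < W) (p : ℝ) : wt1z pe W p ≤ wt1w pe W p := by
  unfold wt1z wt1w
  have h0 := wt1sg_pos ((p - pe) / W)
  have h1 := wt1sg_lt_one ((p - pe) / W)
  have he := Real.exp_pos (-p)
  apply mul_le_mul_of_nonneg_left _ he.le
  have : 0 ≤ wt1sg ((p - pe) / W) * (1 - wt1sg ((p - pe) / W)) / W :=
    div_nonneg (mul_nonneg h0.le (by linarith)) hW.le
  linarith

set_option maxHeartbeats 2000000 in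
/-- `z = exp(-p) sg((p-pe)/W)`, `w = -z' = z (1 + (1-S)/W)`, see `Wts.lean`. -/
theorem wt1_proof (C : ℝ) (hC : 1 ≤ C) (k b N : ℕ) (hk : 10 ≤ k) :
    ∃ r0 : ℝ, 0 < r0 ∧ ∀ r : ℝ, 0 < r → r < r0 → ∀ pe : ℝ,
      |pe| ≤ 4 * (Par.mk r k b).W1 →
      ∃ z w w' : ℝ → ℝ, Wt ⟨r, k, b⟩ C N (pe + (Par.mk r k b).W1 / 2) z w w' ∧
        (∀ p : ℝ, -(7 / 5) ≤ p → p ≤ pe → 1 / 3 ≤ w p) ∧
        (∀ p : ℝ, |p - pe| ≤ WW ⟨r, k, b⟩ C → 1 / (6 * WW ⟨r, k, b⟩ C) ≤ w p) := by
  set K : ℝ := KW C with hK
  have hK1 : 1 ≤ K := by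
    rw [hK]
    unfold KW
    nlinarith
  set M : ℕ := N + 11 with hM
  set F : ℝ := (M.factorial : ℝ) * (2 * K) ^ M with hF
  have hF1 : 1 ≤ F := by
    have h1 : (1 : ℝ) ≤ M.factorial := by exact_mod_cast Nat.one_le_iff_ne_zero.2 M.factorial_ne_zero
    have h2 : (1 : ℝ) ≤ (2 * K) ^ M := one_le_pow₀ (by linarith)
    nlinarith
  have hD : 0 < 10 ^ 4 * K * F := by positivity
  refine ⟨1 / (10 ^ 4 * K * F), by positivity, ?_⟩
  intro r hr0 hr pe hpe
  have hDr : 10 ^ 4 * K * F * r < 1 := by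
    rw [lt_div_iff₀ hD] at hr
    linarith
  have hKr : 10 ^ 4 * K * r < 1 := by
    have : 10 ^ 4 * K * r ≤ 10 ^ 4 * K * F * r := by
      have h3 : 0 < 10 ^ 4 * K * r := by positivity
      nlinarith
    linarith
  have hr1 : 10 ^ 4 * r < 1 := by
    have : 10 ^ 4 * r ≤ 10 ^ 4 * K * r := by
      have h3 : 0 < 10 ^ 4 * r := by positivity
      nlinarith
    linarith
  have hFr : F * r ≤ 1 := by
    have : F * r ≤ 10 ^ 4 * K * F * r := by
      have h3 : 0 < F * r := by positivity
      have h4 : 1 ≤ 10 ^ 4 * K := by nlinarith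
      nlinarith
    linarith
  have hrle : r ≤ 1 := by linarith
  set W1 : ℝ := (Par.mk r k b).W1 with hW1
  have hW1e : W1 = r ^ (9 * k) := rfl
  have hW1p : 0 < W1 := by rw [hW1e]; positivity
  have hW1r : W1 ≤ r := by
    rw [hW1e]
    calc r ^ (9 * k) ≤ r ^ 1 := pow_le_pow_of_le_one hr0.le hrle (by omega)
      _ = r := pow_one r
  set W : ℝ := WW ⟨r, k, b⟩ C with hW
  have hWe : W = K * r ^ (10 * k) := rfl
  have hWp : 0 < W := by rw [hWe]; positivity
  have hWr : W ≤ K * r := by
    rw [hWe]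
    apply mul_le_mul_of_nonneg_left _ (by linarith)
    calc r ^ (10 * k) ≤ r ^ 1 := pow_le_pow_of_le_one hr0.le hrle (by omega)
      _ = r := pow_one r
  have hWs : W ≤ 1 / 10 ^ 4 := by
    have : K * r ≤ 1 / 10 ^ 4 := by
      rw [le_div_iff₀ (by norm_num)]
      linarith
    linarith
  have hW1s : W1 ≤ 1 / 10 ^ 4 := by
    have : r ≤ 1 / 10 ^ 4 := by
      rw [le_div_iff₀ (by norm_num)]
      linarith
    linarith
  have hpe2 := abs_le.1 hpe
  refine ⟨wt1z pe W, wt1w pe W, wt1w' pe W, ?_, ?_, ?_⟩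
  · constructor
    · exact fun p => wt1_hz p
    · exact fun p => wt1_hw hWp.ne' p
    · exact wt1_cw' pe W
    · intro p
      exact mul_pos (Real.exp_pos _) (wt1sg_pos _)
    · exact fun p => wt1_zw hWp p
    · exact fun p => wt1_w'b hWp (by linarith) p
    · intro p hp
      unfold wt1z
      have h1 : Real.exp (-p) ≤ Real.exp (7 / 5) := Real.exp_le_exp.2 (by linarith)
      have h2 : Real.exp (7 / 5) ≤ 10 := by
        have h3 : Real.exp (7 / 5) ≤ Real.exp 2 := Real.exp_le_exp.2 (by norm_num)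
        have h4 : Real.exp 2 = Real.exp 1 * Real.exp 1 := by
          rw [← Real.exp_add]
          norm_num
        have h5 := Real.exp_one_lt_d9
        have h6 := Real.exp_pos 1
        nlinarith
      have h3 := wt1sg_lt_one ((p - pe) / W)
      have h4 := wt1sg_pos ((p - pe) / W)
      have h5 := Real.exp_pos (-p)
      calc Real.exp (-p) * wt1sg ((p - pe) / W) ≤ Real.exp (-p) * 1 :=
            mul_le_mul_of_nonneg_left h3.le h5.le
        _ ≤ 10 := by linarith
    · intro p hp1 hp2
      unfold wt1w wt1z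
      set t := (p - pe) / W with ht
      have h0 := wt1sg_pos t
      have h1 := wt1sg_one_sub_le t
      have ht2 : t ≤ -(4 / 10) / W := by
        rw [ht]
        apply div_le_div_of_nonneg_right _ hWp.le
        linarith
      have h2 : Real.exp t ≤ Real.exp (-((4 / 10) / W)) := Real.exp_le_exp.2 (by
        rw [neg_div] at ht2
        exact ht2)
      have h3 : Real.exp (-((4 / 10) / W)) ≤ 1 / ((4 / 10 / W) ^ 2 / 2) := by
        rw [Real.exp_neg, ← one_div]
        apply one_div_le_one_div_of_le (by positivity)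
        have := Real.quadratic_le_exp_of_nonneg (x := 4 / 10 / W) (by positivity)
        have h4 : 0 < 4 / 10 / W := by positivity
        linarith
      have h4 : 1 / ((4 / 10 / W) ^ 2 / 2) = 25 / 2 * W ^ 2 := by
        field_simp
        norm_num
      have h5 : (1 - wt1sg t) / W ≤ 5 / 1000 := by
        rw [div_le_iff₀ hWp]
        have h6 : 1 - wt1sg t ≤ 25 / 2 * W ^ 2 := by linarith
        nlinarith
      have h7 : wt1sg t * (1 - wt1sg t) / W = wt1sg t * ((1 - wt1sg t) / W) := by ring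
      rw [h7]
      have h8 := Real.exp_pos (-p)
      have h9 : wt1sg t * ((1 - wt1sg t) / W) ≤ wt1sg t * (5 / 1000) :=
        mul_le_mul_of_nonneg_left h5 h0.le
      calc Real.exp (-p) * (wt1sg t + wt1sg t * ((1 - wt1sg t) / W))
          ≤ Real.exp (-p) * (wt1sg t + wt1sg t * (5 / 1000)) :=
            mul_le_mul_of_nonneg_left (by linarith) h8.le
        _ = 1005 / 1000 * (Real.exp (-p) * wt1sg t) := by ring
    · show wt1w pe W (pe + W1 / 2) ≤ r ^ N
      unfold wt1w
      have ht : (pe + W1 / 2 - pe) / W = W1 / (2 * W) := by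
        field_simp
        ring
      rw [ht]
      set x := W1 / (2 * W) with hx
      have hxp : 0 < x := by positivity
      have h0 := wt1sg_pos x
      have h1 := wt1sg_lt_one x
      have h2 := wt1sg_le_exp x
      have h3 : Real.exp (-(pe + W1 / 2)) ≤ 3 := by
        have h4 : Real.exp (-(pe + W1 / 2)) ≤ Real.exp 1 := Real.exp_le_exp.2 (by linarith)
        have h5 := Real.exp_one_lt_d9
        linarith
      have h4 : wt1sg x + wt1sg x * (1 - wt1sg x) / W ≤ 2 / W * Real.exp (-x) := by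
        have h5 : wt1sg x ≤ wt1sg x / W := by
          rw [le_div_iff₀ hWp]
          nlinarith
        have h6 : wt1sg x * (1 - wt1sg x) / W ≤ wt1sg x / W := by
          apply div_le_div_of_nonneg_right _ hWp.le
          nlinarith
        have h7 : wt1sg x / W ≤ Real.exp (-x) / W := div_le_div_of_nonneg_right h2 hWp.le
        calc wt1sg x + wt1sg x * (1 - wt1sg x) / W ≤ 2 * (Real.exp (-x) / W) := by linarith
          _ = 2 / W * Real.exp (-x) := by ring
      have h5 : Real.exp (-x) ≤ (M.factorial : ℝ) / x ^ M := by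
        rw [Real.exp_neg, ← one_div]
        have h6 : x ^ M / (M.factorial : ℝ) ≤ Real.exp x := by
          have := Real.sum_le_exp_of_nonneg hxp.le (M + 1)
          refine le_trans ?_ this
          exact Finset.single_le_sum (f := fun i => x ^ i / (i.factorial : ℝ))
            (fun i _ => by positivity) (Finset.mem_range.2 (Nat.lt_succ_self M))
        calc 1 / Real.exp x ≤ 1 / (x ^ M / (M.factorial : ℝ)) :=
              one_div_le_one_div_of_le (by positivity) h6
          _ = _ := by field_simp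
      have h6 : x = 1 / (2 * K * r ^ k) := by
        rw [hx, hW1e, hWe]
        have : r ^ (10 * k) = r ^ (9 * k) * r ^ k := by rw [← pow_add]; congr 1; ring
        rw [this]
        have h7 : r ^ (9 * k) ≠ 0 := by positivity
        field_simp
      have h7 : (M.factorial : ℝ) / x ^ M = F * r ^ (k * M) := by
        rw [h6, hF]
        have h8 : r ^ (k * M) = (r ^ k) ^ M := pow_mul r k M
        rw [h8, one_div, inv_pow, div_inv_eq_mul, mul_pow]
        ring
      have h8 : F * r ^ (k * M) ≤ r ^ (N + 10 * k) := by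
        have h9 : r ^ (k * M) ≤ r ^ (N + 10 * k + 1) := by
          apply pow_le_pow_of_le_one hr0.le hrle
          rw [hM]
          have h10 : 1 * N ≤ k * N := Nat.mul_le_mul_right N (by omega : 1 ≤ k)
          have h11 : k * (N + 11) = k * N + 11 * k := by ring
          omega
        calc F * r ^ (k * M) ≤ F * r ^ (N + 10 * k + 1) :=
              mul_le_mul_of_nonneg_left h9 (by linarith)
          _ = (F * r) * r ^ (N + 10 * k) := by ring
          _ ≤ 1 * r ^ (N + 10 * k) := mul_le_mul_of_nonneg_right hFr (by positivity)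
          _ = r ^ (N + 10 * k) := one_mul _
      have h9 : Real.exp (-x) ≤ r ^ (N + 10 * k) := by
        rw [h7] at h5
        exact h5.trans h8
      have h10 : 0 < 2 / W := by positivity
      calc Real.exp (-(pe + W1 / 2)) * (wt1sg x + wt1sg x * (1 - wt1sg x) / W)
          ≤ 3 * (2 / W * Real.exp (-x)) := by
            apply mul_le_mul h3 h4 _ (by norm_num)
            have : 0 ≤ wt1sg x * (1 - wt1sg x) / W :=
              div_nonneg (mul_nonneg h0.le (by linarith)) hWp.le
            linarith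
        _ ≤ 3 * (2 / W * r ^ (N + 10 * k)) := by
            apply mul_le_mul_of_nonneg_left _ (by norm_num)
            exact mul_le_mul_of_nonneg_left h9 h10.le
        _ = (6 / K) * r ^ N := by
            rw [hWe, pow_add]
            have : r ^ (10 * k) ≠ 0 := by positivity
            field_simp
            ring
        _ ≤ 1 * r ^ N := by
            apply mul_le_mul_of_nonneg_right _ (by positivity)
            rw [div_le_one (by linarith)]
            rw [hK]
            unfold KW
            nlinarith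
        _ = r ^ N := one_mul _
  · intro p hp1 hp2
    refine le_trans ?_ (wt1_zw hWp p)
    unfold wt1z
    have h1 : 1 / 2 ≤ wt1sg ((p - pe) / W) :=
      wt1sg_half (div_nonpos_of_nonpos_of_nonneg (by linarith) hWp.le)
    have h2 : 2 / 3 ≤ Real.exp (-p) := by
      have := Real.add_one_le_exp (-p)
      linarith
    calc (1 : ℝ) / 3 = 2 / 3 * (1 / 2) := by norm_num
      _ ≤ _ := mul_le_mul h2 h1 (by norm_num) (Real.exp_pos _).le
  · intro p hp
    have hp2 := abs_le.1 hp
    unfold wt1w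
    set t := (p - pe) / W with ht
    have ht1 : |t| ≤ 1 := by
      rw [ht, abs_div, abs_of_pos hWp, div_le_one hWp]
      exact hp
    have h0 := wt1sg_pos t
    have h1 := wt1sg_mid ht1
    have h2 : 9 / 10 ≤ Real.exp (-p) := by
      have := Real.add_one_le_exp (-p)
      linarith
    have h3 : 19 / 100 / W ≤ wt1sg t * (1 - wt1sg t) / W := div_le_div_of_nonneg_right h1 hWp.le
    have h4 : 0 < 19 / 100 / W := by positivity
    calc 1 / (6 * W) ≤ 9 / 10 * (19 / 100 / W) := by
          have : 9 / 10 * (19 / 100 / W) = (171 / 1000) / W := by ring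
          rw [this, div_le_div_iff₀ (by positivity) hWp]
          linarith
      _ ≤ Real.exp (-p) * (wt1sg t + wt1sg t * (1 - wt1sg t) / W) := by
          apply mul_le_mul h2 _ h4.le (Real.exp_pos _).le
          linarith

end

end P229
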