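import Vale.Agent.P229.T.Wt1

/-!
# P229 block T: the second exponential weight (module T_WT2, helper71)
-/

namespace P229

open Set Real
open scoped ContDiff

noncomputable section

def wt2z (W W1 p : ℝ) : ℝ := wt1z (3 * W1) W p * (1 + wt1sg (p / W1))

def wt2w (W W1 p : ℝ) : ℝ :=
  wt1w (3 * W1) W p * (1 + wt1sg (p / W1)) +
    wt1z (3 * W1) W p * (wt1sg (p / W1) * (1 - wt1sg (p / W1))) / W1

def wt2w' (W W1 p : ℝ) : ℝ :=
  wt1w' (3 * W1) W p * (1 + wt1sg (p / W1)) -
    2 * wt1w (3 * W1) W p * (wt1sg (p / W1) * (1 - wt1sg (p / W1))) / W1 -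
    wt1z (3 * W1) W p * (wt1sg (p / W1) * (1 - wt1sg (p / W1))) * (1 - 2 * wt1sg (p / W1)) / W1 ^ 2

theorem wt2_hS {W1 : ℝ} (p : ℝ) :
    HasDerivAt (fun p => wt1sg (p / W1))
      (-(wt1sg (p / W1) * (1 - wt1sg (p / W1))) / W1) p := by
  have h1 : HasDerivAt (fun p : ℝ => p / W1) (1 / W1) p := (hasDerivAt_id p).div_const W1
  have h2 := (wt1sg_hasDerivAt (p / W1)).comp p h1
  refine h2.congr_deriv ?_
  ring

theorem wt2_hz {W W1 : ℝ} (p : ℝ) : HasDerivAt (wt2z W W1) (-wt2w W W1 p) p := by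
  have h := (wt1_hz (pe := 3 * W1) (W := W) p).mul ((wt2_hS (W1 := W1) p).const_add 1)
  refine h.congr_deriv ?_
  unfold wt2w
  ring

theorem wt2_hw {W W1 : ℝ} (hW : W ≠ 0) (p : ℝ) :
    HasDerivAt (wt2w W W1) (wt2w' W W1 p) p := by
  have h1 := wt2_hS (W1 := W1) p
  have h2 := (wt1_hw (pe := 3 * W1) hW p).mul (h1.const_add 1)
  have h3 := ((wt1_hz (pe := 3 * W1) (W := W) p).mul (h1.mul (h1.const_sub 1))).div_const W1
  have h := h2.add h3
  refine h.congr_deriv ?_
  unfold wt2w'
  simp only [Pi.mul_apply]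
  ring

theorem wt2_cw' (W W1 : ℝ) : Continuous (wt2w' W W1) := by
  have h0 : Continuous wt1sg :=
    continuous_iff_continuousAt.2 fun t => (wt1sg_hasDerivAt t).continuousAt
  have h1 : Continuous (fun p : ℝ => wt1sg (p / W1)) := h0.comp (by fun_prop)
  have h2 : Continuous (fun p : ℝ => wt1sg ((p - 3 * W1) / W)) := h0.comp (by fun_prop)
  have h3 := wt1_cw' (3 * W1) W
  have h4 : Continuous (wt1w (3 * W1) W) := by
    unfold wt1w
    fun_prop
  have h5 : Continuous (wt1z (3 * W1) W) := by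
    unfold wt1z
    fun_prop
  unfold wt2w'
  fun_prop

theorem wt2_w'b1 {pe W : ℝ} (hW : 0 < W) (hW1 : W ≤ 1 / 2) (p : ℝ) :
    |wt1w' pe W p| ≤ 2 / W * wt1w pe W p := by
  unfold wt1w' wt1w
  set S := wt1sg ((p - pe) / W) with hS
  have h0 : 0 < S := wt1sg_pos _
  have h1 : S < 1 := wt1sg_lt_one _
  have he := Real.exp_pos (-p)
  have hp : 0 < S * (1 - S) := mul_pos h0 (by linarith)
  rw [abs_neg, abs_mul, abs_of_pos he]
  have h2 : |S + 2 * (S * (1 - S)) / W + S * (1 - S) * (1 - 2 * S) / W ^ 2|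
      ≤ S + 2 * (S * (1 - S)) / W + S * (1 - S) / W ^ 2 := by
    have h3 : |S * (1 - S) * (1 - 2 * S) / W ^ 2| ≤ S * (1 - S) / W ^ 2 := by
      rw [abs_div, abs_mul, abs_of_pos hp, abs_of_pos (by positivity : 0 < W ^ 2)]
      apply div_le_div_of_nonneg_right _ (by positivity)
      have h4 : |1 - 2 * S| ≤ 1 := by
        rw [abs_le]
        constructor <;> linarith
      nlinarith
    calc |S + 2 * (S * (1 - S)) / W + S * (1 - S) * (1 - 2 * S) / W ^ 2|
        ≤ |S + 2 * (S * (1 - S)) / W| + |S * (1 - S) * (1 - 2 * S) / W ^ 2| := abs_add_le _ _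
      _ ≤ _ := by
          rw [abs_of_pos (by positivity)]
          linarith
  have h5 : S + 2 * (S * (1 - S)) / W + S * (1 - S) / W ^ 2
      ≤ 2 / W * (S + S * (1 - S) / W) := by
    have h6 : 2 / W * (S + S * (1 - S) / W) = 2 * (S / W) + 2 * (S * (1 - S) / W ^ 2) := by
      field_simp
    have h7 : S ≤ S / W := by
      rw [le_div_iff₀ hW]
      nlinarith
    have h8 : 2 * (S * (1 - S)) / W ≤ S * (1 - S) / W ^ 2 := by
      rw [div_le_div_iff₀ hW (by positivity)]
      have : 2 * (S * (1 - S)) * W ^ 2 = (S * (1 - S) * W) * (2 * W) := by ring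
      rw [this]
      have h10 : 0 < S * (1 - S) * W := by positivity
      nlinarith
    have h9 : 0 < S / W := by positivity
    rw [h6]
    linarith
  calc Real.exp (-p) * |S + 2 * (S * (1 - S)) / W + S * (1 - S) * (1 - 2 * S) / W ^ 2|
      ≤ Real.exp (-p) * (2 / W * (S + S * (1 - S) / W)) :=
        mul_le_mul_of_nonneg_left (h2.trans h5) he.le
    _ = _ := by ring

theorem wt2_w'b {W W1 : ℝ} (hW : 0 < W) (hW2 : W ≤ 1 / 2) (hW1 : W ≤ W1) (p : ℝ) :
    |wt2w' W W1 p| ≤ 3 / W * wt2w W W1 p := by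
  unfold wt2w' wt2w
  set σ := wt1sg (p / W1) with hσ
  set A := wt1z (3 * W1) W p with hA
  set B := wt1w (3 * W1) W p with hB
  have hW1p : 0 < W1 := lt_of_lt_of_le hW hW1
  have h0 : 0 < σ := wt1sg_pos _
  have h1 : σ < 1 := wt1sg_lt_one _
  have hA0 : 0 < A := mul_pos (Real.exp_pos _) (wt1sg_pos _)
  have hAB : A ≤ B := wt1_zw hW p
  have hB0 : 0 < B := lt_of_lt_of_le hA0 hAB
  have hτ0 : 0 < σ * (1 - σ) := mul_pos h0 (by linarith)
  have hτ1 : σ * (1 - σ) ≤ 1 / 4 := by nlinarith [sq_nonneg (σ - 1 / 2)]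
  set τ := σ * (1 - σ) with hτ
  have b1 : |wt1w' (3 * W1) W p * (1 + σ)| ≤ 2 / W * B * (1 + σ) := by
    rw [abs_mul, abs_of_pos (by linarith : 0 < 1 + σ)]
    exact mul_le_mul_of_nonneg_right (wt2_w'b1 hW hW2 p) (by linarith)
  have b2 : |2 * B * τ / W1| ≤ 1 / W * (B * (1 + σ)) := by
    rw [abs_of_pos (by positivity), div_mul_eq_mul_div, one_mul, div_le_div_iff₀ hW1p hW]
    have e1 : 2 * B * τ * W ≤ 1 / 2 * B * W := by
      have : 0 < B * W := by positivity
      nlinarith
    have e2 : B * W1 ≤ B * (1 + σ) * W1 := by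
      have : 0 < B * W1 := by positivity
      nlinarith
    have e3 : B * W ≤ B * W1 := mul_le_mul_of_nonneg_left hW1 hB0.le
    nlinarith [mul_pos hB0 hW]
  have b3 : |A * τ * (1 - 2 * σ) / W1 ^ 2| ≤ 1 / W * (A * τ / W1) := by
    rw [abs_div, abs_mul, abs_of_pos (by positivity : 0 < A * τ),
      abs_of_pos (by positivity : 0 < W1 ^ 2)]
    have h4 : |1 - 2 * σ| ≤ 1 := by
      rw [abs_le]
      constructor <;> linarith
    have h5 : A * τ * |1 - 2 * σ| ≤ A * τ := by
      have : 0 < A * τ := by positivity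
      nlinarith
    calc A * τ * |1 - 2 * σ| / W1 ^ 2 ≤ A * τ / W1 ^ 2 :=
          div_le_div_of_nonneg_right h5 (by positivity)
      _ = 1 / W1 * (A * τ / W1) := by field_simp
      _ ≤ 1 / W * (A * τ / W1) := by
          apply mul_le_mul_of_nonneg_right _ (by positivity)
          exact one_div_le_one_div_of_le hW hW1
  have tri : |wt1w' (3 * W1) W p * (1 + σ) - 2 * B * τ / W1 - A * τ * (1 - 2 * σ) / W1 ^ 2| ≤
      |wt1w' (3 * W1) W p * (1 + σ)| + |2 * B * τ / W1| + |A * τ * (1 - 2 * σ) / W1 ^ 2| := by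
    refine (abs_sub _ _).trans ?_
    gcongr
    exact abs_sub _ _
  refine tri.trans ?_
  have hfin : 2 / W * B * (1 + σ) + 1 / W * (B * (1 + σ)) + 1 / W * (A * τ / W1) ≤
      3 / W * (B * (1 + σ) + A * τ / W1) := by
    have e : 3 / W * (B * (1 + σ) + A * τ / W1) = 2 / W * B * (1 + σ) + 1 / W * (B * (1 + σ))
        + 1 / W * (A * τ / W1) + 2 / W * (A * τ / W1) := by ring
    rw [e]
    have : 0 < 2 / W * (A * τ / W1) := by positivity
    linarith
  linarith

theorem wt2_zw {W W1 : ℝ} (hW : 0 < W) (hW1 : 0 < W1) (p : ℝ) : wt2z W W1 p ≤ wt2w W W1 p := by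
  unfold wt2z wt2w
  have h0 := wt1sg_pos (p / W1)
  have h1 := wt1sg_lt_one (p / W1)
  have hA0 : 0 < wt1z (3 * W1) W p := mul_pos (Real.exp_pos _) (wt1sg_pos _)
  have hAB := wt1_zw (pe := 3 * W1) hW p
  have e1 : wt1z (3 * W1) W p * (1 + wt1sg (p / W1)) ≤ wt1w (3 * W1) W p * (1 + wt1sg (p / W1)) :=
    mul_le_mul_of_nonneg_right hAB (by linarith)
  have e2 : 0 ≤ wt1z (3 * W1) W p * (wt1sg (p / W1) * (1 - wt1sg (p / W1))) / W1 :=
    div_nonneg (mul_nonneg hA0.le (mul_nonneg h0.le (by linarith))) hW1.le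
  linarith

theorem wt2_mid {t : ℝ} (ht : |t| ≤ 3) : 1 / 43 ≤ wt1sg t * (1 - wt1sg t) := by
  rw [wt1sg_one_sub]
  unfold wt1sg
  have h0 := Real.exp_pos t
  have h1 := abs_le.1 ht
  have he3 : Real.exp 3 ≤ 20.1 := by
    have e1 : Real.exp 3 = Real.exp 1 ^ 3 := by
      rw [← Real.exp_nat_mul]
      norm_num
    rw [e1]
    have h2 := Real.exp_one_lt_d9
    have h3 := Real.exp_pos 1
    calc Real.exp 1 ^ 3 ≤ 2.7182818286 ^ 3 := by gcongr
      _ ≤ 20.1 := by norm_num
  have h2 : Real.exp t ≤ 20.1 := (Real.exp_le_exp.2 h1.2).trans he3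
  have h3 : 1 / 20.1 ≤ Real.exp t := by
    have h4 : Real.exp (-3) ≤ Real.exp t := Real.exp_le_exp.2 h1.1
    have h5 : 1 / 20.1 ≤ Real.exp (-3) := by
      rw [Real.exp_neg, ← one_div]
      exact one_div_le_one_div_of_le (Real.exp_pos 3) he3
    linarith
  have h6 : (4 / 100 : ℝ) ≤ 1 / 20.1 := by norm_num
  have h7 : 4 / 100 ≤ Real.exp t := h6.trans h3
  have h8 : 1 / (1 + Real.exp t) * (Real.exp t / (1 + Real.exp t))
      = Real.exp t / (1 + Real.exp t) ^ 2 := by
    field_simp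
  rw [h8, le_div_iff₀ (by positivity)]
  have h9 : (Real.exp t - 4 / 100) * (Real.exp t - 20.1) ≤ 0 :=
    mul_nonpos_of_nonneg_of_nonpos (by linarith) (by linarith)
  nlinarith

/-- the elliptic end: `1 - sg t ≤ (25/2) W ^ 2` for `t ≤ -(4/10)/W` -/
theorem wt2_far {t W : ℝ} (hW : 0 < W) (hWs : W ≤ 1 / 10 ^ 4) (ht2 : t ≤ -((4 / 10) / W)) :
    (1 - wt1sg t) / W ≤ 2 / 1000 := by
  have h1 := wt1sg_one_sub_le t
  have h2 : Real.exp t ≤ Real.exp (-((4 / 10) / W)) := Real.exp_le_exp.2 ht2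
  have h3 : Real.exp (-((4 / 10) / W)) ≤ 1 / ((4 / 10 / W) ^ 2 / 2) := by
    rw [Real.exp_neg, ← one_div]
    apply one_div_le_one_div_of_le (by positivity)
    have := Real.quadratic_le_exp_of_nonneg (x := 4 / 10 / W) (by positivity)
    have h4 : 0 < 4 / 10 / W := by positivity
    linarith
  have h4 : 1 / ((4 / 10 / W) ^ 2 / 2) = 25 / 2 * W ^ 2 := by
    field_simp
    norm_num
  rw [div_le_iff₀ hW]
  have h6 : 1 - wt1sg t ≤ 25 / 2 * W ^ 2 := by linarith
  nlinarith

set_option maxHeartbeats 2000000 in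
theorem wt2_proof (C : ℝ) (hC : 1 ≤ C) (k b N : ℕ) (hk : 10 ≤ k) :
    ∃ r0 : ℝ, 0 < r0 ∧ ∀ r : ℝ, 0 < r → r < r0 →
      ∃ z w w' : ℝ → ℝ,
        Wt ⟨r, k, b⟩ C N (3 * (Par.mk r k b).W1 + (Par.mk r k b).W1 / 2) z w w' ∧
        (∀ p : ℝ, |p| ≤ 3 * (Par.mk r k b).W1 → 1 / (100 * (Par.mk r k b).W1) ≤ w p) := by
  set K : ℝ := KW C with hK
  have hK5 : 10 ^ 5 ≤ K := by
    rw [hK]
    unfold KW
    nlinarith
  have hK1 : 1 ≤ K := by linarith
  set M : ℕ := N + 11 with hM
  set F : ℝ := (M.factorial : ℝ) * (2 * K) ^ M with hF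
  have hF1 : 1 ≤ F := by
    have h1 : (1 : ℝ) ≤ M.factorial := by exact_mod_cast Nat.one_le_iff_ne_zero.2 M.factorial_ne_zero
    have h2 : (1 : ℝ) ≤ (2 * K) ^ M := one_le_pow₀ (by linarith)
    nlinarith
  have hD : 0 < 10 ^ 4 * K * F := by positivity
  refine ⟨1 / (10 ^ 4 * K * F), by positivity, ?_⟩
  intro r hr0 hr
  have hDr : 10 ^ 4 * K * F * r < 1 := by
    rw [lt_div_iff₀ hD] at hr
    linarith
  have hKr : 10 ^ 4 * K * r < 1 := by
    have : 10 ^ 4 * K * r ≤ 10 ^ 4 * K * F * r := by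
      have h3 : 0 < 10 ^ 4 * K * r := by positivity
      nlinarith
    linarith
  have hr1 : 10 ^ 4 * r < 1 := by
    have : 10 ^ 4 * r ≤ 10 ^ 4 * K * r := by
      have h3 : 0 < 10 ^ 4 * r := by positivity
      nlinarith
    linarith
  have hFr : F * r ≤ 1 := by
    have : F * r ≤ 10 ^ 4 * K * F * r := by
      have h3 : 0 < F * r := by positivity
      have h4 : 1 ≤ 10 ^ 4 * K := by nlinarith
      nlinarith
    linarith
  have hrle : r ≤ 1 := by linarith
  set W1 : ℝ := (Par.mk r k b).W1 with hW1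
  have hW1e : W1 = r ^ (9 * k) := rfl
  have hW1p : 0 < W1 := by rw [hW1e]; positivity
  have hW1r : W1 ≤ r := by
    rw [hW1e]
    calc r ^ (9 * k) ≤ r ^ 1 := pow_le_pow_of_le_one hr0.le hrle (by omega)
      _ = r := pow_one r
  set W : ℝ := WW ⟨r, k, b⟩ C with hW
  have hWe : W = K * r ^ (10 * k) := rfl
  have hWp : 0 < W := by rw [hWe]; positivity
  have hWr : W ≤ K * r := by
    rw [hWe]
    apply mul_le_mul_of_nonneg_left _ (by linarith)
    calc r ^ (10 * k) ≤ r ^ 1 := pow_le_pow_of_le_one hr0.le hrle (by omega)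
      _ = r := pow_one r
  have hWs : W ≤ 1 / 10 ^ 4 := by
    have : K * r ≤ 1 / 10 ^ 4 := by
      rw [le_div_iff₀ (by norm_num)]
      linarith
    linarith
  have hW1s : W1 ≤ 1 / 10 ^ 4 := by
    have : r ≤ 1 / 10 ^ 4 := by
      rw [le_div_iff₀ (by norm_num)]
      linarith
    linarith
  have hWW1 : W ≤ W1 := by
    have e1 : r ^ (10 * k) = r ^ (9 * k) * r ^ k := by rw [← pow_add]; congr 1; ring
    have e2 : r ^ k ≤ r := by
      calc r ^ k ≤ r ^ 1 := pow_le_pow_of_le_one hr0.le hrle (by omega)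
        _ = r := pow_one r
    rw [hWe, hW1e, e1]
    have e3 : K * r ^ k ≤ 1 := by
      have : K * r ^ k ≤ K * r := mul_le_mul_of_nonneg_left e2 (by linarith)
      nlinarith
    have e4 : 0 < r ^ (9 * k) := by positivity
    calc K * (r ^ (9 * k) * r ^ k) = r ^ (9 * k) * (K * r ^ k) := by ring
      _ ≤ r ^ (9 * k) * 1 := mul_le_mul_of_nonneg_left e3 e4.le
      _ = r ^ (9 * k) := mul_one _
  refine ⟨wt2z W W1, wt2w W W1, wt2w' W W1, ?_, ?_⟩
  · constructor
    · exact fun p => wt2_hz p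
    · exact fun p => wt2_hw hWp.ne' p
    · exact wt2_cw' W W1
    · intro p
      have h0 := wt1sg_pos (p / W1)
      exact mul_pos (mul_pos (Real.exp_pos _) (wt1sg_pos _)) (by linarith)
    · exact fun p => wt2_zw hWp hW1p p
    · exact fun p => wt2_w'b hWp (by linarith) hWW1 p
    · intro p hp
      unfold wt2z wt1z
      have h1 : Real.exp (-p) ≤ Real.exp (3 / 2) := Real.exp_le_exp.2 (by linarith)
      have h2 : Real.exp (3 / 2) ≤ 5 := by
        have e1 : Real.exp (3 / 2) * Real.exp (3 / 2) = Real.exp 1 ^ 3 := by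
          rw [← Real.exp_add, ← Real.exp_nat_mul]
          norm_num
        have h5 := Real.exp_one_lt_d9
        have h6 := Real.exp_pos 1
        have h7 : Real.exp 1 ^ 3 ≤ 25 := by
          calc Real.exp 1 ^ 3 ≤ 2.7182818286 ^ 3 := by gcongr
            _ ≤ 25 := by norm_num
        have h8 := Real.exp_pos (3 / 2)
        nlinarith
      have h3 := wt1sg_lt_one ((p - 3 * W1) / W)
      have h4 := wt1sg_pos ((p - 3 * W1) / W)
      have h5 := Real.exp_pos (-p)
      have h6 := wt1sg_lt_one (p / W1)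
      have h7 := wt1sg_pos (p / W1)
      calc Real.exp (-p) * wt1sg ((p - 3 * W1) / W) * (1 + wt1sg (p / W1))
          ≤ 5 * 1 * 2 := by
            apply mul_le_mul _ (by linarith) (by linarith) (by norm_num)
            exact mul_le_mul (h1.trans h2) h3.le h4.le (by norm_num)
        _ = 10 := by norm_num
    · intro p hp1 hp2
      have a1 : (1 - wt1sg ((p - 3 * W1) / W)) / W ≤ 2 / 1000 := by
        apply wt2_far hWp hWs
        rw [← neg_div]
        apply div_le_div_of_nonneg_right _ hWp.le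
        linarith
      have a2 : (1 - wt1sg (p / W1)) / W1 ≤ 2 / 1000 := by
        apply wt2_far hW1p hW1s
        rw [← neg_div]
        apply div_le_div_of_nonneg_right _ hW1p.le
        linarith
      unfold wt2w wt2z
      have hA0 : 0 < wt1z (3 * W1) W p := mul_pos (Real.exp_pos _) (wt1sg_pos _)
      have hB : wt1w (3 * W1) W p =
          wt1z (3 * W1) W p * (1 + (1 - wt1sg ((p - 3 * W1) / W)) / W) := by
        unfold wt1w wt1z
        ring
      have h0 := wt1sg_pos (p / W1)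
      have h1 := wt1sg_lt_one (p / W1)
      set σ := wt1sg (p / W1) with hσ
      set A := wt1z (3 * W1) W p with hA
      have e1 : A * (σ * (1 - σ)) / W1 = A * σ * ((1 - σ) / W1) := by ring
      rw [hB, e1]
      have hAσ : 0 < A * σ := by positivity
      have e2 : A * σ * ((1 - σ) / W1) ≤ A * σ * (2 / 1000) :=
        mul_le_mul_of_nonneg_left a2 hAσ.le
      have e3 : A * (1 + (1 - wt1sg ((p - 3 * W1) / W)) / W) * (1 + σ) ≤
          A * (1 + 2 / 1000) * (1 + σ) := by
        apply mul_le_mul_of_nonneg_right _ (by linarith)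
        exact mul_le_mul_of_nonneg_left (by linarith) hA0.le
      nlinarith
    · show wt2w W W1 (3 * W1 + W1 / 2) ≤ r ^ N
      unfold wt2w wt1w wt1z
      have ht : (3 * W1 + W1 / 2 - 3 * W1) / W = W1 / (2 * W) := by
        field_simp
        ring
      rw [ht]
      set x := W1 / (2 * W) with hx
      have hxp : 0 < x := by positivity
      have h0 := wt1sg_pos x
      have h1 := wt1sg_lt_one x
      have h2 := wt1sg_le_exp x
      have h3 : Real.exp (-(3 * W1 + W1 / 2)) ≤ 1 := by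
        rw [Real.exp_le_one_iff]
        linarith
      have h4 : wt1sg x + wt1sg x * (1 - wt1sg x) / W ≤ 2 / W * Real.exp (-x) := by
        have h5 : wt1sg x ≤ wt1sg x / W := by
          rw [le_div_iff₀ hWp]
          nlinarith
        have h6 : wt1sg x * (1 - wt1sg x) / W ≤ wt1sg x / W := by
          apply div_le_div_of_nonneg_right _ hWp.le
          nlinarith
        have h7 : wt1sg x / W ≤ Real.exp (-x) / W := div_le_div_of_nonneg_right h2 hWp.le
        calc wt1sg x + wt1sg x * (1 - wt1sg x) / W ≤ 2 * (Real.exp (-x) / W) := by linarith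
          _ = 2 / W * Real.exp (-x) := by ring
      have h5 : Real.exp (-x) ≤ (M.factorial : ℝ) / x ^ M := by
        rw [Real.exp_neg, ← one_div]
        have h6 : x ^ M / (M.factorial : ℝ) ≤ Real.exp x := by
          have := Real.sum_le_exp_of_nonneg hxp.le (M + 1)
          refine le_trans ?_ this
          exact Finset.single_le_sum (f := fun i => x ^ i / (i.factorial : ℝ))
            (fun i _ => by positivity) (Finset.mem_range.2 (Nat.lt_succ_self M))
        calc 1 / Real.exp x ≤ 1 / (x ^ M / (M.factorial : ℝ)) :=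
              one_div_le_one_div_of_le (by positivity) h6
          _ = _ := by field_simp
      have h6 : x = 1 / (2 * K * r ^ k) := by
        rw [hx, hW1e, hWe]
        have : r ^ (10 * k) = r ^ (9 * k) * r ^ k := by rw [← pow_add]; congr 1; ring
        rw [this]
        have h7 : r ^ (9 * k) ≠ 0 := by positivity
        field_simp
      have h7 : (M.factorial : ℝ) / x ^ M = F * r ^ (k * M) := by
        rw [h6, hF]
        have h8 : r ^ (k * M) = (r ^ k) ^ M := pow_mul r k M
        rw [h8, one_div, inv_pow, div_inv_eq_mul, mul_pow]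
        ring
      have h8 : F * r ^ (k * M) ≤ r ^ (N + 10 * k) := by
        have h9 : r ^ (k * M) ≤ r ^ (N + 10 * k + 1) := by
          apply pow_le_pow_of_le_one hr0.le hrle
          rw [hM]
          have h10 : 1 * N ≤ k * N := Nat.mul_le_mul_right N (by omega : 1 ≤ k)
          have h11 : k * (N + 11) = k * N + 11 * k := by ring
          omega
        calc F * r ^ (k * M) ≤ F * r ^ (N + 10 * k + 1) :=
              mul_le_mul_of_nonneg_left h9 (by linarith)
          _ = (F * r) * r ^ (N + 10 * k) := by ring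
          _ ≤ 1 * r ^ (N + 10 * k) := mul_le_mul_of_nonneg_right hFr (by positivity)
          _ = r ^ (N + 10 * k) := one_mul _
      have h9 : Real.exp (-x) ≤ r ^ (N + 10 * k) := by
        rw [h7] at h5
        exact h5.trans h8
      have hE := Real.exp_pos (-(3 * W1 + W1 / 2))
      have hEx := Real.exp_pos (-x)
      have s0 := wt1sg_pos ((3 * W1 + W1 / 2) / W1)
      have s1 := wt1sg_lt_one ((3 * W1 + W1 / 2) / W1)
      set σ := wt1sg ((3 * W1 + W1 / 2) / W1) with hσ
      have p1 : Real.exp (-(3 * W1 + W1 / 2)) * (wt1sg x + wt1sg x * (1 - wt1sg x) / W) * (1 + σ)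
          ≤ 1 * (2 / W * Real.exp (-x)) * 2 := by
        have hnn : 0 ≤ wt1sg x + wt1sg x * (1 - wt1sg x) / W := by
          have : 0 ≤ wt1sg x * (1 - wt1sg x) / W :=
            div_nonneg (mul_nonneg h0.le (by linarith)) hWp.le
          linarith
        apply mul_le_mul _ (by linarith) (by linarith) (by positivity)
        exact mul_le_mul h3 h4 hnn (by norm_num)
      have p2 : Real.exp (-(3 * W1 + W1 / 2)) * wt1sg x * (σ * (1 - σ)) / W1
          ≤ 1 / W * Real.exp (-x) := by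
        have q1 : Real.exp (-(3 * W1 + W1 / 2)) * wt1sg x ≤ 1 * Real.exp (-x) :=
          mul_le_mul h3 h2 h0.le (by norm_num)
        have q2 : σ * (1 - σ) ≤ 1 := by nlinarith
        have q3 : Real.exp (-(3 * W1 + W1 / 2)) * wt1sg x * (σ * (1 - σ)) ≤ 1 * Real.exp (-x) * 1 :=
          mul_le_mul q1 q2 (mul_nonneg s0.le (by linarith)) (by positivity)
        calc Real.exp (-(3 * W1 + W1 / 2)) * wt1sg x * (σ * (1 - σ)) / W1
            ≤ (1 * Real.exp (-x) * 1) / W1 := div_le_div_of_nonneg_right q3 hW1p.le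
          _ ≤ (1 * Real.exp (-x) * 1) / W :=
              div_le_div_of_nonneg_left (by positivity) hWp hWW1
          _ = 1 / W * Real.exp (-x) := by ring
      calc _ ≤ 1 * (2 / W * Real.exp (-x)) * 2 + 1 / W * Real.exp (-x) := add_le_add p1 p2
        _ = 5 / W * Real.exp (-x) := by ring
        _ ≤ 5 / W * r ^ (N + 10 * k) := mul_le_mul_of_nonneg_left h9 (by positivity)
        _ = (5 / K) * r ^ N := by
            rw [hWe, pow_add]
            have : r ^ (10 * k) ≠ 0 := by positivity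
            field_simp
        _ ≤ 1 * r ^ N := by
            apply mul_le_mul_of_nonneg_right _ (by positivity)
            rw [div_le_one (by linarith)]
            linarith
        _ = r ^ N := one_mul _
  · intro p hp
    have hp2 := abs_le.1 hp
    unfold wt2w
    have ht1 : |p / W1| ≤ 3 := by
      rw [abs_div, abs_of_pos hW1p, div_le_iff₀ hW1p]
      exact hp
    have h0 := wt1sg_pos (p / W1)
    have h00 := wt1sg_lt_one (p / W1)
    have h1 := wt2_mid ht1
    have h2 : 9 / 10 ≤ Real.exp (-p) := by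
      have := Real.add_one_le_exp (-p)
      linarith
    have h3 : 1 / 2 ≤ wt1sg ((p - 3 * W1) / W) :=
      wt1sg_half (div_nonpos_of_nonpos_of_nonneg (by linarith) hWp.le)
    have h4 : 9 / 10 * (1 / 2) ≤ wt1z (3 * W1) W p :=
      mul_le_mul h2 h3 (by norm_num) (Real.exp_pos _).le
    have h5 : 9 / 10 * (1 / 2) * (1 / 43) ≤
        wt1z (3 * W1) W p * (wt1sg (p / W1) * (1 - wt1sg (p / W1))) :=
      mul_le_mul h4 h1 (by norm_num) (by linarith)
    have h6 : 9 / 10 * (1 / 2) * (1 / 43) / W1 ≤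
        wt1z (3 * W1) W p * (wt1sg (p / W1) * (1 - wt1sg (p / W1))) / W1 :=
      div_le_div_of_nonneg_right h5 hW1p.le
    have h7 : 0 ≤ wt1w (3 * W1) W p * (1 + wt1sg (p / W1)) := by
      have := wt1_zw (pe := 3 * W1) hWp p
      exact mul_nonneg (by linarith) (by linarith)
    calc 1 / (100 * W1) = 1 / 100 / W1 := by rw [div_div]
      _ ≤ 9 / 10 * (1 / 2) * (1 / 43) / W1 :=
          div_le_div_of_nonneg_right (by norm_num) hW1p.le
      _ ≤ _ := by linarith

end

end P229
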