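import Vale.Agent.P229.T.TDefs
import Vale.Agent.P229.T.Wt1
import Vale.Agent.P229.T.Wt2

/-!
# P229 block T: the two exponential weights  (modules T_WT1, T_WT2)
`sg t = 1/(1+exp t)`, `sg' = -sg (1-sg)`.
-/

namespace P229

open Set Real
open scoped ContDiff

noncomputable section

def sg (t : ℝ) : ℝ := 1 / (1 + Real.exp t)

/-- `z = exp(-p) sg((p-pe)/W)`, `w = -z' = z (1 + (1-S)/W)`, `w' = -z l^2 + z S(1-S)/W^2` with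
`l = 1+(1-S)/W`, `S = sg((p-pe)/W)`; `|w'| <= w (l + 1/W) <= (3/W) w`.
`far`: `(1-S)/W <= exp(-(pe-p)/W)/W <= exp(-1/(10W))/W <= 5/1000`. `endw` : `w pt <= 2/W exp(2) exp(-W1/(2W))
<= r^N` since `W1/W = r^(-k)/K`. Lower bounds: for `p <= pe`, `w >= z >= exp(-1/100)/2 >= 1/3`; for
`|p-pe| <= W`: `w >= exp(-p) S(1-S)/W >= 1/(6W)` (`S(1-S) >= 0.19` for `|t| <= 1`). -/
theorem wt1 (C : ℝ) (hC : 1 ≤ C) (k b N : ℕ) (hk : 10 ≤ k) :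
    ∃ r0 : ℝ, 0 < r0 ∧ ∀ r : ℝ, 0 < r → r < r0 → ∀ pe : ℝ,
      |pe| ≤ 4 * (Par.mk r k b).W1 →
      ∃ z w w' : ℝ → ℝ, Wt ⟨r, k, b⟩ C N (pe + (Par.mk r k b).W1 / 2) z w w' ∧
        (∀ p : ℝ, -(7 / 5) ≤ p → p ≤ pe → 1 / 3 ≤ w p) ∧
        (∀ p : ℝ, |p - pe| ≤ WW ⟨r, k, b⟩ C → 1 / (6 * WW ⟨r, k, b⟩ C) ≤ w p) :=
  wt1_proof C hC k b N hk

/-- `z = exp(-p) sg((p-3W1)/W) (1 + sg(p/W1))`, with `l = -z'/z = 1 + (1-S)/W + T1/W1`,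
`T1 = σ(1-σ)/(1+σ)`, `σ = sg(p/W1)`, `|T1'| <= 3 T1`; `w = z l`,
`w' = -z l^2 + z (S(1-S)/W^2 + T1'/W1^2)` (sign of `T1'` as computed), so
`|w'| <= w (l + 1/W + 3/W1) <= (3/W) w`. Lower bound for `|p| <= 3 W1`:
`w >= z T1/W1 >= exp(-1/100)/2 * (23/1000)/W1 >= 1/(100 W1)`. -/
theorem wt2 (C : ℝ) (hC : 1 ≤ C) (k b N : ℕ) (hk : 10 ≤ k) :
    ∃ r0 : ℝ, 0 < r0 ∧ ∀ r : ℝ, 0 < r → r < r0 →
      ∃ z w w' : ℝ → ℝ,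
        Wt ⟨r, k, b⟩ C N (3 * (Par.mk r k b).W1 + (Par.mk r k b).W1 / 2) z w w' ∧
        (∀ p : ℝ, |p| ≤ 3 * (Par.mk r k b).W1 → 1 / (100 * (Par.mk r k b).W1) ≤ w p) :=
  wt2_proof C hC k b N hk

end

end P229
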