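import Vale.Agent.P229.T.T1B
import Vale.Agent.P229.T.Wts
import Vale.Agent.P229.T.Prof
import Vale.Agent.P229.T.Refl

/-!
# P229 block T: estimates left (and right) of the bump  (module T_TL)
`wt1` with `pe = -3/2 W1`, `pt = -W1`; `|h| <= r^N` for `|p| >= W1 >= 2 lam`; `w >= 1/3` on
`[-5/4,-2 W1]`, `ps <= -5/4`; `en >= (1/C) (v_y^2 + md v_p^2)` (`mu >= 1/C`, `C >= 1`).
-/

namespace P229

open Set Real MeasureTheory
open scoped ContDiff

noncomputable section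

theorem TL_W1_le (r : ℝ) (k b : ℕ) (hk : 10 ≤ k) (hr0 : 0 < r) (hr : r < 1 / 2) :
    (Par.mk r k b).W1 ≤ 1 / 2 := by
  have h1 : r ^ (9 * k) ≤ r ^ 1 :=
    pow_le_pow_of_le_one hr0.le (by linarith) (by omega)
  have h2 : (Par.mk r k b).W1 = r ^ (9 * k) := rfl
  rw [h2]
  rw [pow_one] at h1
  linarith

theorem TL_lam_le (r : ℝ) (k b : ℕ) (hr0 : 0 < r) (hr : r < 1 / 2) :
    2 * (Par.mk r k b).lam ≤ (Par.mk r k b).W1 := by
  have h1 : r ^ (10 * k + 2) ≤ r ^ (9 * k + 1) :=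
    pow_le_pow_of_le_one hr0.le (by linarith) (by omega)
  have h2 : (Par.mk r k b).W1 = r ^ (9 * k) := rfl
  have h3 : (Par.mk r k b).lam = r ^ (10 * k + 2) := rfl
  rw [h2, h3]
  have h4 : r ^ (9 * k + 1) = r ^ (9 * k) * r := pow_succ _ _
  have h5 : 0 < r ^ (9 * k) := pow_pos hr0 _
  nlinarith

theorem TL (C : ℝ) (hC : 1 ≤ C) (k b N : ℕ) (hk : 10 ≤ k) (hN : 100 * (k + 1) ≤ N) :
    ∃ C' r0 : ℝ, 0 < C' ∧ 0 < r0 ∧ ∀ r : ℝ, 0 < r → r < r0 →
      ∀ (mu : ℝ) (ast : ℝ → ℝ) (V : J2) (h : ℝ → ℝ → ℝ), 1 / C ≤ mu → mu ≤ C →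
        TData ⟨r, k, b⟩ mu C N ast V h →
        II (-(5 / 4)) (-(2 * (Par.mk r k b).W1)) (-YY) YY
            (fun p y => V.wy p y ^ 2 + md ⟨r, k, b⟩ y * V.wp p y ^ 2) ≤ C' * r ^ N := by
  obtain ⟨C1, r1, hC1, hr1, H1⟩ := T1B C hC k b N hk hN
  obtain ⟨r2, hr2, H2⟩ := wt1 C hC k b N hk
  have hCpos : 0 < C := by linarith
  refine ⟨3 * C * (1000 + C1), min r1 (min r2 (1 / 2)), by positivity, by positivity, ?_⟩
  intro r hr0 hr mu ast V h hmu1 hmu2 hT
  have hra : r < r1 := lt_of_lt_of_le hr (min_le_left _ _)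
  have hrb : r < r2 := lt_of_lt_of_le hr ((min_le_right _ _).trans (min_le_left _ _))
  have hrc : r < 1 / 2 := lt_of_lt_of_le hr ((min_le_right _ _).trans (min_le_right _ _))
  have hWle := TL_W1_le r k b hk hr0 hrc
  have hlam := TL_lam_le r k b hr0 hrc
  have hWpos : 0 < (Par.mk r k b).W1 := by
    have : (Par.mk r k b).W1 = r ^ (9 * k) := rfl
    rw [this]; exact pow_pos hr0 _
  generalize hWW : (Par.mk r k b).W1 = W at hWle hlam hWpos ⊢
  obtain ⟨z, w, w', hWt, hlow, -⟩ := H2 r hr0 hrb (-(3 / 2 * W)) (by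
    rw [hWW, abs_neg, abs_of_nonneg (by positivity)]; linarith)
  rw [hWW] at hWt
  have hpt : -(3 / 2 * W) + W / 2 = -W := by ring
  rw [hpt] at hWt
  obtain ⟨ps, hps, H⟩ := H1 r hr0 hra mu ast V h hmu1 hmu2 hT
  obtain ⟨hps1, hps2⟩ := hps
  have key := H (-W) (by linarith) (by linarith) z w w' hWt
  have hYY : YY = 41 / 20 := rfl
  have hYY0 : -YY ≤ YY := by rw [hYY]; norm_num
  have hrN : 0 < r ^ N := pow_pos hr0 _
  -- continuity
  have czc : Continuous z := continuous_iff_continuousAt.2 fun p => (hWt.hz p).continuousAt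
  have cwc : Continuous w := continuous_iff_continuousAt.2 fun p => (hWt.hw p).continuousAt
  have cwp : CR (-(7 / 5)) (7 / 5) (-YY) YY V.wp := hT.jet.cwp
  have cwy : CR (-(7 / 5)) (7 / 5) (-YY) YY V.wy := hT.jet.cwy
  have ch : CR (-(7 / 5)) (7 / 5) (-YY) YY h := hT.ch
  have cmd : CR (-(7 / 5)) (7 / 5) (-YY) YY (fun _ y => md ⟨r, k, b⟩ y) :=
    CR.ofY (md_cont _).continuousOn
  have cen : CR (-(7 / 5)) (7 / 5) (-YY) YY (fun p y => w p * en ⟨r, k, b⟩ mu V p y) := by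
    have h1 := (CR.ofP (a := -(7 / 5)) (b := 7 / 5) (c := -YY) (d := YY) cwc.continuousOn).mul
      ((cwy.pow 2).add (((CR.const (-(7 / 5)) (7 / 5) (-YY) YY mu).mul cmd).mul (cwp.pow 2)))
    exact h1
  have cf : CR (-(7 / 5)) (7 / 5) (-YY) YY
      (fun p y => V.wy p y ^ 2 + md ⟨r, k, b⟩ y * V.wp p y ^ 2) :=
    (cwy.pow 2).add (cmd.mul (cwp.pow 2))
  have czh : CR (-(7 / 5)) (7 / 5) (-YY) YY (fun p y => z p * (|V.wp p y| * |h p y|)) :=
    (CR.ofP czc.continuousOn).mul (cwp.abs.mul ch.abs)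
  have hmdn : ∀ y, 0 ≤ md ⟨r, k, b⟩ y := fun y => md_nonneg ⟨r, k, b⟩ hr0 y
  have hmupos : 0 < mu := lt_of_lt_of_le (by positivity) hmu1
  have hwpos : ∀ p, 0 ≤ w p := fun p => ((hWt.zpos p).trans_le (hWt.zw p)).le
  -- upper bound of the right hand side
  have hRHS : II ps (-W) (-YY) YY (fun p y => z p * (|V.wp p y| * |h p y|))
      ≤ 100 * r ^ N := by
    have h1 : II ps (-W) (-YY) YY (fun p y => z p * (|V.wp p y| * |h p y|))
        ≤ II ps (-W) (-YY) YY (fun _ _ => 10 * r ^ N) := by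
      apply II_mono (by linarith) hYY0
        (czh.mono (by linarith) (by linarith) le_rfl le_rfl) continuousOn_const
      intro p hp y hy
      have hp' : p ∈ Icc (-(7 / 5) : ℝ) (7 / 5) := ⟨by linarith [hp.1], by linarith [hp.2]⟩
      have e1 : z p ≤ 10 := hWt.zle p hp'.1
      have e2 : |V.wp p y| ≤ 1 := (hT.bw p hp' y hy).2.1
      have e3 : |h p y| ≤ r ^ N := by
        apply hT.hsmall p hp' y hy
        left
        have : W ≤ |p| := by
          rw [abs_of_nonpos (by linarith [hp.2])]; linarith [hp.2]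
        linarith
      calc z p * (|V.wp p y| * |h p y|) ≤ 10 * (1 * r ^ N) := by
            apply mul_le_mul e1 _ (by positivity) (by norm_num)
            exact mul_le_mul e2 e3 (abs_nonneg _) (by norm_num)
        _ = 10 * r ^ N := by ring
    rw [II_const] at h1
    have h2 : (-W - ps) * (YY - -YY) * (10 * r ^ N) ≤ 100 * r ^ N := by
      have h3 : (-W - ps) * (YY - -YY) ≤ 10 := by
        rw [hYY]; nlinarith
      nlinarith
    linarith
  -- lower bound of the left hand side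
  have hL1 : II (-(5 / 4)) (-(2 * W)) (-YY) YY
      (fun p y => V.wy p y ^ 2 + md ⟨r, k, b⟩ y * V.wp p y ^ 2)
      ≤ II (-(5 / 4)) (-(2 * W)) (-YY) YY
          (fun p y => 3 * C * (w p * en ⟨r, k, b⟩ mu V p y)) := by
    apply II_mono (by linarith) hYY0 (cf.mono (by linarith) (by linarith) le_rfl le_rfl)
    · have := ((CR.const (-(7 / 5)) (7 / 5) (-YY) YY (3 * C)).mul cen).mono
        (a' := -(5 / 4)) (b' := -(2 * W)) (c' := -YY) (d' := YY)
        (by norm_num) (by linarith) le_rfl le_rfl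
      exact this
    · intro p hp y hy
      have e1 : 1 / 3 ≤ w p := hlow p (by linarith [hp.1]) (by linarith [hp.2])
      have e2 : V.wy p y ^ 2 + md ⟨r, k, b⟩ y * V.wp p y ^ 2 ≤ C * en ⟨r, k, b⟩ mu V p y := by
        unfold en
        have e3 : 1 ≤ C * mu := by
          rw [div_le_iff₀ hCpos] at hmu1
          linarith
        have e4 : 0 ≤ md ⟨r, k, b⟩ y * V.wp p y ^ 2 := mul_nonneg (hmdn y) (sq_nonneg _)
        have e5 : 0 ≤ V.wy p y ^ 2 := sq_nonneg _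
        have e6 := mul_nonneg (sub_nonneg.2 e3) e4
        have e7 := mul_nonneg (sub_nonneg.2 hC) e5
        nlinarith
      have e8 : 0 ≤ C * en ⟨r, k, b⟩ mu V p y := by
        unfold en
        have := hmdn y
        positivity
      nlinarith
  have hL2 : II (-(5 / 4)) (-(2 * W)) (-YY) YY (fun p y => w p * en ⟨r, k, b⟩ mu V p y)
      ≤ II ps (-W) (-YY) YY (fun p y => w p * en ⟨r, k, b⟩ mu V p y) := by
    apply II_mono_rect (by linarith) (by linarith) (by linarith) le_rfl hYY0 le_rfl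
      (cen.mono (by linarith) (by linarith) le_rfl le_rfl)
    intro p _ y _
    unfold en
    have h1 := hwpos p
    have h2 := hmdn y
    positivity
  rw [II_smul] at hL1
  have hfin : II ps (-W) (-YY) YY (fun p y => w p * en ⟨r, k, b⟩ mu V p y)
      ≤ (1000 + C1) * r ^ N := by
    nlinarith
  calc _ ≤ 3 * C * II (-(5 / 4)) (-(2 * W)) (-YY) YY
        (fun p y => w p * en ⟨r, k, b⟩ mu V p y) := hL1
    _ ≤ 3 * C * ((1000 + C1) * r ^ N) := by
        apply mul_le_mul_of_nonneg_left (hL2.trans hfin) (by positivity)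
    _ = 3 * C * (1000 + C1) * r ^ N := by ring

/-- reflection of `TL`. -/
theorem TR (C : ℝ) (hC : 1 ≤ C) (k b N : ℕ) (hk : 10 ≤ k) (hN : 100 * (k + 1) ≤ N) :
    ∃ C' r0 : ℝ, 0 < C' ∧ 0 < r0 ∧ ∀ r : ℝ, 0 < r → r < r0 →
      ∀ (mu : ℝ) (ast : ℝ → ℝ) (V : J2) (h : ℝ → ℝ → ℝ), 1 / C ≤ mu → mu ≤ C →
        TData ⟨r, k, b⟩ mu C N ast V h →
        II (2 * (Par.mk r k b).W1) (5 / 4) (-YY) YY
            (fun p y => V.wy p y ^ 2 + md ⟨r, k, b⟩ y * V.wp p y ^ 2) ≤ C' * r ^ N := by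
  obtain ⟨C', r0, hC', hr0, H⟩ := TL C hC k b N hk hN
  refine ⟨C', r0, hC', hr0, fun r hr hr1 mu ast V h hmu hmu' T => ?_⟩
  have h1 := H r hr hr1 mu ast V.rp (fun p y => h (-p) y) hmu hmu' T.rp
  have h2 : (fun p y => V.rp.wy p y ^ 2 + md ⟨r, k, b⟩ y * V.rp.wp p y ^ 2) =
      fun p y => (fun q y => V.wy q y ^ 2 + md ⟨r, k, b⟩ y * V.wp q y ^ 2) (-p) y := by
    funext p y
    simp only [J2.rp]
    ring
  rw [h2, II_rp _ _ _ _ (fun q y => V.wy q y ^ 2 + md ⟨r, k, b⟩ y * V.wp q y ^ 2), neg_neg,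
    neg_neg] at h1
  exact h1

end

end P229
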