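import Vale.Agent.P229.T.T1B
import Vale.Agent.P229.T.Wts
import Vale.Agent.P229.T.Int2
import Vale.Agent.P229.Prof

/-!
# P229 block T: estimate near the bump (module T_SB)
-/

namespace P229

open Set Real MeasureTheory
open scoped ContDiff

noncomputable section

/-- integral of a function bounded by `g <= c` pointwise, constant bound -/
theorem sb_const {a b c d M : ℝ} {f : ℝ → ℝ → ℝ} (hab : a ≤ b) (hcd : c ≤ d) (hf : CR a b c d f)
    (h : ∀ p ∈ Icc a b, ∀ y ∈ Icc c d, f p y ≤ M) : I2 a b c d f ≤ M * ((b - a) * (d - c)) := by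
  refine (I2_mono hab hcd hf (CR.const a b c d M) h).trans (le_of_eq ?_)
  unfold I2
  simp only [intervalIntegral.integral_const, smul_eq_mul]
  ring

/-- splitting off a box -/
theorem sb_split {a b c d a' b' c' d' M : ℝ} {f : ℝ → ℝ → ℝ} (hf : CR a b c d f)
    (h1 : a ≤ a') (h2 : a' ≤ b') (h3 : b' ≤ b) (h4 : c ≤ c') (h5 : c' ≤ d') (h6 : d' ≤ d)
    (hM : 0 ≤ M)
    (h : ∀ p ∈ Icc a b, ∀ y ∈ Icc c d, (p ≤ a' ∨ b' ≤ p ∨ y ≤ c' ∨ d' ≤ y) → f p y ≤ M) :
    I2 a b c d f ≤ I2 a' b' c' d' f + M * ((b - a) * (d - c)) := by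
  have hcd : c ≤ d := h4.trans (h5.trans h6)
  have e1 := I2_split_p (m := a') h1 (h2.trans h3) hcd hf
  have e2 := I2_split_p (m := b') h2 h3 hcd (hf.mono h1 le_rfl le_rfl le_rfl)
  have hf' : CR a' b' c d f := hf.mono h1 h3 le_rfl le_rfl
  have e3 := I2_split_y (m := c') h2 h4 (h5.trans h6) hf'
  have e4 := I2_split_y (m := d') h2 h5 h6 (hf'.mono le_rfl le_rfl h4 le_rfl)
  have f1 : I2 a a' c d f ≤ M * ((a' - a) * (d - c)) :=
    sb_const h1 hcd (hf.mono le_rfl (h2.trans h3) le_rfl le_rfl)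
      (fun p hp y hy => h p ⟨hp.1, hp.2.trans (h2.trans h3)⟩ y hy (Or.inl hp.2))
  have f2 : I2 b' b c d f ≤ M * ((b - b') * (d - c)) :=
    sb_const h3 hcd (hf.mono (h1.trans h2) le_rfl le_rfl le_rfl)
      (fun p hp y hy => h p ⟨(h1.trans h2).trans hp.1, hp.2⟩ y hy (Or.inr (Or.inl hp.1)))
  have f3 : I2 a' b' c c' f ≤ M * ((b' - a') * (c' - c)) :=
    sb_const h2 h4 (hf'.mono le_rfl le_rfl le_rfl (h5.trans h6))
      (fun p hp y hy => h p ⟨h1.trans hp.1, hp.2.trans h3⟩ y ⟨hy.1, hy.2.trans (h5.trans h6)⟩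
        (Or.inr (Or.inr (Or.inl hy.2))))
  have f4 : I2 a' b' d' d f ≤ M * ((b' - a') * (d - d')) :=
    sb_const h2 h6 (hf'.mono le_rfl le_rfl (h4.trans h5) le_rfl)
      (fun p hp y hy => h p ⟨h1.trans hp.1, hp.2.trans h3⟩ y ⟨(h4.trans h5).trans hy.1, hy.2⟩
        (Or.inr (Or.inr (Or.inr hy.1))))
  have g1 : 0 ≤ M * ((b' - a') * (d' - c')) :=
    mul_nonneg hM (mul_nonneg (by linarith) (by linarith))
  rw [e1, e2, e3, e4]
  nlinarith

/-- the algebra of the bootstrap -/
theorem sb_alg {C K s W lam eta epsc mu J A C1 g : ℝ} (hC : 1 ≤ C) (hK : 1 ≤ K) (hs : 0 < s)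
    (hW : W = K * s) (hlam : 0 < lam) (heta : 0 < eta) (hepsc : 0 < epsc) (hmu : 1 / C ≤ mu)
    (hA : 0 ≤ A) (hC1 : 0 ≤ C1) (hJ : A ^ 2 ≤ 8 * lam ^ 2 * J)
    (hg : g ≤ s * eta ^ 2 * lam ^ 2 * epsc)
    (H : mu * epsc / (6 * W) * J ≤ 400 * C * (eta * epsc) * A + C1 * g) :
    eta * epsc * A ≤ (19200 * C ^ 2 * K + 96 * C1 * C * K + 1) *
      (s * eta ^ 2 * epsc * lam ^ 2) := by
  have hC0 : 0 < C := by linarith
  have hK0 : 0 < K := by linarith
  have hmu0 : 0 < mu := lt_of_lt_of_le (by positivity) hmu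
  have hmuC : 1 ≤ mu * C := by
    rw [div_le_iff₀ hC0] at hmu
    exact hmu
  have hW0 : 0 < W := by rw [hW]; positivity
  have h1 : mu * epsc / (6 * W) * (A ^ 2 / (8 * lam ^ 2)) ≤
      400 * C * (eta * epsc) * A + C1 * g := by
    refine le_trans (mul_le_mul_of_nonneg_left ?_ (by positivity)) H
    rw [div_le_iff₀ (by positivity)]
    linarith
  -- multiply by `48 W lam^2 C / epsc`
  have h2 : A ^ 2 ≤ 19200 * C ^ 2 * W * lam ^ 2 * eta * A + 48 * W * lam ^ 2 * C * C1 * (g / epsc) := by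
    have e1 := mul_le_mul_of_nonneg_left h1
      (show (0 : ℝ) ≤ 48 * W * lam ^ 2 * C / epsc by positivity)
    have e2 : 48 * W * lam ^ 2 * C / epsc * (mu * epsc / (6 * W) * (A ^ 2 / (8 * lam ^ 2))) =
        mu * C * A ^ 2 := by
      field_simp
      ring
    have e3 : 48 * W * lam ^ 2 * C / epsc * (400 * C * (eta * epsc) * A + C1 * g) =
        19200 * C ^ 2 * W * lam ^ 2 * eta * A + 48 * W * lam ^ 2 * C * C1 * (g / epsc) := by
      field_simp
      ring
    rw [e2, e3] at e1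
    have e4 : A ^ 2 ≤ mu * C * A ^ 2 := by
      have := mul_le_mul_of_nonneg_right hmuC (sq_nonneg A)
      linarith
    linarith
  have h3 : g / epsc ≤ s * eta ^ 2 * lam ^ 2 := by
    rw [div_le_iff₀ hepsc]
    exact hg
  obtain ⟨T, hT⟩ : ∃ T, T = s * eta * lam ^ 2 := ⟨_, rfl⟩
  have hT0 : 0 < T := by rw [hT]; positivity
  have h4 : A ^ 2 ≤ 19200 * C ^ 2 * K * T * A + 48 * K * C * C1 * T ^ 2 := by
    have e1 : 48 * W * lam ^ 2 * C * C1 * (g / epsc) ≤
        48 * W * lam ^ 2 * C * C1 * (s * eta ^ 2 * lam ^ 2) :=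
      mul_le_mul_of_nonneg_left h3 (by positivity)
    have e2 : 48 * W * lam ^ 2 * C * C1 * (s * eta ^ 2 * lam ^ 2) = 48 * K * C * C1 * T ^ 2 := by
      rw [hW, hT]
      ring
    have e3 : 19200 * C ^ 2 * W * lam ^ 2 * eta * A = 19200 * C ^ 2 * K * T * A := by
      rw [hW, hT]
      ring
    linarith
  obtain ⟨α, hα⟩ : ∃ α, α = 19200 * C ^ 2 * K := ⟨_, rfl⟩
  obtain ⟨β, hβ⟩ : ∃ β, β = 48 * K * C * C1 := ⟨_, rfl⟩
  have hα0 : 0 ≤ α := by rw [hα]; positivity
  have hβ0 : 0 ≤ β := by rw [hβ]; positivity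
  rw [← hα, ← hβ] at h4
  have h5 : A ≤ (α + 2 * β + 1) * T := by
    by_contra hcon
    push Not at hcon
    have e1 : (α + 2 * β + 1) * T * A ≤ A * A := mul_le_mul_of_nonneg_right hcon.le hA
    have e2 : T ≤ A := by
      have : T ≤ (α + 2 * β + 1) * T := by nlinarith
      linarith
    have e3 : β * T * T ≤ β * T * A := mul_le_mul_of_nonneg_left e2 (by positivity)
    have e4 : 0 < T * A := by nlinarith
    nlinarith [mul_nonneg hβ0 e4.le]
  have h6 := mul_le_mul_of_nonneg_left h5 (show (0 : ℝ) ≤ eta * epsc by positivity)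
  refine h6.trans (le_of_eq ?_)
  rw [hα, hβ, hT]
  ring

theorem SBx (C : ℝ) (hC : 1 ≤ C) (k b N : ℕ) (hk : 10 ≤ k) (hN : 2 * b + 100 * (k + 1) ≤ N) :
    ∃ C' r0 : ℝ, 0 < C' ∧ 0 < r0 ∧ ∀ r : ℝ, 0 < r → r < r0 →
      ∀ (mu : ℝ) (ast : ℝ → ℝ) (V : J2) (h : ℝ → ℝ → ℝ), 1 / C ≤ mu → mu ≤ C →
        TData ⟨r, k, b⟩ mu C N ast V h →
        (Par.mk r k b).eta * (Par.mk r k b).epsc *
          II (-(2 * (Par.mk r k b).lam)) (2 * (Par.mk r k b).lam)
            (-(Par.mk r k b).lam) (Par.mk r k b).lam (fun p y => |V.wp p y|)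
          ≤ C' * ((Par.mk r k b).s * (Par.mk r k b).eta ^ 2 * (Par.mk r k b).epsc
              * (Par.mk r k b).lam ^ 2) := by
  obtain ⟨rw', hrw, HW⟩ := wt1 C hC k b N hk
  obtain ⟨C1, r1, hC1, hr1, H1⟩ := T1B C hC k b N hk (by omega)
  have hC0 : 0 < C := by linarith
  have hKW : 10 ^ 5 ≤ KW C := by
    unfold KW
    have : 1 ≤ C ^ 2 := one_le_pow₀ hC
    nlinarith
  have hKW0 : 0 < KW C := by linarith
  refine ⟨19200 * C ^ 2 * KW C + 96 * (C1 + 2400) * C * KW C + 1, min (min rw' r1) (1 / 100),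
    by positivity, by positivity, ?_⟩
  intro r hr0 hr mu ast V h hmu1 hmu2 T
  have hra : r < rw' := lt_of_lt_of_le hr ((min_le_left _ _).trans (min_le_left _ _))
  have hrb : r < r1 := lt_of_lt_of_le hr ((min_le_left _ _).trans (min_le_right _ _))
  have hrc : r < 1 / 100 := lt_of_lt_of_le hr (min_le_right _ _)
  have hr1' : r ≤ 1 := by linarith
  obtain ⟨P, hP⟩ : ∃ P : Par, P = ⟨r, k, b⟩ := ⟨_, rfl⟩
  rw [← hP] at T ⊢
  have hPr : P.r = r := by rw [hP]
  have hs : P.s = r ^ (10 * k) := by rw [hP]; rfl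
  have hepsc : P.epsc = r ^ (20 * k + 2) := by rw [hP]; rfl
  have hlam : P.lam = r ^ (10 * k + 2) := by rw [hP]; rfl
  have heta : P.eta = r ^ b := by rw [hP]; rfl
  have hW1 : P.W1 = r ^ (9 * k) := by rw [hP]; rfl
  have hs0 : 0 < P.s := by rw [hs]; positivity
  have hepsc0 : 0 < P.epsc := by rw [hepsc]; positivity
  have hlam0 : 0 < P.lam := by rw [hlam]; positivity
  have heta0 : 0 < P.eta := by rw [heta]; positivity
  have hW10 : 0 < P.W1 := by rw [hW1]; positivity
  have hmu0 : 0 < mu := lt_of_lt_of_le (by positivity) hmu1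
  have hW1r : P.W1 ≤ r := by
    rw [hW1]
    exact (pow_le_pow_of_le_one hr0.le hr1' (show 1 ≤ 9 * k by omega)).trans (by rw [pow_one])
  have hlamW : P.lam ≤ P.W1 / 100 := by
    have e1 : P.lam = P.W1 * r ^ (k + 2) := by
      rw [hlam, hW1, ← pow_add]
      congr 1
      ring
    have e2 : r ^ (k + 2) ≤ r := by
      exact (pow_le_pow_of_le_one hr0.le hr1' (show 1 ≤ k + 2 by omega)).trans (by rw [pow_one])
    rw [e1]
    have e3 := mul_le_mul_of_nonneg_left (e2.trans hrc.le) hW10.le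
    linarith
  have hlams : P.lam ≤ P.s := by
    rw [hlam, hs]
    exact pow_le_pow_of_le_one hr0.le hr1' (by omega)
  obtain ⟨W, hW⟩ : ∃ W, W = WW P C := ⟨_, rfl⟩
  have hWe : W = KW C * P.s := by rw [hW]; rfl
  have hW0 : 0 < W := by rw [hWe]; positivity
  have hlamW' : 2 * P.lam ≤ W := by
    rw [hWe]
    have e1 := mul_le_mul_of_nonneg_right hKW hs0.le
    linarith
  obtain ⟨z, w, w', hwt, -, hlow⟩ := HW r hr0 hra 0 (by
    rw [abs_zero, ← hP]
    positivity)
  obtain ⟨ps, hps, Hps⟩ := H1 r hr0 hrb mu ast V h hmu1 hmu2 (by rw [← hP]; exact T)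
  rw [← hP] at hwt Hps hlow
  rw [← hW] at hlow
  obtain ⟨pt, hpt⟩ : ∃ pt, pt = 0 + P.W1 / 2 := ⟨_, rfl⟩
  rw [← hpt] at hwt
  have hpt0 : pt ≤ 1 / 100 := by rw [hpt]; linarith
  have hpt2 : 2 * P.lam ≤ pt := by rw [hpt]; linarith
  have hpspt : ps ≤ pt := by
    have := hps.2
    linarith
  have key := Hps pt hpspt hpt0 z w w' hwt
  -- ranges
  have hsub1 : ∀ {p : ℝ}, p ∈ Icc ps pt → p ∈ Icc (-(7 / 5) : ℝ) (7 / 5) := by
    intro p hp
    have h1 := hps.1
    exact ⟨by linarith [hp.1], by linarith [hp.2]⟩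
  have hYY : YY = 41 / 20 := rfl
  have hYneg : -YY ≤ YY := by rw [hYY]; norm_num
  have hlamY : P.lam ≤ YY := by rw [hYY]; linarith
  have hps2 : ps ≤ -(2 * P.lam) := by
    have := hps.2
    linarith
  have hrect : Icc ps pt ×ˢ Icc (-YY) YY ⊆ strip := by
    rintro ⟨p, y⟩ ⟨h1, h2⟩
    exact ⟨hsub1 h1, h2⟩
  -- continuity
  have cwp : CR ps pt (-YY) YY V.wp := T.jet.cwp.mono hrect
  have cwy : CR ps pt (-YY) YY V.wy := T.jet.cwy.mono hrect
  have ch : CR ps pt (-YY) YY h := T.ch.mono hrect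
  have cz : CR ps pt (-YY) YY (fun p _ => z p) :=
    CR.ofP (continuous_iff_continuousAt.2 fun p => (hwt.hz p).continuousAt).continuousOn
  have cw : CR ps pt (-YY) YY (fun p _ => w p) :=
    CR.ofP (continuous_iff_continuousAt.2 fun p => (hwt.hw p).continuousAt).continuousOn
  have cmd : CR ps pt (-YY) YY (fun _ y => md P y) := by
    refine CR.ofY (Continuous.continuousOn ?_)
    unfold md
    exact (continuous_const.mul chi_contDiff.continuous).add
      (continuous_const.mul kk_contDiff.continuous)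
  have cen : CR ps pt (-YY) YY (fun p y => w p * en P mu V p y) := by
    unfold en
    exact cw.mul ((cwy.pow 2).add (((CR.const _ _ _ _ mu).mul cmd).mul (cwp.pow 2)))
  have crhs : CR ps pt (-YY) YY (fun p y => z p * (|V.wp p y| * |h p y|)) :=
    cz.mul (cwp.abs.mul ch.abs)
  have hmd0 : ∀ y, 0 ≤ md P y := by
    intro y
    unfold md
    have h1 : 0 ≤ P.eps := by
      show 0 ≤ P.r ^ (20 * P.k)
      rw [hPr]
      positivity
    exact add_nonneg (mul_nonneg h1 (chi_nonneg y)) (mul_nonneg hepsc0.le (kk_nonneg y))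
  have hmdbox : ∀ y, y ∈ Icc (-P.lam) P.lam → md P y = P.epsc := by
    intro y hy
    have h1 : |y| ≤ 1 / 2 := (abs_le.2 hy).trans (by linarith)
    unfold md
    rw [chi_eq_zero (h1.trans (by norm_num)), kk_eq_one h1]
    ring
  -- the box
  have hrectb : ∀ {f : ℝ → ℝ → ℝ}, CR ps pt (-YY) YY f →
      CR (-(2 * P.lam)) (2 * P.lam) (-P.lam) P.lam f := fun hf =>
    hf.mono hps2 hpt2 (by linarith) hlamY
  obtain ⟨A, hA⟩ : ∃ A, A = I2 (-(2 * P.lam)) (2 * P.lam) (-P.lam) P.lam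
    (fun p y => |V.wp p y|) := ⟨_, rfl⟩
  obtain ⟨J, hJ⟩ : ∃ J, J = I2 (-(2 * P.lam)) (2 * P.lam) (-P.lam) P.lam
    (fun p y => V.wp p y ^ 2) := ⟨_, rfl⟩
  have hA0 : 0 ≤ A := by
    rw [hA]
    exact I2_nonneg (by linarith) (by linarith) (fun p _ y _ => abs_nonneg _)
  have hCS : A ^ 2 ≤ 8 * P.lam ^ 2 * J := by
    have e1 := I2_cs (a := -(2 * P.lam)) (b := 2 * P.lam) (c := -P.lam) (d := P.lam)
      (by linarith) (by linarith) (hrectb cwp).abs (CR.const _ _ _ _ (1 : ℝ))
    have e2 : I2 (-(2 * P.lam)) (2 * P.lam) (-P.lam) P.lam (fun _ _ => (1 : ℝ) ^ 2) =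
        8 * P.lam ^ 2 := by
      unfold I2
      simp only [intervalIntegral.integral_const, smul_eq_mul]
      ring
    rw [e2] at e1
    simp only [mul_one, sq_abs] at e1
    rw [← hA, ← hJ] at e1
    linarith
  -- lower bound of the left side
  have hL : mu * P.epsc / (6 * W) * J ≤ II ps pt (-YY) YY (fun p y => w p * en P mu V p y) := by
    have e1 : I2 (-(2 * P.lam)) (2 * P.lam) (-P.lam) P.lam (fun p y => w p * en P mu V p y) ≤
        I2 ps pt (-YY) YY (fun p y => w p * en P mu V p y) := by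
      refine I2_mono_rect cen hps2 (by linarith) hpt2 (by linarith) (by linarith) hlamY ?_
      intro p hp y hy
      have h1 : 0 ≤ w p := (hwt.zpos p).le.trans (hwt.zw p)
      have h2 : 0 ≤ en P mu V p y := by
        unfold en
        have := hmd0 y
        positivity
      positivity
    refine le_trans ?_ e1
    rw [hJ, ← I2_const_mul]
    refine I2_mono (by linarith) (by linarith) ?_ (hrectb cen) ?_
    · exact (CR.const _ _ _ _ _).mul ((hrectb cwp).pow 2)
    · intro p hp y hy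
      have h1 : 1 / (6 * W) ≤ w p := hlow p (by
        rw [sub_zero]
        exact (abs_le.2 hp).trans hlamW')
      have h2 : mu * P.epsc * V.wp p y ^ 2 ≤ en P mu V p y := by
        unfold en
        rw [hmdbox y hy]
        linarith [sq_nonneg (V.wy p y)]
      have h3 : 0 ≤ mu * P.epsc * V.wp p y ^ 2 := by positivity
      have h4 : 0 ≤ w p := (hwt.zpos p).le.trans (hwt.zw p)
      calc mu * P.epsc / (6 * W) * V.wp p y ^ 2 = 1 / (6 * W) * (mu * P.epsc * V.wp p y ^ 2) := by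
            ring
        _ ≤ w p * en P mu V p y := mul_le_mul h1 h2 h3 h4
  -- upper bound of the right side
  have hrN : 0 ≤ r ^ N := by positivity
  have hR : II ps pt (-YY) YY (fun p y => z p * (|V.wp p y| * |h p y|)) ≤
      10 * C * (P.eta * P.epsc) * A + 60 * r ^ N := by
    have e1 := sb_split (M := 10 * r ^ N) crhs hps2 (by linarith : -(2 * P.lam) ≤ 2 * P.lam) hpt2
      (by linarith : -YY ≤ -P.lam) (by linarith : -P.lam ≤ P.lam) hlamY (by positivity) (by
        intro p hp y hy hor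
        have hp' := hsub1 hp
        have h1 : |h p y| ≤ P.r ^ N := by
          refine T.hsmall p hp' y hy ?_
          rcases hor with h2 | h2 | h2 | h2
          · left
            rw [le_abs]
            right
            linarith
          · left
            rw [le_abs]
            left
            exact h2
          · right
            rw [le_abs]
            right
            linarith
          · right
            rw [le_abs]
            left
            exact h2
        rw [hPr] at h1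
        have h2 := hwt.zle p hp'.1
        have h3 := (T.bw p hp' y hy).2.1
        have h4 : |V.wp p y| * |h p y| ≤ 1 * r ^ N := mul_le_mul h3 h1 (abs_nonneg _) zero_le_one
        have h5 := mul_le_mul h2 h4 (by positivity) (by norm_num : (0 : ℝ) ≤ 10)
        linarith)
    have e2 : I2 (-(2 * P.lam)) (2 * P.lam) (-P.lam) P.lam
        (fun p y => z p * (|V.wp p y| * |h p y|)) ≤
        10 * C * (P.eta * P.epsc) * A + 10 * r ^ N * (8 * P.lam ^ 2) := by
      have f1 : I2 (-(2 * P.lam)) (2 * P.lam) (-P.lam) P.lam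
          (fun p y => z p * (|V.wp p y| * |h p y|)) ≤
          I2 (-(2 * P.lam)) (2 * P.lam) (-P.lam) P.lam
          (fun p y => 10 * C * (P.eta * P.epsc) * |V.wp p y| + 10 * r ^ N) := by
        refine I2_mono (by linarith) (by linarith) (hrectb crhs)
          (((CR.const _ _ _ _ _).mul (hrectb cwp).abs).add (CR.const _ _ _ _ _)) ?_
        intro p hp y hy
        have hp' : p ∈ Icc (-(7 / 5) : ℝ) (7 / 5) :=
          ⟨by linarith [hp.1], by linarith [hp.2]⟩
        have hy' : y ∈ Icc (-YY) YY := ⟨by linarith [hy.1], by linarith [hy.2]⟩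
        have h1 := T.hbump p hp' y hy'
        rw [hPr] at h1
        have h2 := hwt.zle p hp'.1
        have h3 := (T.bw p hp' y hy').2.1
        have h4 : |V.wp p y| * |h p y| ≤ |V.wp p y| * (C * (P.eta * P.epsc) + r ^ N) :=
          mul_le_mul_of_nonneg_left h1 (abs_nonneg _)
        have h5 := mul_le_mul h2 h4 (by positivity) (by norm_num : (0 : ℝ) ≤ 10)
        have h6 := mul_le_mul_of_nonneg_right h3 hrN
        linarith
      refine f1.trans (le_of_eq ?_)
      rw [I2_add (by linarith) (by linarith) ((CR.const _ _ _ _ _).mul (hrectb cwp).abs)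
        (CR.const _ _ _ _ _), I2_const_mul, ← hA]
      congr 1
      unfold I2
      simp only [intervalIntegral.integral_const, smul_eq_mul]
      ring
    have e3 : (pt - ps) * (YY - -YY) ≤ 58 / 10 := by
      have h1 := hps.1
      have h2 : (pt - ps) * (YY - -YY) = (pt - ps) * (41 / 10) := by
        rw [hYY]
        ring
      rw [h2]
      linarith
    have e4 : 10 * r ^ N * ((pt - ps) * (YY - -YY)) ≤ 10 * r ^ N * (58 / 10) :=
      mul_le_mul_of_nonneg_left e3 (by positivity)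
    have e5 : 8 * P.lam ^ 2 ≤ 1 / 10 := by
      have h1 : P.lam ≤ 1 / 100 := by linarith
      have h2 := mul_le_mul h1 h1 hlam0.le (by norm_num : (0 : ℝ) ≤ 1 / 100)
      rw [pow_two]
      linarith
    have e6 : 10 * r ^ N * (8 * P.lam ^ 2) ≤ 10 * r ^ N * (1 / 10) :=
      mul_le_mul_of_nonneg_left e5 (by positivity)
    show I2 ps pt (-YY) YY (fun p y => z p * (|V.wp p y| * |h p y|)) ≤ _
    linarith
  have hH : mu * P.epsc / (6 * W) * J ≤ 400 * C * (P.eta * P.epsc) * A + (C1 + 2400) * r ^ N := by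
    have h1 : 0 ≤ C * (P.eta * P.epsc) * A := by positivity
    linarith
  have hg : r ^ N ≤ P.s * P.eta ^ 2 * P.lam ^ 2 * P.epsc := by
    rw [hs, heta, hlam, hepsc, ← pow_mul, ← pow_mul, ← pow_add, ← pow_add, ← pow_add]
    exact pow_le_pow_of_le_one hr0.le hr1' (by omega)
  have hfin := sb_alg hC (show (1 : ℝ) ≤ KW C by linarith) hs0 hWe hlam0 heta0 hepsc0 hmu1 hA0
    (by linarith : (0 : ℝ) ≤ C1 + 2400) hCS hg hH
  show P.eta * P.epsc * I2 (-(2 * P.lam)) (2 * P.lam) (-P.lam) P.lam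
    (fun p y => |V.wp p y|) ≤ _
  rw [← hA]
  exact hfin

end

end P229
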