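import Vale.Agent.P229.T.T1B
import Vale.Agent.P229.T.Wts
import Vale.Agent.P229.T.SBx

/-!
# P229 block T: estimate near the bump  (modules T_SB, T_TM)
-/

namespace P229

open Set Real MeasureTheory
open scoped ContDiff

noncomputable section

/-- bound of `∬_box |v_p|`, box `[-2lam,2lam] x [-lam,lam]`.
`wt1` with `pe = 0`: `w >= 1/(6W)` on the box (`2 lam <= W`), `md = epsc` there (`kk = 1` on
`|y| <= 1/2`). With `Eb = ∬_box mu epsc v_p^2`: `Eb/(6W) <= 50 C eta epsc ∬_box |v_p| + C' r^N`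
(`z <= 10`, `|h| <= C eta epsc + r^N` on the box, `|h| <= r^N` outside).  Young:
`50 C eta epsc |v_p| <= mu epsc v_p^2/(12 W) + 7500 C^2 W eta^2 epsc/mu`. So
`Eb <= C'' (W^2 eta^2 epsc lam^2 + W r^N)` and again by Young `eta epsc ∬_box |v_p| <= ...`.
`r^N <= W eta^2 epsc lam^2` since `N >= 2b + 100(k+1)`. -/
theorem SB (C : ℝ) (hC : 1 ≤ C) (k b N : ℕ) (hk : 10 ≤ k) (hN : 2 * b + 100 * (k + 1) ≤ N) :
    ∃ C' r0 : ℝ, 0 < C' ∧ 0 < r0 ∧ ∀ r : ℝ, 0 < r → r < r0 →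
      ∀ (mu : ℝ) (ast : ℝ → ℝ) (V : J2) (h : ℝ → ℝ → ℝ), 1 / C ≤ mu → mu ≤ C →
        TData ⟨r, k, b⟩ mu C N ast V h →
        (Par.mk r k b).eta * (Par.mk r k b).epsc *
          II (-(2 * (Par.mk r k b).lam)) (2 * (Par.mk r k b).lam)
            (-(Par.mk r k b).lam) (Par.mk r k b).lam (fun p y => |V.wp p y|)
          ≤ C' * ((Par.mk r k b).s * (Par.mk r k b).eta ^ 2 * (Par.mk r k b).epsc
              * (Par.mk r k b).lam ^ 2) := by
  exact SBx C hC k b N hk hN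

private theorem TM_rhs {C : ℝ} (hC : 1 ≤ C) {k b N : ℕ} {r mu : ℝ} {ast : ℝ → ℝ} {V : J2}
    {h : ℝ → ℝ → ℝ} (hr : 0 < r) (T : TData ⟨r, k, b⟩ mu C N ast V h) {ps pt : ℝ}
    (h1 : -(27 / 20) ≤ ps) (h2 : ps ≤ -(2 * (Par.mk r k b).lam))
    (h3 : 2 * (Par.mk r k b).lam ≤ pt) (h4 : pt ≤ 1 / 100) (hlam0 : 0 < (Par.mk r k b).lam)
    {z : ℝ → ℝ} (hzc : Continuous z) (hz0 : ∀ p, 0 < z p)
    (hz10 : ∀ p, -(7 / 5) ≤ p → z p ≤ 10) :
    II ps pt (-YY) YY (fun p y => z p * (|V.wp p y| * |h p y|))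
      ≤ 10 * C * ((Par.mk r k b).eta * (Par.mk r k b).epsc *
          II (-(2 * (Par.mk r k b).lam)) (2 * (Par.mk r k b).lam)
            (-(Par.mk r k b).lam) (Par.mk r k b).lam (fun p y => |V.wp p y|))
        + 60 * r ^ N := by
  have hYY : YY = 41 / 20 := rfl
  obtain ⟨L, hL⟩ : ∃ L, L = (Par.mk r k b).lam := ⟨_, rfl⟩
  obtain ⟨e, he⟩ : ∃ e, e = (Par.mk r k b).eta * (Par.mk r k b).epsc := ⟨_, rfl⟩
  have he0 : 0 ≤ e := by
    rw [he]; simp only [Par.eta, Par.epsc]; positivity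
  have hsm := T.hsmall
  have hbm := T.hbump
  rw [← he]
  rw [← hL] at h2 h3 hlam0 hsm ⊢
  rw [← he] at hbm
  simp only at hsm hbm
  have hL1 : L ≤ YY := by rw [hYY]; linarith
  have hrN : 0 < r ^ N := pow_pos hr N
  have hpsl : -(7 / 5) ≤ ps := by linarith
  have hptl : pt ≤ 7 / 5 := by linarith
  have hcw : CR ps pt (-YY) YY V.wp := (T.jet_mono hpsl hptl le_rfl le_rfl).cwp
  have hch : CR ps pt (-YY) YY h := CR_of_strip T.ch hpsl hptl le_rfl le_rfl
  have hcz : CR ps pt (-YY) YY (fun p _ => z p) := CR.ofP hzc.continuousOn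
  have hF : CR ps pt (-YY) YY (fun p y => z p * (|V.wp p y| * |h p y|)) :=
    hcz.mul (hcw.abs.mul hch.abs)
  -- pointwise bounds
  have hout : ∀ p ∈ Icc ps pt, ∀ y ∈ Icc (-YY) YY, (2 * L ≤ |p| ∨ L ≤ |y|) →
      z p * (|V.wp p y| * |h p y|) ≤ 10 * r ^ N := by
    intro p hp y hy ho
    have hp' : p ∈ Icc (-(7 / 5) : ℝ) (7 / 5) := ⟨by linarith [hp.1], by linarith [hp.2]⟩
    have ha := hsm p hp' y hy ho
    have hb := (T.bw p hp' y hy).2.1
    have hc := hz10 p hp'.1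
    calc z p * (|V.wp p y| * |h p y|) ≤ 10 * (1 * r ^ N) := by
          apply mul_le_mul hc _ (by positivity) (by norm_num)
          exact mul_le_mul hb ha (abs_nonneg _) (by norm_num)
      _ = 10 * r ^ N := by ring
  have hin : ∀ p ∈ Icc ps pt, ∀ y ∈ Icc (-YY) YY,
      z p * (|V.wp p y| * |h p y|) ≤ 10 * C * e * |V.wp p y| + 10 * r ^ N := by
    intro p hp y hy
    have hp' : p ∈ Icc (-(7 / 5) : ℝ) (7 / 5) := ⟨by linarith [hp.1], by linarith [hp.2]⟩
    have ha := hbm p hp' y hy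
    have hb := (T.bw p hp' y hy).2.1
    have hc := hz10 p hp'.1
    calc z p * (|V.wp p y| * |h p y|) ≤ 10 * (|V.wp p y| * (C * e + r ^ N)) := by
          apply mul_le_mul hc _ (by positivity) (by norm_num)
          exact mul_le_mul_of_nonneg_left ha (abs_nonneg _)
      _ = 10 * C * e * |V.wp p y| + 10 * (|V.wp p y| * r ^ N) := by ring
      _ ≤ 10 * C * e * |V.wp p y| + 10 * (1 * r ^ N) := by
          have := mul_le_mul_of_nonneg_right hb hrN.le
          linarith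
      _ = _ := by ring
  -- splitting
  have hab : ps ≤ pt := by linarith
  have hYl : -YY ≤ YY := by rw [hYY]; norm_num
  have s1 := II_split_p (c := -YY) (d := YY) hYl (e := -(2 * L)) h2 (by linarith : -(2 * L) ≤ pt) hF
  have hF2 : CR (-(2 * L)) pt (-YY) YY (fun p y => z p * (|V.wp p y| * |h p y|)) :=
    hF.mono h2 le_rfl le_rfl le_rfl
  have s2 := II_split_p (c := -YY) (d := YY) hYl (e := 2 * L) (by linarith : -(2 * L) ≤ 2 * L) h3 hF2
  have hF3 : CR (-(2 * L)) (2 * L) (-YY) YY (fun p y => z p * (|V.wp p y| * |h p y|)) :=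
    hF.mono h2 h3 le_rfl le_rfl
  have hLL : -(2 * L) ≤ 2 * L := by linarith
  have s3 := II_split_y (a := -(2 * L)) (b := 2 * L) hLL (e := -L)
    (by linarith : -YY ≤ -L) (by linarith : -L ≤ YY) hF3
  have hF4 : CR (-(2 * L)) (2 * L) (-L) YY (fun p y => z p * (|V.wp p y| * |h p y|)) :=
    hF.mono h2 h3 (by linarith) le_rfl
  have s4 := II_split_y (a := -(2 * L)) (b := 2 * L) hLL (e := L)
    (by linarith : -L ≤ L) hL1 hF4
  -- bounds of the pieces
  have p1 : II ps (-(2 * L)) (-YY) YY (fun p y => z p * (|V.wp p y| * |h p y|))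
      ≤ (-(2 * L) - ps) * (YY - -YY) * (10 * r ^ N) := by
    rw [← II_const]
    refine II_mono h2 hYl (hF.mono le_rfl (by linarith) le_rfl le_rfl)
      (CR.const _ _ _ _ _) (fun p hp y hy => ?_)
    refine hout p ⟨hp.1, by linarith [hp.2]⟩ y hy (Or.inl ?_)
    rw [abs_of_nonpos (by linarith [hp.2])]; linarith [hp.2]
  have p2 : II (2 * L) pt (-YY) YY (fun p y => z p * (|V.wp p y| * |h p y|))
      ≤ (pt - 2 * L) * (YY - -YY) * (10 * r ^ N) := by
    rw [← II_const]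
    refine II_mono h3 hYl (hF.mono (by linarith) le_rfl le_rfl le_rfl)
      (CR.const _ _ _ _ _) (fun p hp y hy => ?_)
    refine hout p ⟨by linarith [hp.1], hp.2⟩ y hy (Or.inl ?_)
    exact le_trans hp.1 (le_abs_self p)
  have p3 : II (-(2 * L)) (2 * L) (-YY) (-L) (fun p y => z p * (|V.wp p y| * |h p y|))
      ≤ (2 * L - -(2 * L)) * (-L - -YY) * (10 * r ^ N) := by
    rw [← II_const]
    refine II_mono hLL (by linarith) (hF.mono h2 h3 le_rfl (by linarith))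
      (CR.const _ _ _ _ _) (fun p hp y hy => ?_)
    refine hout p ⟨by linarith [hp.1], by linarith [hp.2]⟩ y ⟨hy.1, by linarith [hy.2]⟩ (Or.inr ?_)
    rw [abs_of_nonpos (by linarith [hy.2])]; linarith [hy.2]
  have p4 : II (-(2 * L)) (2 * L) L YY (fun p y => z p * (|V.wp p y| * |h p y|))
      ≤ (2 * L - -(2 * L)) * (YY - L) * (10 * r ^ N) := by
    rw [← II_const]
    refine II_mono hLL hL1 (hF.mono h2 h3 (by linarith) le_rfl)
      (CR.const _ _ _ _ _) (fun p hp y hy => ?_)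
    refine hout p ⟨by linarith [hp.1], by linarith [hp.2]⟩ y ⟨by linarith [hy.1], hy.2⟩ (Or.inr ?_)
    exact le_trans hy.1 (le_abs_self y)
  have hcw5 : CR (-(2 * L)) (2 * L) (-L) L V.wp := hcw.mono h2 h3 (by linarith) hL1
  have hc5 : CR (-(2 * L)) (2 * L) (-L) L (fun p y => 10 * C * e * |V.wp p y|) :=
    (CR.const _ _ _ _ (10 * C * e)).mul hcw5.abs
  have p5 : II (-(2 * L)) (2 * L) (-L) L (fun p y => z p * (|V.wp p y| * |h p y|))
      ≤ 10 * C * e * II (-(2 * L)) (2 * L) (-L) L (fun p y => |V.wp p y|)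
        + (2 * L - -(2 * L)) * (L - -L) * (10 * r ^ N) := by
    rw [← II_const, ← II_smul, ← II_add hLL (by linarith : -L ≤ L) hc5 (CR.const _ _ _ _ _)]
    refine II_mono hLL (by linarith) (hF.mono h2 h3 (by linarith) hL1)
      (hc5.add (CR.const _ _ _ _ _)) (fun p hp y hy => ?_)
    exact hin p ⟨by linarith [hp.1], by linarith [hp.2]⟩ y ⟨by linarith [hy.1], by linarith [hy.2]⟩
  have htot : (-(2 * L) - ps) * (YY - -YY) * (10 * r ^ N) + (pt - 2 * L) * (YY - -YY) * (10 * r ^ N)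
      + (2 * L - -(2 * L)) * (-L - -YY) * (10 * r ^ N) + (2 * L - -(2 * L)) * (YY - L) * (10 * r ^ N)
      + (2 * L - -(2 * L)) * (L - -L) * (10 * r ^ N) = (pt - ps) * (41 * r ^ N) := by
    rw [hYY]; ring
  have hfin : (pt - ps) * (41 * r ^ N) ≤ 60 * r ^ N := by
    have : (pt - ps) * (41 * r ^ N) ≤ (34 / 25) * (41 * r ^ N) :=
      mul_le_mul_of_nonneg_right (by linarith) (by positivity)
    linarith
  have hgoal : 10 * C * (e * II (-(2 * L)) (2 * L) (-L) L (fun p y => |V.wp p y|))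
      = 10 * C * e * II (-(2 * L)) (2 * L) (-L) L (fun p y => |V.wp p y|) := by ring
  rw [hgoal]
  linarith

/-- `wt2`: `w >= 1/(100 W1)` on `|p| <= 3 W1`, right side by `SB`. -/
theorem TM (C : ℝ) (hC : 1 ≤ C) (k b N : ℕ) (hk : 10 ≤ k) (hN : 2 * b + 100 * (k + 1) ≤ N) :
    ∃ C' r0 : ℝ, 0 < C' ∧ 0 < r0 ∧ ∀ r : ℝ, 0 < r → r < r0 →
      ∀ (mu : ℝ) (ast : ℝ → ℝ) (V : J2) (h : ℝ → ℝ → ℝ), 1 / C ≤ mu → mu ≤ C →
        TData ⟨r, k, b⟩ mu C N ast V h →
        II (-(3 * (Par.mk r k b).W1)) (3 * (Par.mk r k b).W1) (-YY) YY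
            (fun p y => V.wy p y ^ 2 + md ⟨r, k, b⟩ y * V.wp p y ^ 2)
          ≤ C' * ((Par.mk r k b).eta ^ 2 * (Par.mk r k b).epsc * (Par.mk r k b).lam ^ 2
              * (Par.mk r k b).s * (Par.mk r k b).W1) := by
  obtain ⟨C1, r1, hC1, hr1, H1⟩ := T1B C hC k b N hk (by omega)
  obtain ⟨C2, r2, hC2, hr2, H2⟩ := SB C hC k b N hk hN
  obtain ⟨r3, hr3, H3⟩ := wt2 C hC k b N hk
  have hC0 : 0 < C := by linarith
  refine ⟨100 * C * (50 * C * C2 + 300 + C1), min (min r1 r2) (min r3 (1 / 500)), by positivity,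
    by positivity, ?_⟩
  intro r hr hrr mu ast V h hmu1 hmu2 T
  have hra : r < r1 := lt_of_lt_of_le hrr ((min_le_left _ _).trans (min_le_left _ _))
  have hrb : r < r2 := lt_of_lt_of_le hrr ((min_le_left _ _).trans (min_le_right _ _))
  have hrc : r < r3 := lt_of_lt_of_le hrr ((min_le_right _ _).trans (min_le_left _ _))
  have hrd : r < 1 / 500 := lt_of_lt_of_le hrr ((min_le_right _ _).trans (min_le_right _ _))
  have hr1' : r ≤ 1 := by linarith
  obtain ⟨ps, hps, H1'⟩ := H1 r hr hra mu ast V h hmu1 hmu2 T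
  have H2' := H2 r hr hrb mu ast V h hmu1 hmu2 T
  obtain ⟨z, w, w', hW, hwl⟩ := H3 r hr hrc
  -- sizes
  have hW1p : 0 < (Par.mk r k b).W1 := by simp only [Par.W1]; positivity
  have hW1s : (Par.mk r k b).W1 ≤ 1 / 500 := by
    simp only [Par.W1]
    calc r ^ (9 * k) ≤ r ^ 1 := pow_le_pow_of_le_one hr.le hr1' (by omega)
      _ = r := pow_one r
      _ ≤ 1 / 500 := hrd.le
  have hlam0 : 0 < (Par.mk r k b).lam := by simp only [Par.lam]; positivity
  have hlamW : (Par.mk r k b).lam ≤ (Par.mk r k b).W1 := by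
    simp only [Par.lam, Par.W1]
    exact pow_le_pow_of_le_one hr.le hr1' (by omega)
  have hmu0 : 0 < mu := lt_of_lt_of_le (by positivity) hmu1
  have hCmu : 1 ≤ C * mu := by
    rw [div_le_iff₀ hC0] at hmu1; linarith
  obtain ⟨pt, hpt⟩ : ∃ pt, pt = 3 * (Par.mk r k b).W1 + (Par.mk r k b).W1 / 2 := ⟨_, rfl⟩
  rw [← hpt] at hW
  have hpt1 : pt ≤ 1 / 100 := by rw [hpt]; linarith
  have hpspt : ps ≤ pt := by rw [hpt]; linarith [hps.2]
  have K1 := H1' pt hpspt hpt1 z w w' hW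
  have hzc : Continuous z := by
    rw [continuous_iff_continuousAt]; exact fun p => (hW.hz p).continuousAt
  have hwc : Continuous w := by
    rw [continuous_iff_continuousAt]; exact fun p => (hW.hw p).continuousAt
  have hwpos : ∀ p, 0 < w p := fun p => lt_of_lt_of_le (hW.zpos p) (hW.zw p)
  have K2 := TM_rhs hC hr T (ps := ps) (pt := pt) hps.1 (by linarith [hps.2])
    (by rw [hpt]; linarith) hpt1 hlam0 hzc hW.zpos hW.zle
  have hYl : -YY ≤ YY := by unfold YY; norm_num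
  -- left side
  have hcen : CR ps pt (-YY) YY (en ⟨r, k, b⟩ mu V) :=
    T.cr_en (by linarith [hps.1]) (by linarith) le_rfl le_rfl
  have hcwen : CR ps pt (-YY) YY (fun p y => w p * en ⟨r, k, b⟩ mu V p y) :=
    (CR.ofP hwc.continuousOn).mul hcen
  have hen0 : ∀ p y, 0 ≤ en ⟨r, k, b⟩ mu V p y := fun p y => en_nonneg hr hmu0.le V p y
  have hps3 : ps ≤ -(3 * (Par.mk r k b).W1) := by linarith [hps.2]
  have hpt3 : 3 * (Par.mk r k b).W1 ≤ pt := by rw [hpt]; linarith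
  have K3 : II (-(3 * (Par.mk r k b).W1)) (3 * (Par.mk r k b).W1) (-YY) YY
      (fun p y => w p * en ⟨r, k, b⟩ mu V p y)
      ≤ II ps pt (-YY) YY (fun p y => w p * en ⟨r, k, b⟩ mu V p y) :=
    II_mono_rect hps3 (by linarith) hpt3 le_rfl hYl le_rfl hcwen
      (fun p _ y _ => mul_nonneg (hwpos p).le (hen0 p y))
  have hj := T.jet_mono (a := -(3 * (Par.mk r k b).W1)) (b := 3 * (Par.mk r k b).W1)
    (c := -YY) (d := YY) (by linarith) (by linarith) le_rfl le_rfl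
  have hcl : CR (-(3 * (Par.mk r k b).W1)) (3 * (Par.mk r k b).W1) (-YY) YY
      (fun p y => V.wy p y ^ 2 + md ⟨r, k, b⟩ y * V.wp p y ^ 2) := by
    have a1 : CR (-(3 * (Par.mk r k b).W1)) (3 * (Par.mk r k b).W1) (-YY) YY V.wy := hj.cwy
    have a2 : CR (-(3 * (Par.mk r k b).W1)) (3 * (Par.mk r k b).W1) (-YY) YY V.wp := hj.cwp
    exact (a1.pow 2).add ((CR.ofY (md_cont _).continuousOn).mul (a2.pow 2))
  have K4 : II (-(3 * (Par.mk r k b).W1)) (3 * (Par.mk r k b).W1) (-YY) YY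
      (fun p y => V.wy p y ^ 2 + md ⟨r, k, b⟩ y * V.wp p y ^ 2)
      ≤ 100 * (Par.mk r k b).W1 * C * II (-(3 * (Par.mk r k b).W1)) (3 * (Par.mk r k b).W1)
          (-YY) YY (fun p y => w p * en ⟨r, k, b⟩ mu V p y) := by
    rw [← II_smul]
    refine II_mono (by linarith) hYl hcl
      ((CR.const _ _ _ _ _).mul (hcwen.mono hps3 hpt3 le_rfl le_rfl)) (fun p hp y hy => ?_)
    have hwp := hwl p (abs_le.2 ⟨by linarith [hp.1], hp.2⟩)
    have hw1 : 1 ≤ 100 * (Par.mk r k b).W1 * w p := by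
      rw [div_le_iff₀ (by positivity)] at hwp; linarith
    have hmd := md_nonneg ⟨r, k, b⟩ hr y
    have hA : V.wy p y ^ 2 + md ⟨r, k, b⟩ y * V.wp p y ^ 2 ≤ C * en ⟨r, k, b⟩ mu V p y := by
      unfold en
      have b1 : V.wy p y ^ 2 ≤ C * V.wy p y ^ 2 := le_mul_of_one_le_left (sq_nonneg _) hC
      have b2 : md ⟨r, k, b⟩ y * V.wp p y ^ 2 ≤ (C * mu) * (md ⟨r, k, b⟩ y * V.wp p y ^ 2) :=
        le_mul_of_one_le_left (mul_nonneg hmd (sq_nonneg _)) hCmu
      calc V.wy p y ^ 2 + md ⟨r, k, b⟩ y * V.wp p y ^ 2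
          ≤ C * V.wy p y ^ 2 + (C * mu) * (md ⟨r, k, b⟩ y * V.wp p y ^ 2) := add_le_add b1 b2
        _ = _ := by ring
    calc V.wy p y ^ 2 + md ⟨r, k, b⟩ y * V.wp p y ^ 2 ≤ C * en ⟨r, k, b⟩ mu V p y := hA
      _ ≤ (100 * (Par.mk r k b).W1 * w p) * (C * en ⟨r, k, b⟩ mu V p y) :=
        le_mul_of_one_le_left (mul_nonneg hC0.le (hen0 p y)) hw1
      _ = 100 * (Par.mk r k b).W1 * C * (w p * en ⟨r, k, b⟩ mu V p y) := by ring
  -- the power of `r`
  obtain ⟨M, hM⟩ : ∃ M, M = (Par.mk r k b).s * (Par.mk r k b).eta ^ 2 * (Par.mk r k b).epsc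
      * (Par.mk r k b).lam ^ 2 := ⟨_, rfl⟩
  rw [← hM] at H2'
  have hM0 : 0 ≤ M := by
    rw [hM]; simp only [Par.s, Par.eta, Par.epsc, Par.lam]; positivity
  have hrM : r ^ N ≤ M := by
    have : M = r ^ (2 * b + 50 * k + 6) := by
      rw [hM]; simp only [Par.s, Par.eta, Par.epsc, Par.lam]
      rw [← pow_mul, ← pow_mul, ← pow_add, ← pow_add, ← pow_add]
      congr 1; ring
    rw [this]
    exact pow_le_pow_of_le_one hr.le hr1' (by omega)
  have K5 : II ps pt (-YY) YY (fun p y => w p * en ⟨r, k, b⟩ mu V p y)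
      ≤ (50 * C * C2 + 300 + C1) * M := by
    have c1 : 10 * C * ((Par.mk r k b).eta * (Par.mk r k b).epsc *
          II (-(2 * (Par.mk r k b).lam)) (2 * (Par.mk r k b).lam)
            (-(Par.mk r k b).lam) (Par.mk r k b).lam (fun p y => |V.wp p y|))
        ≤ 10 * C * (C2 * M) := mul_le_mul_of_nonneg_left H2' (by positivity)
    have c2 : 300 * r ^ N ≤ 300 * M := by linarith
    have c3 : C1 * r ^ N ≤ C1 * M := mul_le_mul_of_nonneg_left hrM hC1.le
    have c4 : (50 * C * C2 + 300 + C1) * M = 5 * (10 * C * (C2 * M)) + 300 * M + C1 * M := by ring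
    rw [c4]
    linarith
  have hWM : 0 ≤ 100 * (Par.mk r k b).W1 * C := by positivity
  calc II (-(3 * (Par.mk r k b).W1)) (3 * (Par.mk r k b).W1) (-YY) YY
        (fun p y => V.wy p y ^ 2 + md ⟨r, k, b⟩ y * V.wp p y ^ 2)
      ≤ 100 * (Par.mk r k b).W1 * C * II (-(3 * (Par.mk r k b).W1)) (3 * (Par.mk r k b).W1)
          (-YY) YY (fun p y => w p * en ⟨r, k, b⟩ mu V p y) := K4
    _ ≤ 100 * (Par.mk r k b).W1 * C * ((50 * C * C2 + 300 + C1) * M) :=
        mul_le_mul_of_nonneg_left (K3.trans K5) hWM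
    _ = _ := by rw [hM]; ring

end

end P229
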