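import Vale.Agent.P229.T.TDataOf
import Vale.Agent.P229.T.TL
import Vale.Agent.P229.T.TM
import Vale.Agent.P229.Interface

/-!
# P229 block T: assembly  (module T_MAIN)
-/

namespace P229

open Set Real
open scoped ContDiff

noncomputable section

/-- a constant is absorbed by a positive power of `r` -/
theorem TMain_absorb {C r : ℝ} {M : ℕ} (hC : 0 < C) (hr : 0 < r) (hr1 : r < 1 / (C + 1))
    (hM : 1 ≤ M) : C * r ^ (2 * M) ≤ r ^ M := by
  have h1 : r * (C + 1) < 1 := (lt_div_iff₀ (by linarith)).1 hr1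
  have h2 : r ≤ 1 := by nlinarith
  have h3 : r ^ M ≤ r := by
    calc r ^ M ≤ r ^ 1 := pow_le_pow_of_le_one hr.le h2 hM
      _ = r := pow_one r
  have h4 : C * r ^ M ≤ 1 := by
    have : C * r ^ M ≤ C * r := mul_le_mul_of_nonneg_left h3 hC.le
    nlinarith
  have h5 : 0 < r ^ M := pow_pos hr M
  calc C * r ^ (2 * M) = (C * r ^ M) * r ^ M := by rw [two_mul, pow_add]; ring
    _ ≤ 1 * r ^ M := mul_le_mul_of_nonneg_right h4 h5.le
    _ = r ^ M := one_mul _

theorem TMain_eden (P : Par) (u : ℝ → ℝ → ℝ) (U : J2) (a b c d : ℝ) :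
    (∫ p in a..b, ∫ y in c..d, eden P u U p y) =
      II a b c d (fun p y => (vJetT u U).wy p y ^ 2 + md P y * (vJetT u U).wp p y ^ 2) := by
  unfold II
  have h : ∀ p y, eden P u U p y =
      (vJetT u U).wy p y ^ 2 + md P y * (vJetT u U).wp p y ^ 2 := by
    intro p y
    unfold eden vJetT md
    ring
  simp only [h]

theorem blockT : BlockT := by
  intro C1 C2 k b M hC1 hC2 hk _ hM
  obtain ⟨C, r0, hC, hr0, HT⟩ := tdata_of C1 C2 k b hC1 hC2 hk
  have hCC : 1 ≤ C := hC1.trans hC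
  have hM1 : 1 ≤ M := by omega
  obtain ⟨CL, rL, hCL, hrL, HL⟩ := TL C hCC k b (2 * M) hk (by omega)
  obtain ⟨CR, rR, hCR, hrR, HR⟩ := TR C hCC k b (2 * M) hk (by omega)
  obtain ⟨CM, rM, hCM, hrM, HM⟩ := TM C hCC k b (2 * M) hk (by omega)
  refine ⟨max 1 CM, min (min (min r0 rL) (min rR rM)) (min (1 / (CL + 1)) (1 / (CR + 1))),
    le_max_left _ _, by positivity, ?_⟩
  intro r hr hrr mu u U hmu1 hmu2 hu hU
  have h0 : r < r0 := lt_of_lt_of_le hrr
    ((min_le_left _ _).trans ((min_le_left _ _).trans (min_le_left _ _)))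
  have hL : r < rL := lt_of_lt_of_le hrr
    ((min_le_left _ _).trans ((min_le_left _ _).trans (min_le_right _ _)))
  have hR : r < rR := lt_of_lt_of_le hrr
    ((min_le_left _ _).trans ((min_le_right _ _).trans (min_le_left _ _)))
  have hMr : r < rM := lt_of_lt_of_le hrr
    ((min_le_left _ _).trans ((min_le_right _ _).trans (min_le_right _ _)))
  have hCLr : r < 1 / (CL + 1) := lt_of_lt_of_le hrr
    ((min_le_right _ _).trans (min_le_left _ _))
  have hCRr : r < 1 / (CR + 1) := lt_of_lt_of_le hrr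
    ((min_le_right _ _).trans (min_le_right _ _))
  have T := HT r hr h0 mu (2 * M) u U hmu1 hmu2 hu hU
  have hmu1' : 1 / C ≤ mu := le_trans (one_div_le_one_div_of_le (by linarith) hC) hmu1
  have hmu2' : mu ≤ C := hmu2.trans hC
  refine ⟨?_, ?_, ?_⟩
  · rw [TMain_eden]
    exact (HL r hr hL mu _ _ _ hmu1' hmu2' T).trans (TMain_absorb hCL hr hCLr hM1)
  · rw [TMain_eden]
    exact (HR r hr hR mu _ _ _ hmu1' hmu2' T).trans (TMain_absorb hCR hr hCRr hM1)
  · rw [TMain_eden]
    refine (HM r hr hMr mu _ _ _ hmu1' hmu2' T).trans ?_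
    refine (le_of_eq (by ring)).trans (mul_le_mul_of_nonneg_right (le_max_right 1 CM)
      (b := CM) (a := (Par.mk r k b).eta ^ 2 * (Par.mk r k b).epsc * (Par.mk r k b).lam ^ 2
        * (Par.mk r k b).s * (Par.mk r k b).W1) ?_)
    have h1 : 0 ≤ (Par.mk r k b).epsc := by unfold Par.epsc; positivity
    have h2 : 0 ≤ (Par.mk r k b).s := by unfold Par.s; positivity
    have h3 : 0 ≤ (Par.mk r k b).W1 := by unfold Par.W1; positivity
    positivity

end

end P229
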