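import Vale.Agent.P229.T.Calc

/-!
# P229 block T: bridge between `Coef` and the identities of `Ident.lean`   (helper97)
-/

namespace P229

open Set Real MeasureTheory
open scoped ContDiff

noncomputable section

theorem strip_sub {a b c d : ℝ} (ha : -(7 / 5) ≤ a) (hb : b ≤ 7 / 5) (hc : -YY ≤ c)
    (hd : d ≤ YY) : Icc a b ×ˢ Icc c d ⊆ strip :=
  Set.prod_mono (Icc_subset_Icc ha hb) (Icc_subset_Icc hc hd)

theorem Coef.Good.coefJet0 {κ : Coef} {P : Par} {mu C : ℝ} {ast : ℝ → ℝ}
    (hκ : κ.Good P mu C ast) : CoefJet (-(7 / 5)) (7 / 5) (-YY) YY κ.t κ.tp κ.ty κ.a κ.ap where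
  ctau := hκ.ct
  ctaup := hκ.ctp
  ctauy := hκ.cty
  cal := hκ.ca
  calp := hκ.cap
  htaup := hκ.htp
  htauy := hκ.hty
  halp := hκ.hap

theorem Coef.gd_eq0 (κ : Coef) (V : J2) : κ.gd V = gD V κ.t := rfl

theorem Coef.L_eq0 (κ : Coef) (V : J2) (p y : ℝ) :
    κ.L V p y = L0 V κ.t κ.tp κ.ty κ.a κ.ap p y
      + (κ.d p y * V.wp p y + κ.g p y * κ.gd V p y) := by
  simp only [Coef.L, L0, gDy, gDp, Coef.gd]; ring

theorem Coef.Good.cr_d {κ : Coef} {P : Par} {mu C : ℝ} {ast : ℝ → ℝ}
    (hκ : κ.Good P mu C ast) {a b c d : ℝ} (ha : -(7 / 5) ≤ a) (hb : b ≤ 7 / 5) (hc : -YY ≤ c)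
    (hd : d ≤ YY) : CR a b c d κ.d := ContinuousOn.mono hκ.cd (strip_sub ha hb hc hd)

theorem Coef.Good.cr_g {κ : Coef} {P : Par} {mu C : ℝ} {ast : ℝ → ℝ}
    (hκ : κ.Good P mu C ast) {a b c d : ℝ} (ha : -(7 / 5) ≤ a) (hb : b ≤ 7 / 5) (hc : -YY ≤ c)
    (hd : d ≤ YY) : CR a b c d κ.g := ContinuousOn.mono hκ.cg (strip_sub ha hb hc hd)

section

variable {a b c d : ℝ} {tau taup tauy al alp : ℝ → ℝ → ℝ} {v : J2}

/-- **First identity** (multiplier `z v_p`), general boundary values. -/
theorem ident1g (hab : a ≤ b) (hcd : c ≤ d) (hv : v.IsJet a b c d)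
    (hc : CoefJet a b c d tau taup tauy al alp) {z z' : ℝ → ℝ}
    (hz : ContinuousOn z (Icc a b)) (hz' : ContinuousOn z' (Icc a b))
    (hzd : ∀ p ∈ Ioo a b, HasDerivAt z (z' p) p) :
    I2 a b c d (fun p y => z p * v.wp p y * L0 v tau taup tauy al alp p y)
      = (∫ p in a..b, z p * v.wp p d * gD v tau p d)
        - (∫ p in a..b, z p * v.wp p c * gD v tau p c)
        + I2 a b c d (fun p y => z' p * (gD v tau p y ^ 2 / 2 + al p y * v.wp p y ^ 2 / 2
            - tau p y * v.wp p y * gD v tau p y))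
        - I2 a b c d (fun p y => z p * alp p y * v.wp p y ^ 2) / 2
        - (∫ y in c..d, z b * (gD v tau b y ^ 2 / 2 + al b y * v.wp b y ^ 2 / 2
            - tau b y * v.wp b y * gD v tau b y))
        + ∫ y in c..d, z a * (gD v tau a y ^ 2 / 2 + al a y * v.wp a y ^ 2 / 2
            - tau a y * v.wp a y * gD v tau a y) := by
  have cz : CR a b c d (fun p _ => z p) := CR.ofP hz
  have cz' : CR a b c d (fun p _ => z' p) := CR.ofP hz'
  have cwp : CR a b c d v.wp := hv.cwp
  have cg := cr_gD hv hc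
  have cgp := cr_gDp hv hc
  have cgy := cr_gDy hv hc
  have cal : CR a b c d al := hc.cal
  have ctau : CR a b c d tau := hc.ctau
  -- the field A
  have hA : CR a b c d (fun p y => z p * (gD v tau p y ^ 2 / 2 + al p y * v.wp p y ^ 2 / 2
            - tau p y * v.wp p y * gD v tau p y)) := by
    have := cz.mul ((((cg.pow 2).mul (CR.const a b c d (1 / 2))).add
      ((cal.mul (cwp.pow 2)).mul (CR.const a b c d (1 / 2)))).sub ((ctau.mul cwp).mul cg))
    refine ContinuousOn.congr this (fun q _ => ?_)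
    simp only [Function.uncurry]; ring
  have hA' : CR a b c d (fun p y => z' p * (gD v tau p y ^ 2 / 2 + al p y * v.wp p y ^ 2 / 2
            - tau p y * v.wp p y * gD v tau p y)) := by
    have := cz'.mul ((((cg.pow 2).mul (CR.const a b c d (1 / 2))).add
      ((cal.mul (cwp.pow 2)).mul (CR.const a b c d (1 / 2)))).sub ((ctau.mul cwp).mul cg))
    refine ContinuousOn.congr this (fun q _ => ?_)
    simp only [Function.uncurry]; ring
  -- its p-derivative
  have hAp2 : CR a b c d (fun p y => z p * (gD v tau p y * gDp v tau taup p y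
        + (alp p y * v.wp p y ^ 2 / 2 + al p y * v.wp p y * v.wpp p y)
        - ((taup p y * v.wp p y + tau p y * v.wpp p y) * gD v tau p y
          + tau p y * v.wp p y * gDp v tau taup p y))) := by
    have := cz.mul (((cg.mul cgp).add (((hc.calp.mul (cwp.pow 2)).mul
      (CR.const a b c d (1 / 2))).add ((cal.mul cwp).mul hv.cwpp))).sub
      ((((hc.ctaup.mul cwp).add (ctau.mul hv.cwpp)).mul cg).add ((ctau.mul cwp).mul cgp)))
    refine ContinuousOn.congr this (fun q _ => ?_)
    simp only [Function.uncurry]; ring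
  have hAp : CR a b c d (fun p y => z' p * (gD v tau p y ^ 2 / 2 + al p y * v.wp p y ^ 2 / 2
            - tau p y * v.wp p y * gD v tau p y)
      + z p * (gD v tau p y * gDp v tau taup p y
        + (alp p y * v.wp p y ^ 2 / 2 + al p y * v.wp p y * v.wpp p y)
        - ((taup p y * v.wp p y + tau p y * v.wpp p y) * gD v tau p y
          + tau p y * v.wp p y * gDp v tau taup p y))) := hA'.add hAp2
  have e1 := I2_dp hab hcd hA hAp (by
    intro p hp y hy
    have dz := hzd p hp
    have dg := hasDerivAt_gD_p hv hc hp hy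
    have da := hc.halp p hp y hy
    have dt := hc.htaup p hp y hy
    have dw := hv.hpp p hp y hy
    have := dz.mul ((((dg.pow 2).div_const 2).add (((da.mul (dw.pow 2))).div_const 2)).sub
      ((dt.mul dw).mul dg))
    refine this.congr_deriv ?_
    simp only [Nat.cast_ofNat, Pi.pow_apply, Pi.mul_apply, Pi.sub_apply, Pi.add_apply]
    ring)
  -- the field B
  have hB : CR a b c d (fun p y => z p * v.wp p y * gD v tau p y) := (cz.mul cwp).mul cg
  have hBy : CR a b c d (fun p y => z p * (v.wpy p y * gD v tau p y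
      + v.wp p y * gDy v tau tauy p y)) :=
    cz.mul ((CR.mul hv.cwpy cg).add (cwp.mul cgy))
  have e2 := I2_dy hab hcd hB hBy (by
    intro p hp y hy
    have dg := hasDerivAt_gD_y hv hc hp hy
    have dw := hv.hpy p hp y hy
    have := ((dw.mul dg).const_mul (z p))
    have h3 : (fun t => z p * v.wp p t * gD v tau p t)
        = (fun t => z p * ((fun t => v.wp p t) * fun t => gD v tau p t) t) := by
      funext t; simp only [Pi.mul_apply]; ring
    rw [h3]; exact this)
  rw [I2_add hab hcd hA' hAp2] at e1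
  -- pointwise identity
  have hq : CR a b c d (fun p y => z p * alp p y * v.wp p y ^ 2) :=
    (cz.mul hc.calp).mul (cwp.pow 2)
  have e5 : I2 a b c d (fun p y => z p * v.wp p y * L0 v tau taup tauy al alp p y)
      = I2 a b c d (fun p y => (z p * (v.wpy p y * gD v tau p y
      + v.wp p y * gDy v tau tauy p y) - z p * (gD v tau p y * gDp v tau taup p y
        + (alp p y * v.wp p y ^ 2 / 2 + al p y * v.wp p y * v.wpp p y)
        - ((taup p y * v.wp p y + tau p y * v.wpp p y) * gD v tau p y
          + tau p y * v.wp p y * gDp v tau taup p y)))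
          - (1 / 2) * (z p * alp p y * v.wp p y ^ 2)) := by
    apply I2_congr hab hcd
    intro p _ y _
    simp only [L0]
    have hgp : gDp v tau taup p y = v.wpy p y + (taup p y * v.wp p y + tau p y * v.wpp p y) := rfl
    have key : v.wpy p y * gD v tau p y + (taup p y * v.wp p y + tau p y * v.wpp p y)
        * gD v tau p y = gD v tau p y * gDp v tau taup p y := by rw [hgp]; ring
    linear_combination (-z p) * key
  rw [e5, I2_sub hab hcd (hBy.sub hAp2) ((CR.const a b c d _).mul hq),
    I2_sub hab hcd hBy hAp2, I2_const_mul, e2]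
  linarith

end

end

end P229
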