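import Vale.Agent.P229.T.Refl

/-!
# P229 block T: the gap `1 <= |y| <= 2`  (module T_GAP)
There `v_yy = h`, `|h| <= r^N`, so `|v_y(p,2) - v_y(p,y)| <= r^N` for `1 <= y <= 2`.
-/

namespace P229

open Set Real MeasureTheory
open scoped ContDiff

noncomputable section

/-- upper gap; `θ^2 <= (51/50) v_y^2 + 51 r^(2N)`, `∫ w dp = z ps - z pt <= 10`, `r^(2N) <= r^N`. -/
theorem GAP (C : ℝ) (hC : 1 ≤ C) (k b N : ℕ) (hk : 10 ≤ k) :
    ∃ C' r0 : ℝ, 0 < C' ∧ 0 < r0 ∧ ∀ r : ℝ, 0 < r → r < r0 →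
      ∀ (mu : ℝ) (ast : ℝ → ℝ) (V : J2) (h : ℝ → ℝ → ℝ), 1 / C ≤ mu → mu ≤ C →
        TData ⟨r, k, b⟩ mu C N ast V h →
        ∀ ps pt : ℝ, -(7 / 5) ≤ ps → ps ≤ pt → pt ≤ 1 / 100 →
        ∀ z w w' : ℝ → ℝ, Wt ⟨r, k, b⟩ C N pt z w w' →
        (∫ p in ps..pt, w p * V.wy p 2 ^ 2)
          ≤ 102 / 100 * II ps pt 1 2 (fun p y => w p * en ⟨r, k, b⟩ mu V p y) + C' * r ^ N := by
  refine ⟨510, 1, by norm_num, one_pos, ?_⟩
  intro r hr hr1 mu ast V h hmu1 hmu2 T ps pt hps hpt hpt1 z w w' W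
  have hmu : 0 < mu := lt_of_lt_of_le (by positivity) hmu1
  have hrN : 0 ≤ r ^ N := by positivity
  have hrN1 : r ^ N ≤ 1 := pow_le_one₀ hr.le hr1.le
  have hYY : (2 : ℝ) ≤ YY := by unfold YY; norm_num
  have hwpos : ∀ p, 0 < w p := fun p => (W.zpos p).trans_le (W.zw p)
  have hwc : Continuous w := continuous_iff_continuousAt.2 fun p => (W.hw p).continuousAt
  have hpt2 : ∀ p ∈ Icc ps pt, p ∈ Icc (-(7 / 5) : ℝ) (7 / 5) := fun p hp =>
    ⟨hps.trans hp.1, hp.2.trans (by linarith)⟩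
  have hj : V.IsJet ps pt 1 2 := T.jet_mono hps (by linarith) (by linarith) hYY
  have hlam : (⟨r, k, b⟩ : Par).lam ≤ 1 := pow_le_one₀ hr.le hr1.le
  have hh : ∀ p ∈ Icc ps pt, ∀ y ∈ Icc (1 : ℝ) 2, |V.wyy p y| ≤ r ^ N := by
    intro p hp y hy
    have hyabs : |y| = y := abs_of_nonneg (by linarith [hy.1])
    rw [T.gap p (hpt2 p hp) y (by rw [hyabs]; exact hy.1) (by rw [hyabs]; exact hy.2)]
    exact T.hsmall p (hpt2 p hp) y ⟨by linarith [hy.1], by linarith [hy.2]⟩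
      (Or.inr (by rw [hyabs]; linarith [hy.1]))
  have hdiff : ∀ p ∈ Icc ps pt, ∀ y ∈ Icc (1 : ℝ) 2, |V.wy p 2 - V.wy p y| ≤ r ^ N := by
    intro p hp y hy
    have hc : ContinuousOn (V.wy p) (Icc y 2) :=
      (CR.inner (f := V.wy) hj.cwy hp).mono (Icc_subset_Icc hy.1 le_rfl)
    rcases eq_or_lt_of_le hy.2 with h2 | h2
    · rw [h2]
      simpa using hrN
    · obtain ⟨c, hc1, hc2⟩ := exists_hasDerivAt_eq_slope (V.wy p) (V.wyy p) h2 hc
        (fun t ht => hj.hyy p hp t ⟨lt_of_le_of_lt hy.1 ht.1, ht.2⟩)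
      have h3 : (0 : ℝ) < 2 - y := sub_pos.2 h2
      have h4 : V.wy p 2 - V.wy p y = V.wyy p c * (2 - y) := by
        rw [hc2]
        field_simp
      rw [h4, abs_mul, abs_of_pos h3]
      calc |V.wyy p c| * (2 - y) ≤ r ^ N * (2 - y) :=
            mul_le_mul_of_nonneg_right (hh p hp c ⟨hy.1.trans hc1.1.le, hc1.2.le⟩) h3.le
        _ ≤ r ^ N * 1 := mul_le_mul_of_nonneg_left (by linarith [hy.1]) hrN
        _ = r ^ N := mul_one _
  have hsq : ∀ p ∈ Icc ps pt, ∀ y ∈ Icc (1 : ℝ) 2,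
      V.wy p 2 ^ 2 ≤ 51 / 50 * en ⟨r, k, b⟩ mu V p y + 51 * r ^ N := by
    intro p hp y hy
    have h1 := hdiff p hp y hy
    have h2 : (V.wy p 2 - V.wy p y) ^ 2 ≤ r ^ N := by
      rw [← sq_abs]
      nlinarith [abs_nonneg (V.wy p 2 - V.wy p y)]
    have h3 : V.wy p y ^ 2 ≤ en ⟨r, k, b⟩ mu V p y := by
      have h4 := md_nonneg ⟨r, k, b⟩ hr y
      have h5 := mul_nonneg (mul_nonneg hmu.le h4) (sq_nonneg (V.wp p y))
      unfold en
      linarith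
    nlinarith [sq_nonneg (V.wy p y - 50 * (V.wy p 2 - V.wy p y))]
  have e1 : (∫ p in ps..pt, w p * V.wy p 2 ^ 2)
      = I2 ps pt 1 2 (fun p _ => w p * V.wy p 2 ^ 2) := by
    unfold I2
    apply intervalIntegral.integral_congr
    intro p _
    simp only [intervalIntegral.integral_const, smul_eq_mul]
    ring
  have cr1 : CR ps pt 1 2 (fun p _ => w p * V.wy p 2 ^ 2) :=
    CR.ofP (z := fun p => w p * V.wy p 2 ^ 2) (hwc.continuousOn.mul
      ((CR.outer (f := V.wy) hj.cwy (right_mem_Icc.2 one_le_two)).pow 2))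
  have cren : CR ps pt 1 2 (en ⟨r, k, b⟩ mu V) :=
    T.cr_en hps (by linarith) (by linarith) hYY
  have crw : CR ps pt 1 2 (fun p _ => w p) := CR.ofP hwc.continuousOn
  have step : I2 ps pt 1 2 (fun p _ => w p * V.wy p 2 ^ 2)
      ≤ I2 ps pt 1 2 (fun p y => 51 / 50 * (w p * en ⟨r, k, b⟩ mu V p y)
        + (51 * r ^ N) * w p) := by
    refine I2_mono hpt one_le_two cr1
      (((CR.const _ _ _ _ _).mul (crw.mul cren)).add ((CR.const _ _ _ _ _).mul crw)) ?_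
    intro p hp y hy
    have h1 := mul_le_mul_of_nonneg_left (hsq p hp y hy) (hwpos p).le
    nlinarith
  rw [I2_add hpt one_le_two ((CR.const _ _ _ _ _).mul (crw.mul cren))
    ((CR.const _ _ _ _ _).mul crw), I2_const_mul, I2_const_mul] at step
  have e2 : I2 ps pt 1 2 (fun p _ => w p) = z ps - z pt := by
    unfold I2
    have h1 : ∀ p : ℝ, (∫ _y in (1 : ℝ)..2, w p) = w p := by
      intro p
      simp only [intervalIntegral.integral_const, smul_eq_mul]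
      ring
    simp only [h1]
    have h2 := intervalIntegral.integral_eq_sub_of_hasDerivAt (a := ps) (b := pt)
      (f := fun p => -z p) (f' := w) (fun p _ => by
        have h3 := (W.hz p).fun_neg
        rwa [neg_neg] at h3)
      (hwc.intervalIntegrable _ _)
    rw [h2]
    ring
  have hz1 := W.zle ps hps
  have hz2 := W.zpos pt
  have h6 : 51 * r ^ N * (z ps - z pt) ≤ 51 * r ^ N * 10 :=
    mul_le_mul_of_nonneg_left (by linarith) (by positivity)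
  rw [e1, II_eq_I2]
  rw [e2] at step
  linarith

/-- lower gap (reflection `T.ry` of `GAP`, or the same proof). -/
theorem GAPB (C : ℝ) (hC : 1 ≤ C) (k b N : ℕ) (hk : 10 ≤ k) :
    ∃ C' r0 : ℝ, 0 < C' ∧ 0 < r0 ∧ ∀ r : ℝ, 0 < r → r < r0 →
      ∀ (mu : ℝ) (ast : ℝ → ℝ) (V : J2) (h : ℝ → ℝ → ℝ), 1 / C ≤ mu → mu ≤ C →
        TData ⟨r, k, b⟩ mu C N ast V h →
        ∀ ps pt : ℝ, -(7 / 5) ≤ ps → ps ≤ pt → pt ≤ 1 / 100 →
        ∀ z w w' : ℝ → ℝ, Wt ⟨r, k, b⟩ C N pt z w w' →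
        (∫ p in ps..pt, w p * V.wy p (-2) ^ 2)
          ≤ 102 / 100 * II ps pt (-2) (-1) (fun p y => w p * en ⟨r, k, b⟩ mu V p y)
            + C' * r ^ N := by
  obtain ⟨C', r0, hC', hr0, H⟩ := GAP C hC k b N hk
  refine ⟨C', r0, hC', hr0, fun r hr hr1 mu ast V h hmu1 hmu2 T ps pt h1 h2 h3 z w w' hW => ?_⟩
  have key := H r hr hr1 mu (fun y => ast (-y)) V.ry (fun p y => h p (-y)) hmu1 hmu2 T.ry
    ps pt h1 h2 h3 z w w' hW
  have hmd : ∀ y : ℝ, md ⟨r, k, b⟩ (-y) = md ⟨r, k, b⟩ y := by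
    intro y
    unfold md
    rw [chi_even, kk_even]
  have e1 : (∫ p in ps..pt, w p * V.ry.wy p 2 ^ 2) = ∫ p in ps..pt, w p * V.wy p (-2) ^ 2 := by
    refine intervalIntegral.integral_congr fun p _ => ?_
    change w p * (-V.wy p (-2)) ^ 2 = w p * V.wy p (-2) ^ 2
    ring
  have e2 : II ps pt 1 2 (fun p y => w p * en ⟨r, k, b⟩ mu V.ry p y)
      = II ps pt (-2) (-1) (fun p y => w p * en ⟨r, k, b⟩ mu V p y) := by
    have e3 : (fun p y => w p * en ⟨r, k, b⟩ mu V.ry p y)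
        = fun p y => (fun p y => w p * en ⟨r, k, b⟩ mu V p y) p (-y) := by
      funext p y
      change w p * ((-V.wy p (-y)) ^ 2 + mu * md ⟨r, k, b⟩ y * V.wp p (-y) ^ 2)
        = w p * (V.wy p (-y) ^ 2 + mu * md ⟨r, k, b⟩ (-y) * V.wp p (-y) ^ 2)
      rw [hmd]
      ring
    rw [e3]
    exact II_ry ps pt 1 2 (fun p y => w p * en ⟨r, k, b⟩ mu V p y)
  rw [e1, e2] at key
  exact key

end

end P229
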