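import Vale.Agent.P229.T.LinDefs
import Vale.Agent.P229.C.Calc

/-!
# P229 block T: size of the jets `J = U + s (u - U)`  (modules LIN_GJ, LIN_SZ)
-/

namespace P229

open Set Real
open scoped ContDiff

noncomputable section

/-- bounds of an intermediate jet on the closed strip. -/
structure GoodJ (P : Par) (C : ℝ) (u : ℝ → ℝ → ℝ) (J : J2) : Prop where
  jet : J.IsJet (-(7 / 5)) (7 / 5) (-YY) YY
  hx : ∀ p ∈ Icc (-(7 / 5) : ℝ) (7 / 5), ∀ y ∈ Icc (-YY) YY, |J.wp p y - p| ≤ 51 / 1000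
  hpp : ∀ p ∈ Icc (-(7 / 5) : ℝ) (7 / 5), ∀ y ∈ Icc (-YY) YY, |J.wpp p y - 1| ≤ 1 / 50
  hpy : ∀ p ∈ Icc (-(7 / 5) : ℝ) (7 / 5), ∀ y ∈ Icc (-YY) YY, |J.wpy p y| ≤ 3 / 100
  hy : ∀ p ∈ Icc (-(7 / 5) : ℝ) (7 / 5), ∀ y ∈ Icc (-YY) YY, |J.wy p y| ≤ C
  hyy : ∀ p ∈ Icc (-(7 / 5) : ℝ) (7 / 5), ∀ y ∈ Icc (-YY) YY, |J.wyy p y| ≤ C
  near : ∀ p : ℝ, |p| ≤ 3 * P.W1 → ∀ y ∈ Icc (-YY) YY,
    |J.wp p y - dx u 0 y| ≤ C * P.W1 ∧ |J.wy p y - dy u 0 y| ≤ C * P.W1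

private theorem gj_S_open : IsOpen (Ioo (-(144 / 100) : ℝ) (144 / 100) ×ˢ
    Ioo (-(208 / 100) : ℝ) (208 / 100)) := isOpen_Ioo.prod isOpen_Ioo

private theorem gj_mem {p y : ℝ} (hp : p ∈ Icc (-(7 / 5) : ℝ) (7 / 5)) (hy : y ∈ Icc (-YY) YY) :
    (p, y) ∈ Ioo (-(144 / 100) : ℝ) (144 / 100) ×ˢ Ioo (-(208 / 100) : ℝ) (208 / 100) := by
  have h1 := hp.1
  have h2 := hp.2
  have h3 := hy.1
  have h4 := hy.2
  have hYY : (YY : ℝ) = 41 / 20 := rfl
  rw [hYY] at h3 h4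
  exact ⟨⟨by linarith, by linarith⟩, ⟨by linarith, by linarith⟩⟩

private theorem gj_lt {p y : ℝ} (hp : p ∈ Icc (-(7 / 5) : ℝ) (7 / 5)) (hy : y ∈ Icc (-YY) YY) :
    |p| < 144 / 100 ∧ |y| < 208 / 100 := by
  obtain ⟨h1, h2⟩ := gj_mem hp hy
  exact ⟨abs_lt.2 h1, abs_lt.2 h2⟩

private theorem gj_sub : Icc (-(7 / 5) : ℝ) (7 / 5) ×ˢ Icc (-YY) YY ⊆
    Ioo (-(144 / 100) : ℝ) (144 / 100) ×ˢ Ioo (-(208 / 100) : ℝ) (208 / 100) := by
  rintro ⟨p, y⟩ ⟨hp, hy⟩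
  exact gj_mem hp hy

private theorem gj_mvt {f f' : ℝ → ℝ} {M : ℝ}
    (hf : ∀ t ∈ Ioo (-(7 / 5) : ℝ) (7 / 5), HasDerivAt f (f' t) t)
    (hb : ∀ t ∈ Ioo (-(7 / 5) : ℝ) (7 / 5), |f' t| ≤ M) {t : ℝ}
    (ht : t ∈ Ioo (-(7 / 5) : ℝ) (7 / 5)) : |f t - f 0| ≤ M * |t| := by
  have h := Convex.norm_image_sub_le_of_norm_hasDerivWithin_le (f := f) (f' := f') (C := M)
    (s := Ioo (-(7 / 5) : ℝ) (7 / 5)) (x := 0) (y := t)
    (fun x hx => (hf x hx).hasDerivWithinAt)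
    (fun x hx => by
      rw [Real.norm_eq_abs]
      exact hb x hx)
    (convex_Ioo _ _) ⟨by norm_num, by norm_num⟩ ht
  simpa [Real.norm_eq_abs] using h

/-- (LIN_GJ) jets of `u`, `U`, `u - U` and the bounds of `U + s (u - U)`. -/
theorem jetOf_isJet {P : Par} {mu C1 : ℝ} {u : ℝ → ℝ → ℝ} (hu : GoodU P mu C1 u) :
    (jetOf u).IsJet (-(7 / 5)) (7 / 5) (-YY) YY := by
  have hS := gj_S_open
  have hsm := hu.smooth
  have hx1 := P229.C.contDiffOn_dx hS hsm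
  have hy1 := P229.C.contDiffOn_dy hS hsm
  have hx2 := P229.C.contDiffOn_dx hS hx1
  have hxy := P229.C.contDiffOn_dy hS hx1
  have hy2 := P229.C.contDiffOn_dy hS hy1
  exact
    { cw := hsm.continuousOn.mono gj_sub
      cwp := hx1.continuousOn.mono gj_sub
      cwy := hy1.continuousOn.mono gj_sub
      cwpp := hx2.continuousOn.mono gj_sub
      cwpy := hxy.continuousOn.mono gj_sub
      cwyy := hy2.continuousOn.mono gj_sub
      hp := fun p hp y hy => P229.C.hasDerivAt_dx hS hsm (gj_mem (Ioo_subset_Icc_self hp) hy)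
      hpp := fun p hp y hy => P229.C.hasDerivAt_dx hS hx1 (gj_mem (Ioo_subset_Icc_self hp) hy)
      hyp := fun p hp y hy => by
        have hm := gj_mem (Ioo_subset_Icc_self hp) hy
        have h := P229.C.hasDerivAt_dx hS hy1 hm
        rw [P229.C.dx_dy hS hsm hm] at h
        exact h
      hy := fun p hp y hy => P229.C.hasDerivAt_dy hS hsm (gj_mem hp (Ioo_subset_Icc_self hy))
      hpy := fun p hp y hy => P229.C.hasDerivAt_dy hS hx1 (gj_mem hp (Ioo_subset_Icc_self hy))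
      hyy := fun p hp y hy => P229.C.hasDerivAt_dy hS hy1 (gj_mem hp (Ioo_subset_Icc_self hy)) }

private theorem gj_U {P : Par} {mu C2 : ℝ} {Q : ℕ} {u : ℝ → ℝ → ℝ} {U : J2}
    (hU : SlowU P mu C2 Q u U) : U.IsJet (-(7 / 5)) (7 / 5) (-YY) YY := by
  have h := hU.jet
  have e : (14 / 10 : ℝ) = 7 / 5 := by norm_num
  rw [e] at h
  exact h

theorem vJetT_isJet {P : Par} {mu C1 C2 : ℝ} {Q : ℕ} {u : ℝ → ℝ → ℝ} {U : J2}
    (hu : GoodU P mu C1 u) (hU : SlowU P mu C2 Q u U) :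
    (vJetT u U).IsJet (-(7 / 5)) (7 / 5) (-YY) YY := by
  have hj := jetOf_isJet hu
  have hk := gj_U hU
  exact
    { cw := ContinuousOn.sub hj.cw hk.cw
      cwp := ContinuousOn.sub hj.cwp hk.cwp
      cwy := ContinuousOn.sub hj.cwy hk.cwy
      cwpp := ContinuousOn.sub hj.cwpp hk.cwpp
      cwpy := ContinuousOn.sub hj.cwpy hk.cwpy
      cwyy := ContinuousOn.sub hj.cwyy hk.cwyy
      hp := fun p hp y hy => (hj.hp p hp y hy).sub (hk.hp p hp y hy)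
      hpp := fun p hp y hy => (hj.hpp p hp y hy).sub (hk.hpp p hp y hy)
      hyp := fun p hp y hy => (hj.hyp p hp y hy).sub (hk.hyp p hp y hy)
      hy := fun p hp y hy => (hj.hy p hp y hy).sub (hk.hy p hp y hy)
      hpy := fun p hp y hy => (hj.hpy p hp y hy).sub (hk.hpy p hp y hy)
      hyy := fun p hp y hy => (hj.hyy p hp y hy).sub (hk.hyy p hp y hy) }

theorem line_isJet {U V : J2} {a b c d : ℝ} (hU : U.IsJet a b c d) (hV : V.IsJet a b c d)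
    (s : ℝ) : (U.line V s).IsJet a b c d := by
  have hc : ∀ {f g : ℝ → ℝ → ℝ}, ContinuousOn (Function.uncurry f) (Icc a b ×ˢ Icc c d) →
      ContinuousOn (Function.uncurry g) (Icc a b ×ˢ Icc c d) →
      ContinuousOn (Function.uncurry fun p y => f p y + s * g p y) (Icc a b ×ˢ Icc c d) :=
    fun hf hg => ContinuousOn.add hf (ContinuousOn.mul continuousOn_const hg)
  exact
    { cw := hc hU.cw hV.cw
      cwp := hc hU.cwp hV.cwp
      cwy := hc hU.cwy hV.cwy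
      cwpp := hc hU.cwpp hV.cwpp
      cwpy := hc hU.cwpy hV.cwpy
      cwyy := hc hU.cwyy hV.cwyy
      hp := fun p hp y hy => (hU.hp p hp y hy).add ((hV.hp p hp y hy).const_mul s)
      hpp := fun p hp y hy => (hU.hpp p hp y hy).add ((hV.hpp p hp y hy).const_mul s)
      hyp := fun p hp y hy => (hU.hyp p hp y hy).add ((hV.hyp p hp y hy).const_mul s)
      hy := fun p hp y hy => (hU.hy p hp y hy).add ((hV.hy p hp y hy).const_mul s)
      hpy := fun p hp y hy => (hU.hpy p hp y hy).add ((hV.hpy p hp y hy).const_mul s)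
      hyy := fun p hp y hy => (hU.hyy p hp y hy).add ((hV.hyy p hp y hy).const_mul s) }

/-- `U + s (u - U)` is close to `u`. -/
private theorem gj_line {a b s e : ℝ} (hs : s ∈ Icc (0 : ℝ) 1) (h : |a - b| ≤ e) :
    |(b + s * (a - b)) - a| ≤ e := by
  have e1 : (b + s * (a - b)) - a = -((1 - s) * (a - b)) := by ring
  rw [e1, abs_neg, abs_mul, abs_of_nonneg (by linarith [hs.2])]
  have h0 := abs_nonneg (a - b)
  have h1 : (1 - s) * |a - b| ≤ 1 * |a - b| := by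
    apply mul_le_mul_of_nonneg_right _ h0
    linarith [hs.1]
  linarith

private theorem gj_near {P : Par} {mu C1 : ℝ} {u : ℝ → ℝ → ℝ} (hu : GoodU P mu C1 u)
    {p y : ℝ} (hp : p ∈ Ioo (-(7 / 5) : ℝ) (7 / 5)) (hy : y ∈ Icc (-YY) YY) :
    |dx u p y - dx u 0 y| ≤ 101 / 100 * |p| ∧ |dy u p y - dy u 0 y| ≤ 1 / 50 * |p| := by
  have hj := jetOf_isJet hu
  constructor
  · refine gj_mvt (f := fun t => dx u t y) (f' := fun t => dx (dx u) t y)
      (fun t ht => hj.hpp t ht y hy) (fun t ht => ?_) hp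
    obtain ⟨h1, h2⟩ := gj_lt (Ioo_subset_Icc_self ht) hy
    have h3 := abs_le.1 (hu.upp t y h1 h2)
    rw [abs_le]
    constructor <;> linarith [h3.1, h3.2]
  · refine gj_mvt (f := fun t => dy u t y) (f' := fun t => dy (dx u) t y)
      (fun t ht => hj.hyp t ht y hy) (fun t ht => ?_) hp
    obtain ⟨h1, h2⟩ := gj_lt (Ioo_subset_Icc_self ht) hy
    exact hu.upy t y h1 h2

private theorem gj_W1 {r : ℝ} {k b : ℕ} (hr : 0 < r) (hr0 : r < 1 / 1000) (hk : 10 ≤ k) :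
    (⟨r, k, b⟩ : Par).W1 ≤ 1 / 1000 ∧ 0 ≤ (⟨r, k, b⟩ : Par).W1 ∧
    (⟨r, k, b⟩ : Par).s ≤ (⟨r, k, b⟩ : Par).W1 ∧ (⟨r, k, b⟩ : Par).eps ≤ (⟨r, k, b⟩ : Par).W1 ∧
    (⟨r, k, b⟩ : Par).s ≤ r ∧ (⟨r, k, b⟩ : Par).eps ≤ 1 ∧ 0 ≤ (⟨r, k, b⟩ : Par).eps := by
  have hr1 : r ≤ 1 := by linarith
  simp only [Par.W1, Par.s, Par.eps]
  have hle : ∀ {m n : ℕ}, m ≤ n → r ^ n ≤ r ^ m := fun h => pow_le_pow_of_le_one hr.le hr1 h
  have h1 : r ^ (9 * k) ≤ r ^ 1 := hle (by omega)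
  have h2 : r ^ (10 * k) ≤ r ^ 1 := hle (by omega)
  rw [pow_one] at h1 h2
  exact ⟨by linarith, by positivity, hle (by omega), hle (by omega), h2,
    pow_le_one₀ hr.le hr1, by positivity⟩

private theorem gj_tri {a b e1 e2 c : ℝ} (h1 : |a - b| ≤ e1) (h2 : |b - c| ≤ e2) :
    |a - c| ≤ e1 + e2 := by
  have : a - c = (a - b) + (b - c) := by ring
  rw [this]
  exact (abs_add_le _ _).trans (add_le_add h1 h2)

theorem goodJ_of (C1 C2 : ℝ) (k b : ℕ) (hC1 : 1 ≤ C1) (hC2 : 1 ≤ C2) (hk : 10 ≤ k) :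
    ∃ C r0 : ℝ, 1 ≤ C ∧ 0 < r0 ∧ ∀ r : ℝ, 0 < r → r < r0 → ∀ (mu : ℝ) (Q : ℕ)
      (u : ℝ → ℝ → ℝ) (U : J2), GoodU ⟨r, k, b⟩ mu C1 u → SlowU ⟨r, k, b⟩ mu C2 Q u U →
      ∀ s ∈ Icc (0 : ℝ) 1, GoodJ ⟨r, k, b⟩ C u (U.line (vJetT u U) s) := by
  refine ⟨C1 + C2 + 4, 1 / (1000 * C2), by linarith, by positivity, ?_⟩
  intro r hr hr0 mu Q u U hu hU s hs
  have hCr : C2 * r ≤ 1 / 1000 := by
    rw [lt_div_iff₀ (by positivity)] at hr0
    linarith
  have hr1000 : r < 1 / 1000 := by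
    refine lt_of_lt_of_le hr0 ?_
    apply one_div_le_one_div_of_le (by norm_num)
    linarith
  obtain ⟨w1, w2, w3, w4, w5, w6, w7⟩ := gj_W1 (b := b) hr hr1000 hk
  have hC20 : 0 ≤ C2 := by linarith
  have hC10 : 0 ≤ C1 := by linarith
  have e14 : (14 / 10 : ℝ) = 7 / 5 := by norm_num
  have cp := hU.cp
  have cy := hU.cy
  have cpp := hU.cpp
  have cpy := hU.cpy
  have cyy := hU.cyy
  rw [e14] at cp cy cpp cpy cyy
  have c2s : C2 * (⟨r, k, b⟩ : Par).s ≤ 1 / 1000 :=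
    (mul_le_mul_of_nonneg_left w5 hC20).trans hCr
  have c2e : C2 * (⟨r, k, b⟩ : Par).eps ≤ C2 := by
    have := mul_le_mul_of_nonneg_left w6 hC20
    linarith
  have c1e : C1 * (⟨r, k, b⟩ : Par).eps ≤ C1 := by
    have := mul_le_mul_of_nonneg_left w6 hC10
    linarith
  refine
    { jet := line_isJet (gj_U hU) (vJetT_isJet hu hU) s
      hx := ?_
      hpp := ?_
      hpy := ?_
      hy := ?_
      hyy := ?_
      near := ?_ }
  · intro p hp y hy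
    obtain ⟨h1, h2⟩ := gj_lt hp hy
    have h3 := gj_tri (gj_line hs ((cp p hp y hy).trans c2s)) (hu.up p y h1 h2)
    exact h3.trans (by norm_num)
  · intro p hp y hy
    obtain ⟨h1, h2⟩ := gj_lt hp hy
    have h3 := gj_tri (gj_line hs (cpp p hp y hy)) (hu.upp p y h1 h2)
    exact h3.trans (by norm_num)
  · intro p hp y hy
    obtain ⟨h1, h2⟩ := gj_lt hp hy
    have h3 := gj_tri (c := 0) (e2 := 1 / 50) (gj_line hs (cpy p hp y hy))
      (by rw [sub_zero]; exact hu.upy p y h1 h2)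
    rw [sub_zero] at h3
    exact h3.trans (by norm_num)
  · intro p hp y hy
    obtain ⟨h1, h2⟩ := gj_lt hp hy
    have h3 := gj_tri (c := 0) (e2 := C1) (gj_line hs (cy p hp y hy))
      (by rw [sub_zero]; exact hu.uy p y h1 h2)
    rw [sub_zero] at h3
    exact h3.trans (by linarith)
  · intro p hp y hy
    obtain ⟨h1, h2⟩ := gj_lt hp hy
    have h4 := hu.uyy p y h1 h2
    have h5 := cyy p hp y hy
    have h6 : (U.line (vJetT u U) s).wyy p y = (1 - s) * U.wyy p y + s * dy (dy u) p y := by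
      simp only [J2.line, vJetT]; ring
    rw [h6]
    refine (abs_add_le _ _).trans ?_
    rw [abs_mul, abs_mul, abs_of_nonneg (by linarith [hs.2] : (0 : ℝ) ≤ 1 - s),
      abs_of_nonneg hs.1]
    have h7 : (1 - s) * |U.wyy p y| ≤ 1 * C2 :=
      mul_le_mul (by linarith [hs.1]) (h5.trans c2e) (abs_nonneg _) (by norm_num)
    have h8 : s * |dy (dy u) p y| ≤ 1 * C1 :=
      mul_le_mul hs.2 (h4.trans c1e) (abs_nonneg _) (by norm_num)
    linarith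
  · intro p hp y hy
    have hpW : |p| ≤ 3 / 1000 := by linarith
    have hpI : p ∈ Ioo (-(7 / 5) : ℝ) (7 / 5) := by
      have := abs_le.1 hpW
      exact ⟨by linarith [this.1], by linarith [this.2]⟩
    obtain ⟨n1, n2⟩ := gj_near hu hpI hy
    have hpc := Ioo_subset_Icc_self hpI
    have b1 : C2 * (⟨r, k, b⟩ : Par).s ≤ C2 * (⟨r, k, b⟩ : Par).W1 :=
      mul_le_mul_of_nonneg_left w3 hC20
    have b2 : C2 * (⟨r, k, b⟩ : Par).eps ≤ C2 * (⟨r, k, b⟩ : Par).W1 :=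
      mul_le_mul_of_nonneg_left w4 hC20
    have b3 : 0 ≤ C1 * (⟨r, k, b⟩ : Par).W1 := mul_nonneg hC10 w2
    constructor
    · refine (gj_tri (gj_line hs (cp p hpc y hy)) n1).trans ?_
      nlinarith
    · refine (gj_tri (gj_line hs (cy p hpc y hy)) n2).trans ?_
      nlinarith

/-- the jet of `u` itself (needed for `astT`). -/
theorem goodJ_u (C1 : ℝ) (k b : ℕ) (hC1 : 1 ≤ C1) (hk : 10 ≤ k) :
    ∃ C r0 : ℝ, 1 ≤ C ∧ 0 < r0 ∧ ∀ r : ℝ, 0 < r → r < r0 → ∀ (mu : ℝ)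
      (u : ℝ → ℝ → ℝ), GoodU ⟨r, k, b⟩ mu C1 u → GoodJ ⟨r, k, b⟩ C u (jetOf u) := by
  refine ⟨C1 + 4, 1 / 1000, by linarith, by norm_num, ?_⟩
  intro r hr hr1000 mu u hu
  obtain ⟨w1, w2, w3, w4, w5, w6, w7⟩ := gj_W1 (b := b) hr hr1000 hk
  have hC10 : 0 ≤ C1 := by linarith
  have c1e : C1 * (⟨r, k, b⟩ : Par).eps ≤ C1 := by
    have := mul_le_mul_of_nonneg_left w6 hC10
    linarith
  refine
    { jet := jetOf_isJet hu
      hx := ?_
      hpp := ?_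
      hpy := ?_
      hy := ?_
      hyy := ?_
      near := ?_ }
  · intro p hp y hy
    obtain ⟨h1, h2⟩ := gj_lt hp hy
    exact (hu.up p y h1 h2).trans (by norm_num)
  · intro p hp y hy
    obtain ⟨h1, h2⟩ := gj_lt hp hy
    exact (hu.upp p y h1 h2).trans (by norm_num)
  · intro p hp y hy
    obtain ⟨h1, h2⟩ := gj_lt hp hy
    exact (hu.upy p y h1 h2).trans (by norm_num)
  · intro p hp y hy
    obtain ⟨h1, h2⟩ := gj_lt hp hy
    exact (hu.uy p y h1 h2).trans (by linarith)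
  · intro p hp y hy
    obtain ⟨h1, h2⟩ := gj_lt hp hy
    exact (hu.uyy p y h1 h2).trans (by linarith)
  · intro p hp y hy
    have hpW : |p| ≤ 3 / 1000 := by linarith
    have hpI : p ∈ Ioo (-(7 / 5) : ℝ) (7 / 5) := by
      have := abs_le.1 hpW
      exact ⟨by linarith [this.1], by linarith [this.2]⟩
    obtain ⟨n1, n2⟩ := gj_near hu hpI hy
    have b3 : 0 ≤ C1 * (⟨r, k, b⟩ : Par).W1 := mul_nonneg hC10 w2
    constructor
    · refine n1.trans ?_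
      nlinarith
    · refine n2.trans ?_
      nlinarith

end

end P229
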