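import Vale.Agent.P229.Defs
import Vale.Agent.P229.T.Int2

/-!
# P229, block T: the two exact energy identities   (helper97)
-/

namespace P229

open Set Real MeasureTheory intervalIntegral

noncomputable section

/-- coefficients `tau` (with both first derivatives) and `al` (with its `p`-derivative). -/
structure CoefJet (a b c d : ℝ) (tau taup tauy al alp : ℝ → ℝ → ℝ) : Prop where
  ctau : CR a b c d tau
  ctaup : CR a b c d taup
  ctauy : CR a b c d tauy
  cal : CR a b c d al
  calp : CR a b c d alp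
  htaup : ∀ p ∈ Ioo a b, ∀ y ∈ Icc c d, HasDerivAt (fun t => tau t y) (taup p y) p
  htauy : ∀ p ∈ Icc a b, ∀ y ∈ Ioo c d, HasDerivAt (fun t => tau p t) (tauy p y) y
  halp : ∀ p ∈ Ioo a b, ∀ y ∈ Icc c d, HasDerivAt (fun t => al t y) (alp p y) p

theorem CoefJet.mono {a b c d a' b' c' d' : ℝ} {tau taup tauy al alp : ℝ → ℝ → ℝ}
    (h : CoefJet a b c d tau taup tauy al alp) (h1 : a ≤ a') (h2 : b' ≤ b) (h3 : c ≤ c')
    (h4 : d' ≤ d) : CoefJet a' b' c' d' tau taup tauy al alp where
  ctau := h.ctau.mono h1 h2 h3 h4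
  ctaup := h.ctaup.mono h1 h2 h3 h4
  ctauy := h.ctauy.mono h1 h2 h3 h4
  cal := h.cal.mono h1 h2 h3 h4
  calp := h.calp.mono h1 h2 h3 h4
  htaup := fun p hp y hy => h.htaup p ⟨h1.trans_lt hp.1, hp.2.trans_le h2⟩ y
    ⟨h3.trans hy.1, hy.2.trans h4⟩
  htauy := fun p hp y hy => h.htauy p ⟨h1.trans hp.1, hp.2.trans h2⟩ y
    ⟨h3.trans_lt hy.1, hy.2.trans_le h4⟩
  halp := fun p hp y hy => h.halp p ⟨h1.trans_lt hp.1, hp.2.trans_le h2⟩ y
    ⟨h3.trans hy.1, hy.2.trans h4⟩

theorem J2.IsJet.mono {v : J2} {a b c d a' b' c' d' : ℝ}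
    (h : v.IsJet a b c d) (h1 : a ≤ a') (h2 : b' ≤ b) (h3 : c ≤ c')
    (h4 : d' ≤ d) : v.IsJet a' b' c' d' where
  cw := CR.mono h.cw h1 h2 h3 h4
  cwp := CR.mono h.cwp h1 h2 h3 h4
  cwy := CR.mono h.cwy h1 h2 h3 h4
  cwpp := CR.mono h.cwpp h1 h2 h3 h4
  cwpy := CR.mono h.cwpy h1 h2 h3 h4
  cwyy := CR.mono h.cwyy h1 h2 h3 h4
  hp := fun p hp y hy => h.hp p ⟨h1.trans_lt hp.1, hp.2.trans_le h2⟩ y
    ⟨h3.trans hy.1, hy.2.trans h4⟩
  hpp := fun p hp y hy => h.hpp p ⟨h1.trans_lt hp.1, hp.2.trans_le h2⟩ y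
    ⟨h3.trans hy.1, hy.2.trans h4⟩
  hyp := fun p hp y hy => h.hyp p ⟨h1.trans_lt hp.1, hp.2.trans_le h2⟩ y
    ⟨h3.trans hy.1, hy.2.trans h4⟩
  hy := fun p hp y hy => h.hy p ⟨h1.trans hp.1, hp.2.trans h2⟩ y
    ⟨h3.trans_lt hy.1, hy.2.trans_le h4⟩
  hpy := fun p hp y hy => h.hpy p ⟨h1.trans hp.1, hp.2.trans h2⟩ y
    ⟨h3.trans_lt hy.1, hy.2.trans_le h4⟩
  hyy := fun p hp y hy => h.hyy p ⟨h1.trans hp.1, hp.2.trans h2⟩ y
    ⟨h3.trans_lt hy.1, hy.2.trans_le h4⟩

/-- `g = D v = v_y + tau v_p`. -/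
def gD (v : J2) (tau : ℝ → ℝ → ℝ) (p y : ℝ) : ℝ := v.wy p y + tau p y * v.wp p y

/-- `g_p`. -/
def gDp (v : J2) (tau taup : ℝ → ℝ → ℝ) (p y : ℝ) : ℝ :=
  v.wpy p y + (taup p y * v.wp p y + tau p y * v.wpp p y)

/-- `g_y`. -/
def gDy (v : J2) (tau tauy : ℝ → ℝ → ℝ) (p y : ℝ) : ℝ :=
  v.wyy p y + (tauy p y * v.wp p y + tau p y * v.wpy p y)

/-- principal part `D (D v) - (al v_p)_p`. -/
def L0 (v : J2) (tau taup tauy al alp : ℝ → ℝ → ℝ) (p y : ℝ) : ℝ :=
  gDy v tau tauy p y + tau p y * gDp v tau taup p y - (alp p y * v.wp p y + al p y * v.wpp p y)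

section

variable {a b c d : ℝ} {tau taup tauy al alp : ℝ → ℝ → ℝ} {v : J2}

theorem cr_gD (hv : v.IsJet a b c d) (hc : CoefJet a b c d tau taup tauy al alp) :
    CR a b c d (gD v tau) := CR.add hv.cwy (CR.mul hc.ctau hv.cwp)

theorem cr_gDp (hv : v.IsJet a b c d) (hc : CoefJet a b c d tau taup tauy al alp) :
    CR a b c d (gDp v tau taup) :=
  CR.add hv.cwpy (CR.add (CR.mul hc.ctaup hv.cwp) (CR.mul hc.ctau hv.cwpp))

theorem cr_gDy (hv : v.IsJet a b c d) (hc : CoefJet a b c d tau taup tauy al alp) :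
    CR a b c d (gDy v tau tauy) :=
  CR.add hv.cwyy (CR.add (CR.mul hc.ctauy hv.cwp) (CR.mul hc.ctau hv.cwpy))

theorem cr_L0 (hv : v.IsJet a b c d) (hc : CoefJet a b c d tau taup tauy al alp) :
    CR a b c d (L0 v tau taup tauy al alp) :=
  CR.sub (CR.add (cr_gDy hv hc) (CR.mul hc.ctau (cr_gDp hv hc)))
    (CR.add (CR.mul hc.calp hv.cwp) (CR.mul hc.cal hv.cwpp))

theorem hasDerivAt_gD_p (hv : v.IsJet a b c d) (hc : CoefJet a b c d tau taup tauy al alp)
    {p : ℝ} (hp : p ∈ Ioo a b) {y : ℝ} (hy : y ∈ Icc c d) :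
    HasDerivAt (fun t => gD v tau t y) (gDp v tau taup p y) p :=
  (hv.hyp p hp y hy).add ((hc.htaup p hp y hy).mul (hv.hpp p hp y hy))

theorem hasDerivAt_gD_y (hv : v.IsJet a b c d) (hc : CoefJet a b c d tau taup tauy al alp)
    {p : ℝ} (hp : p ∈ Icc a b) {y : ℝ} (hy : y ∈ Ioo c d) :
    HasDerivAt (fun t => gD v tau p t) (gDy v tau tauy p y) y :=
  (hv.hyy p hp y hy).add ((hc.htauy p hp y hy).mul (hv.hpy p hp y hy))

/-- **First identity** (multiplier `z v_p`), `v_p = 0` on the horizontal sides. -/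
theorem ident1 (hab : a ≤ b) (hcd : c ≤ d) (hv : v.IsJet a b c d)
    (hc : CoefJet a b c d tau taup tauy al alp) {z z' : ℝ → ℝ}
    (hz : ContinuousOn z (Icc a b)) (hz' : ContinuousOn z' (Icc a b))
    (hzd : ∀ p ∈ Ioo a b, HasDerivAt z (z' p) p)
    (h0c : ∀ p ∈ Icc a b, v.wp p c = 0) (h0d : ∀ p ∈ Icc a b, v.wp p d = 0) :
    I2 a b c d (fun p y => z p * v.wp p y * L0 v tau taup tauy al alp p y)
      = I2 a b c d (fun p y => z' p * (gD v tau p y ^ 2 / 2 + al p y * v.wp p y ^ 2 / 2
            - tau p y * v.wp p y * gD v tau p y))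
        - I2 a b c d (fun p y => z p * alp p y * v.wp p y ^ 2) / 2
        - (∫ y in c..d, z b * (gD v tau b y ^ 2 / 2 + al b y * v.wp b y ^ 2 / 2
            - tau b y * v.wp b y * gD v tau b y))
        + ∫ y in c..d, z a * (gD v tau a y ^ 2 / 2 + al a y * v.wp a y ^ 2 / 2
            - tau a y * v.wp a y * gD v tau a y) := by
  have cz : CR a b c d (fun p _ => z p) := CR.ofP hz
  have cz' : CR a b c d (fun p _ => z' p) := CR.ofP hz'
  have cwp : CR a b c d v.wp := hv.cwp
  have cg := cr_gD hv hc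
  have cgp := cr_gDp hv hc
  have cgy := cr_gDy hv hc
  have cal : CR a b c d al := hc.cal
  have ctau : CR a b c d tau := hc.ctau
  -- the field A
  have hA : CR a b c d (fun p y => z p * (gD v tau p y ^ 2 / 2 + al p y * v.wp p y ^ 2 / 2
            - tau p y * v.wp p y * gD v tau p y)) := by
    have := cz.mul ((((cg.pow 2).mul (CR.const a b c d (1 / 2))).add
      ((cal.mul (cwp.pow 2)).mul (CR.const a b c d (1 / 2)))).sub ((ctau.mul cwp).mul cg))
    refine ContinuousOn.congr this (fun q _ => ?_)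
    simp only [Function.uncurry]; ring
  have hA' : CR a b c d (fun p y => z' p * (gD v tau p y ^ 2 / 2 + al p y * v.wp p y ^ 2 / 2
            - tau p y * v.wp p y * gD v tau p y)) := by
    have := cz'.mul ((((cg.pow 2).mul (CR.const a b c d (1 / 2))).add
      ((cal.mul (cwp.pow 2)).mul (CR.const a b c d (1 / 2)))).sub ((ctau.mul cwp).mul cg))
    refine ContinuousOn.congr this (fun q _ => ?_)
    simp only [Function.uncurry]; ring
  -- its p-derivative
  have hAp2 : CR a b c d (fun p y => z p * (gD v tau p y * gDp v tau taup p y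
        + (alp p y * v.wp p y ^ 2 / 2 + al p y * v.wp p y * v.wpp p y)
        - ((taup p y * v.wp p y + tau p y * v.wpp p y) * gD v tau p y
          + tau p y * v.wp p y * gDp v tau taup p y))) := by
    have := cz.mul (((cg.mul cgp).add (((hc.calp.mul (cwp.pow 2)).mul
      (CR.const a b c d (1 / 2))).add ((cal.mul cwp).mul hv.cwpp))).sub
      ((((hc.ctaup.mul cwp).add (ctau.mul hv.cwpp)).mul cg).add ((ctau.mul cwp).mul cgp)))
    refine ContinuousOn.congr this (fun q _ => ?_)
    simp only [Function.uncurry]; ring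
  have hAp : CR a b c d (fun p y => z' p * (gD v tau p y ^ 2 / 2 + al p y * v.wp p y ^ 2 / 2
            - tau p y * v.wp p y * gD v tau p y)
      + z p * (gD v tau p y * gDp v tau taup p y
        + (alp p y * v.wp p y ^ 2 / 2 + al p y * v.wp p y * v.wpp p y)
        - ((taup p y * v.wp p y + tau p y * v.wpp p y) * gD v tau p y
          + tau p y * v.wp p y * gDp v tau taup p y))) := hA'.add hAp2
  have e1 := I2_dp hab hcd hA hAp (by
    intro p hp y hy
    have dz := hzd p hp
    have dg := hasDerivAt_gD_p hv hc hp hy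
    have da := hc.halp p hp y hy
    have dt := hc.htaup p hp y hy
    have dw := hv.hpp p hp y hy
    have := dz.mul ((((dg.pow 2).div_const 2).add (((da.mul (dw.pow 2))).div_const 2)).sub
      ((dt.mul dw).mul dg))
    refine this.congr_deriv ?_
    simp only [Nat.cast_ofNat, Pi.pow_apply, Pi.mul_apply, Pi.sub_apply, Pi.add_apply]
    ring)
  -- the field B
  have hB : CR a b c d (fun p y => z p * v.wp p y * gD v tau p y) := (cz.mul cwp).mul cg
  have hBy : CR a b c d (fun p y => z p * (v.wpy p y * gD v tau p y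
      + v.wp p y * gDy v tau tauy p y)) :=
    cz.mul ((CR.mul hv.cwpy cg).add (cwp.mul cgy))
  have e2 := I2_dy hab hcd hB hBy (by
    intro p hp y hy
    have dg := hasDerivAt_gD_y hv hc hp hy
    have dw := hv.hpy p hp y hy
    have := ((dw.mul dg).const_mul (z p))
    have h3 : (fun t => z p * v.wp p t * gD v tau p t)
        = (fun t => z p * ((fun t => v.wp p t) * fun t => gD v tau p t) t) := by
      funext t; simp only [Pi.mul_apply]; ring
    rw [h3]; exact this)
  have e3 : (∫ p in a..b, z p * v.wp p d * gD v tau p d) = 0 := by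
    rw [← intervalIntegral.integral_zero (a := a) (b := b) (μ := volume)]
    apply intervalIntegral.integral_congr
    intro p hp
    rw [uIcc_of_le hab] at hp
    simp [h0d p hp]
  have e4 : (∫ p in a..b, z p * v.wp p c * gD v tau p c) = 0 := by
    rw [← intervalIntegral.integral_zero (a := a) (b := b) (μ := volume)]
    apply intervalIntegral.integral_congr
    intro p hp
    rw [uIcc_of_le hab] at hp
    simp [h0c p hp]
  rw [e3, e4, sub_zero] at e2
  rw [I2_add hab hcd hA' hAp2] at e1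
  -- pointwise identity
  have hq : CR a b c d (fun p y => z p * alp p y * v.wp p y ^ 2) :=
    (cz.mul hc.calp).mul (cwp.pow 2)
  have e5 : I2 a b c d (fun p y => z p * v.wp p y * L0 v tau taup tauy al alp p y)
      = I2 a b c d (fun p y => (z p * (v.wpy p y * gD v tau p y
      + v.wp p y * gDy v tau tauy p y) - z p * (gD v tau p y * gDp v tau taup p y
        + (alp p y * v.wp p y ^ 2 / 2 + al p y * v.wp p y * v.wpp p y)
        - ((taup p y * v.wp p y + tau p y * v.wpp p y) * gD v tau p y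
          + tau p y * v.wp p y * gDp v tau taup p y)))
          - (1 / 2) * (z p * alp p y * v.wp p y ^ 2)) := by
    apply I2_congr hab hcd
    intro p _ y _
    simp only [L0]
    have hgp : gDp v tau taup p y = v.wpy p y + (taup p y * v.wp p y + tau p y * v.wpp p y) := rfl
    have key : v.wpy p y * gD v tau p y + (taup p y * v.wp p y + tau p y * v.wpp p y)
        * gD v tau p y = gD v tau p y * gDp v tau taup p y := by rw [hgp]; ring
    linear_combination (-z p) * key
  rw [e5, I2_sub hab hcd (hBy.sub hAp2) ((CR.const a b c d _).mul hq),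
    I2_sub hab hcd hBy hAp2, I2_const_mul, e2]
  linarith

/-- **Second identity** (multiplier `om v`). -/
theorem ident2 (hab : a ≤ b) (hcd : c ≤ d) (hv : v.IsJet a b c d)
    (hc : CoefJet a b c d tau taup tauy al alp) {z z' : ℝ → ℝ}
    (hz : ContinuousOn z (Icc a b)) (hz' : ContinuousOn z' (Icc a b))
    (hzd : ∀ p ∈ Ioo a b, HasDerivAt z (z' p) p) :
    I2 a b c d (fun p y => z p * v.w p y * L0 v tau taup tauy al alp p y)
      = - I2 a b c d (fun p y => z p * gD v tau p y ^ 2)
        + I2 a b c d (fun p y => z p * al p y * v.wp p y ^ 2)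
        + I2 a b c d (fun p y => z' p * al p y * v.w p y * v.wp p y)
        - I2 a b c d (fun p y => (z' p * tau p y + z p * taup p y) * v.w p y * gD v tau p y)
        + (∫ p in a..b, z p * v.w p d * gD v tau p d)
        - (∫ p in a..b, z p * v.w p c * gD v tau p c)
        + (∫ y in c..d, z b * v.w b y * (tau b y * gD v tau b y - al b y * v.wp b y))
        - ∫ y in c..d, z a * v.w a y * (tau a y * gD v tau a y - al a y * v.wp a y) := by
  have cz : CR a b c d (fun p _ => z p) := CR.ofP hz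
  have cz' : CR a b c d (fun p _ => z' p) := CR.ofP hz'
  have cw : CR a b c d v.w := hv.cw
  have cwp : CR a b c d v.wp := hv.cwp
  have cg := cr_gD hv hc
  have cgp := cr_gDp hv hc
  have cgy := cr_gDy hv hc
  have cal : CR a b c d al := hc.cal
  have ctau : CR a b c d tau := hc.ctau
  have hA : CR a b c d (fun p y => z p * v.w p y * (tau p y * gD v tau p y
      - al p y * v.wp p y)) := (cz.mul cw).mul ((ctau.mul cg).sub (cal.mul cwp))
  have hT1 : CR a b c d (fun p y => (z' p * tau p y + z p * taup p y) * v.w p y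
      * gD v tau p y) := (((cz'.mul ctau).add (cz.mul hc.ctaup)).mul cw).mul cg
  have hT2 : CR a b c d (fun p y => z' p * al p y * v.w p y * v.wp p y) :=
    ((cz'.mul cal).mul cw).mul cwp
  have hT3 : CR a b c d (fun p y => z p * (v.wp p y * (tau p y * gD v tau p y)
      + v.w p y * (tau p y * gDp v tau taup p y))) :=
    cz.mul ((cwp.mul (ctau.mul cg)).add (cw.mul (ctau.mul cgp)))
  have hT4 : CR a b c d (fun p y => z p * (al p y * v.wp p y ^ 2
      + v.w p y * (alp p y * v.wp p y + al p y * v.wpp p y))) :=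
    cz.mul ((cal.mul (cwp.pow 2)).add (cw.mul ((hc.calp.mul cwp).add (cal.mul hv.cwpp))))
  have e1 := I2_dp hab hcd hA ((hT1.sub hT2).add (hT3.sub hT4)) (by
    intro p hp y hy
    have dz := hzd p hp
    have dg := hasDerivAt_gD_p hv hc hp hy
    have da := hc.halp p hp y hy
    have dt := hc.htaup p hp y hy
    have dw := hv.hpp p hp y hy
    have dv := hv.hp p hp y hy
    have := (dz.mul dv).mul ((dt.mul dg).sub (da.mul dw))
    refine this.congr_deriv ?_
    simp only [Pi.mul_apply, Pi.sub_apply]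
    ring)
  have hB : CR a b c d (fun p y => z p * v.w p y * gD v tau p y) := (cz.mul cw).mul cg
  have hBy : CR a b c d (fun p y => z p * (v.wy p y * gD v tau p y
      + v.w p y * gDy v tau tauy p y)) :=
    cz.mul ((CR.mul hv.cwy cg).add (cw.mul cgy))
  have e2 := I2_dy hab hcd hB hBy (by
    intro p hp y hy
    have dg := hasDerivAt_gD_y hv hc hp hy
    have dw := hv.hy p hp y hy
    have := ((dw.mul dg).const_mul (z p))
    have h3 : (fun t => z p * v.w p t * gD v tau p t)
        = (fun t => z p * ((fun t => v.w p t) * fun t => gD v tau p t) t) := by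
      funext t; simp only [Pi.mul_apply]; ring
    rw [h3]; exact this)
  have h1 : CR a b c d (fun p y => z p * gD v tau p y ^ 2) := cz.mul (cg.pow 2)
  have h2 : CR a b c d (fun p y => z p * al p y * v.wp p y ^ 2) := (cz.mul cal).mul (cwp.pow 2)
  rw [I2_add hab hcd (hT1.sub hT2) (hT3.sub hT4), I2_sub hab hcd hT1 hT2,
    I2_sub hab hcd hT3 hT4] at e1
  have e5 : I2 a b c d (fun p y => z p * v.w p y * L0 v tau taup tauy al alp p y)
      = I2 a b c d (fun p y => (z p * (v.wy p y * gD v tau p y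
      + v.w p y * gDy v tau tauy p y) + (z p * (v.wp p y * (tau p y * gD v tau p y)
      + v.w p y * (tau p y * gDp v tau taup p y)) - z p * (al p y * v.wp p y ^ 2
      + v.w p y * (alp p y * v.wp p y + al p y * v.wpp p y))))
        + (z p * al p y * v.wp p y ^ 2 - z p * gD v tau p y ^ 2)) := by
    apply I2_congr hab hcd
    intro p _ y _
    simp only [L0]
    have hg : gD v tau p y = v.wy p y + tau p y * v.wp p y := rfl
    have key : v.wy p y * gD v tau p y + v.wp p y * (tau p y * gD v tau p y)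
        = gD v tau p y ^ 2 := by
      have : v.wy p y * gD v tau p y + v.wp p y * (tau p y * gD v tau p y)
        = (v.wy p y + tau p y * v.wp p y) * gD v tau p y := by ring
      rw [this, ← hg]; ring
    linear_combination (-z p) * key
  rw [e5, I2_add hab hcd (hBy.add (hT3.sub hT4)) (h2.sub h1), I2_add hab hcd hBy (hT3.sub hT4),
    I2_sub hab hcd hT3 hT4, I2_sub hab hcd h2 h1, e2]
  linarith

end

end

end P229
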