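import Vale.Agent.P229.T.VID
import Vale.Agent.P229.T.Refl
import Vale.Agent.P229.T.CoefB
import Vale.Agent.P229.T.Ell

/-!
# P229 block T: layer estimate  (modules T_LAY, T_LAYB)  (helper75)
-/

namespace P229

open Set Real MeasureTheory
open scoped ContDiff

noncomputable section

theorem lay_poly (x y u : ℝ) : -(x ^ 2 - 1 / 500 * (x * y)) + -(99 / 100 * y ^ 2) +
      1 / 1000 * u * (x + 1 / 1000 * y) + 1 / 1000 * u * y +
      u * (1 / 1000 * y + 1 / 1000 * (x + 1 / 1000 * y)) ≤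
      -(98 / 100) * (x ^ 2 + y ^ 2) + 1 / 100 * u ^ 2 := by
  nlinarith [sq_nonneg (x - y), sq_nonneg (u - x), sq_nonneg (u - y), sq_nonneg x, sq_nonneg y,
    sq_nonneg u]

theorem lay_G2 {x y G : ℝ} (hx0 : 0 ≤ x) (hy0 : 0 ≤ y) (h1 : x - 1 / 1000 * y ≤ |G|) :
    x ^ 2 - 1 / 500 * (x * y) ≤ G ^ 2 := by
  rcases le_total 0 (x - 1 / 1000 * y) with h0 | h0
  · have h3 := pow_le_pow_left₀ h0 h1 2
    rw [sq_abs] at h3
    nlinarith [sq_nonneg y]
  · have h5 : 0 ≤ x * (1 / 1000 * y - x) := mul_nonneg hx0 (by linarith)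
    have h6 : 0 ≤ x * y := mul_nonneg hx0 hy0
    have h4 : x ^ 2 - 1 / 500 * (x * y) ≤ 0 := by nlinarith
    exact h4.trans (sq_nonneg _)

/-- pointwise inequality -/
theorem lay_ptw {v vy vp t tp a d g2 h w w' m l e0 : ℝ} (hw : 0 ≤ w) (hm : 0 ≤ m)
    (hw' : |w'| ≤ l * w) (ht : t ^ 2 ≤ (1 / 1000) ^ 2 * m) (hd : d ^ 2 ≤ (1 / 1000) ^ 2 * m)
    (ha : (l * a) ^ 2 ≤ (1 / 1000) ^ 2 * m) (hg2 : g2 ^ 2 ≤ (1 / 1000) ^ 2) (hl : 0 ≤ l)
    (htp : l * |t| + |tp| ≤ 1 / 1000) (ha1 : a ≤ -(99 / 100 * m)) (hv : |v| ≤ 1)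
    (hh : |h| ≤ e0) :
    (-(w * (vy + t * vp) ^ 2) + w * a * vp ^ 2
        - (w' * t + w * tp) * v * (vy + t * vp)
        + w' * a * v * vp
        + w * v * (d * vp + g2 * (vy + t * vp))) - w * v * h ≤
      -(98 / 100) * (w * (vy ^ 2 + m * vp ^ 2)) + 1 / 100 * (w * v ^ 2) + e0 * w := by
  obtain ⟨σ, hσ⟩ : ∃ σ, σ = Real.sqrt m := ⟨_, rfl⟩
  have hσ0 : 0 ≤ σ := by rw [hσ]; exact Real.sqrt_nonneg _
  have hσ2 : σ ^ 2 = m := by rw [hσ]; exact Real.sq_sqrt hm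
  have e1 : (1 / 1000 : ℝ) ^ 2 * m = (1 / 1000 * σ) ^ 2 := by rw [mul_pow, hσ2]
  rw [e1] at ht hd ha
  have hs0 : 0 ≤ 1 / 1000 * σ := by positivity
  have ht' : |t| ≤ 1 / 1000 * σ := abs_le_of_sq_le_sq ht hs0
  have hd' : |d| ≤ 1 / 1000 * σ := abs_le_of_sq_le_sq hd hs0
  have ha' : |l * a| ≤ 1 / 1000 * σ := abs_le_of_sq_le_sq ha hs0
  have hg' : |g2| ≤ 1 / 1000 := abs_le_of_sq_le_sq hg2 (by norm_num)
  obtain ⟨x, hx⟩ : ∃ x, x = |vy| := ⟨_, rfl⟩
  obtain ⟨y, hy⟩ : ∃ y, y = σ * |vp| := ⟨_, rfl⟩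
  obtain ⟨u, hu⟩ : ∃ u, u = |v| := ⟨_, rfl⟩
  have hx0 : 0 ≤ x := hx ▸ abs_nonneg _
  have hy0 : 0 ≤ y := hy ▸ mul_nonneg hσ0 (abs_nonneg _)
  have hu0 : 0 ≤ u := hu ▸ abs_nonneg _
  have hx2 : x ^ 2 = vy ^ 2 := by rw [hx, sq_abs]
  have hy2 : y ^ 2 = m * vp ^ 2 := by rw [hy, mul_pow, sq_abs, hσ2]
  have hu2 : u ^ 2 = v ^ 2 := by rw [hu, sq_abs]
  have htv : |t * vp| ≤ 1 / 1000 * y := by
    rw [abs_mul, hy]
    calc |t| * |vp| ≤ 1 / 1000 * σ * |vp| := mul_le_mul_of_nonneg_right ht' (abs_nonneg _)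
      _ = 1 / 1000 * (σ * |vp|) := by ring
  have hdv : |d * vp| ≤ 1 / 1000 * y := by
    rw [abs_mul, hy]
    calc |d| * |vp| ≤ 1 / 1000 * σ * |vp| := mul_le_mul_of_nonneg_right hd' (abs_nonneg _)
      _ = 1 / 1000 * (σ * |vp|) := by ring
  have hav : l * |a| * |vp| ≤ 1 / 1000 * y := by
    rw [abs_mul, abs_of_nonneg hl] at ha'
    rw [hy]
    calc l * |a| * |vp| ≤ 1 / 1000 * σ * |vp| := mul_le_mul_of_nonneg_right ha' (abs_nonneg _)
      _ = 1 / 1000 * (σ * |vp|) := by ring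
  obtain ⟨G, hG⟩ : ∃ G, G = vy + t * vp := ⟨_, rfl⟩
  have hG1 : |G| ≤ x + 1 / 1000 * y := by
    rw [hG, hx]
    exact (abs_add_le _ _).trans (add_le_add le_rfl htv)
  have hG2 : x ^ 2 - 1 / 500 * (x * y) ≤ G ^ 2 := by
    apply lay_G2 hx0 hy0
    have h2 : |vy| - |t * vp| ≤ |vy + t * vp| := by
      have := abs_sub_abs_le_abs_sub vy (-(t * vp))
      rwa [abs_neg, sub_neg_eq_add] at this
    rw [hG, hx]
    linarith [htv]
  rw [← hG]
  -- the terms
  have T1 : w * a * vp ^ 2 ≤ w * (-(99 / 100 * y ^ 2)) := by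
    rw [hy2, mul_assoc]
    refine mul_le_mul_of_nonneg_left ?_ hw
    have := mul_le_mul_of_nonneg_right ha1 (sq_nonneg vp)
    linarith
  have T2 : -((w' * t + w * tp) * v * G) ≤ w * (1 / 1000 * u * (x + 1 / 1000 * y)) := by
    have h1 : |w' * t + w * tp| ≤ w * (1 / 1000) := by
      calc |w' * t + w * tp| ≤ |w' * t| + |w * tp| := abs_add_le _ _
        _ = |w'| * |t| + w * |tp| := by rw [abs_mul, abs_mul, abs_of_nonneg hw]
        _ ≤ l * w * |t| + w * |tp| :=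
          add_le_add (mul_le_mul_of_nonneg_right hw' (abs_nonneg _)) le_rfl
        _ = w * (l * |t| + |tp|) := by ring
        _ ≤ w * (1 / 1000) := mul_le_mul_of_nonneg_left htp hw
    calc -((w' * t + w * tp) * v * G) ≤ |(w' * t + w * tp) * v * G| := neg_le_abs _
      _ = |w' * t + w * tp| * u * |G| := by rw [abs_mul, abs_mul, hu]
      _ ≤ (w * (1 / 1000)) * u * (x + 1 / 1000 * y) := by gcongr
      _ = _ := by ring
  have T3 : w' * a * v * vp ≤ w * (1 / 1000 * u * y) := by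
    calc w' * a * v * vp ≤ |w' * a * v * vp| := le_abs_self _
      _ = |w'| * |a| * u * |vp| := by rw [abs_mul, abs_mul, abs_mul, hu]
      _ ≤ (l * w) * |a| * u * |vp| := by gcongr
      _ = w * u * (l * |a| * |vp|) := by ring
      _ ≤ w * u * (1 / 1000 * y) := mul_le_mul_of_nonneg_left hav (mul_nonneg hw hu0)
      _ = _ := by ring
  have T4 : w * v * (d * vp + g2 * G) ≤ w * (u * (1 / 1000 * y + 1 / 1000 * (x + 1 / 1000 * y))) := by
    calc w * v * (d * vp + g2 * G) ≤ |w * v * (d * vp + g2 * G)| := le_abs_self _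
      _ = w * u * |d * vp + g2 * G| := by rw [abs_mul, abs_mul, abs_of_nonneg hw, hu]
      _ ≤ w * u * (1 / 1000 * y + 1 / 1000 * (x + 1 / 1000 * y)) := by
          refine mul_le_mul_of_nonneg_left ?_ (mul_nonneg hw hu0)
          refine (abs_add_le _ _).trans (add_le_add hdv ?_)
          rw [abs_mul]
          exact mul_le_mul hg' hG1 (abs_nonneg _) (by norm_num)
      _ = _ := by ring
  have T5 : -(w * v * h) ≤ w * e0 := by
    calc -(w * v * h) ≤ |w * v * h| := neg_le_abs _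
      _ = w * (|v| * |h|) := by rw [abs_mul, abs_mul, abs_of_nonneg hw]; ring
      _ ≤ w * (1 * e0) := by gcongr
      _ = w * e0 := by rw [one_mul]
  have T6 : -(w * G ^ 2) ≤ w * (-(x ^ 2 - 1 / 500 * (x * y))) := by
    have := mul_le_mul_of_nonneg_left hG2 hw
    linarith
  have key := lay_poly x y u
  have key2 := mul_le_mul_of_nonneg_left key hw
  rw [← hx2, ← hy2, ← hu2]
  have e2 : w * (-(x ^ 2 - 1 / 500 * (x * y)) + -(99 / 100 * y ^ 2) +
      1 / 1000 * u * (x + 1 / 1000 * y) + 1 / 1000 * u * y +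
      u * (1 / 1000 * y + 1 / 1000 * (x + 1 / 1000 * y))) =
      w * (-(x ^ 2 - 1 / 500 * (x * y))) + w * (-(99 / 100 * y ^ 2)) +
      w * (1 / 1000 * u * (x + 1 / 1000 * y)) + w * (1 / 1000 * u * y) +
      w * (u * (1 / 1000 * y + 1 / 1000 * (x + 1 / 1000 * y))) := by ring
  have e3 : w * (-(98 / 100) * (x ^ 2 + y ^ 2) + 1 / 100 * u ^ 2) =
      -(98 / 100) * (w * (x ^ 2 + y ^ 2)) + 1 / 100 * (w * u ^ 2) := by ring
  rw [e2, e3] at key2
  linarith

/-- smallness of all parameters in the layers -/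
theorem lay_small (C : ℝ) (hC : 1 ≤ C) (k b : ℕ) (hk : 10 ≤ k) :
    ∃ r0 : ℝ, 0 < r0 ∧ r0 ≤ 1 ∧ ∀ r : ℝ, 0 < r → r < r0 →
      ∀ (mu : ℝ) (ast : ℝ → ℝ) (κ : Coef), 1 / C ≤ mu → mu ≤ C →
      κ.Good ⟨r, k, b⟩ mu C ast → (Par.mk r k b).lam ≤ 1 ∧
      ∀ p ∈ Icc (-(7 / 5) : ℝ) (7 / 5), ∀ y ∈ Icc 2 YY,
        0 ≤ mu * md ⟨r, k, b⟩ y ∧ mu * md ⟨r, k, b⟩ y ≤ 1 ∧
        κ.t p y ^ 2 ≤ (1 / 1000) ^ 2 * (mu * md ⟨r, k, b⟩ y) ∧
        κ.d p y ^ 2 ≤ (1 / 1000) ^ 2 * (mu * md ⟨r, k, b⟩ y) ∧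
        (3 / WW ⟨r, k, b⟩ C * κ.a p y) ^ 2 ≤ (1 / 1000) ^ 2 * (mu * md ⟨r, k, b⟩ y) ∧
        κ.g p y ^ 2 ≤ (1 / 1000) ^ 2 ∧
        3 / WW ⟨r, k, b⟩ C * |κ.t p y| + |κ.tp p y| ≤ 1 / 1000 ∧
        κ.a p y ≤ -(99 / 100 * (mu * md ⟨r, k, b⟩ y)) ∧ |κ.a p y| ≤ 101 / 100 * (mu * md ⟨r, k, b⟩ y) ∧
        |κ.t p y| ≤ 1 := by
  have hC0 : 0 < C := by linarith
  refine ⟨1 / (1000 * C), by positivity, ?_, ?_⟩
  · rw [div_le_one (by positivity)]
    linarith
  intro r hr0 hr mu ast κ hm1 hm2 hκ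
  have hrC : r * (1000 * C) < 1 := by rwa [lt_div_iff₀ (by positivity)] at hr
  have hr1 : r ≤ 1 := by nlinarith
  obtain ⟨s, hs⟩ : ∃ s, s = r ^ (10 * k) := ⟨_, rfl⟩
  have hs0 : 0 < s := by rw [hs]; positivity
  have hs1 : s ≤ 1 := by rw [hs]; exact pow_le_one₀ hr0.le hr1
  have hsr : s ≤ r := by
    rw [hs]
    calc r ^ (10 * k) ≤ r ^ 1 := pow_le_pow_of_le_one hr0.le hr1 (by omega)
      _ = r := pow_one _
  have heps : (Par.mk r k b).eps = s ^ 2 := by
    unfold Par.eps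
    rw [hs, ← pow_mul]
    congr 1
    ring
  have hPs : (Par.mk r k b).s = s := hs.symm
  have hmu0 : 0 < mu := lt_of_lt_of_le (by positivity) hm1
  refine ⟨pow_le_one₀ hr0.le hr1, ?_⟩
  intro p hp y hy
  have hy' : y ∈ Icc (-YY) YY := ⟨by unfold YY; linarith [hy.1], hy.2⟩
  have hy2 : 2 ≤ |y| := by rw [abs_of_nonneg (by linarith [hy.1])]; exact hy.1
  have m0 : 0 ≤ md ⟨r, k, b⟩ y := md_nonneg _ hr0 y
  have m1 : md ⟨r, k, b⟩ y ≤ s ^ 2 := heps ▸ md_le_eps _ hr0 hr1 y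
  have bt := hκ.bt p hp y hy'
  have btp := hκ.btp p hp y hy'
  have bd := hκ.bd p hp y hy'
  have bg := hκ.bg p hp y hy'
  have l1 := hκ.lay1 p hp y hy' hy2
  rw [heps] at bg
  unfold WW KW
  rw [hPs]
  change |κ.t p y| ≤ C * r ^ 2 * _ at bt
  change |κ.tp p y| ≤ C * r ^ 2 * _ at btp
  change |κ.d p y| ≤ C * r ^ 2 * _ at bd
  change κ.g p y ^ 2 ≤ C * r ^ 4 * _ * _ at bg
  revert m0 m1 bt btp bd bg l1
  generalize md ⟨r, k, b⟩ y = m
  generalize κ.t p y = t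
  generalize κ.tp p y = tp
  generalize κ.d p y = d
  generalize κ.g p y = g
  generalize κ.a p y = a
  intro m0 m1 l1 bt btp bd bg
  -- elementary facts
  have hm : m ≤ C * (mu * m) := by
    have h1 : 1 ≤ C * mu := by
      rw [div_le_iff₀ hC0] at hm1
      linarith
    have h2 := mul_le_mul_of_nonneg_right h1 m0
    linarith
  have hM0 : 0 ≤ mu * m := mul_nonneg hmu0.le m0
  have hs2 : s ^ 2 ≤ s := by nlinarith
  have hCr : C * r ≤ 1 / 1000 := by linarith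
  have hCr0 : 0 ≤ C * r := by positivity
  have hr3 : r ≤ 1 / 1000 := by
    have : 1 * r ≤ C * r := mul_le_mul_of_nonneg_right hC hr0.le
    linarith
  have m1' : m ≤ 1 := m1.trans (pow_le_one₀ hs0.le hs1)
  have hCs : C * s ≤ 1 / 1000 := (mul_le_mul_of_nonneg_left hsr hC0.le).trans hCr
  have hsq : ∀ x : ℝ, |x| ≤ C * r ^ 2 * m → x ^ 2 ≤ (1 / 1000) ^ 2 * (mu * m) := by
    intro x hx
    have h1 : x ^ 2 ≤ (C * r ^ 2 * m) ^ 2 := by
      rw [← sq_abs x]
      exact pow_le_pow_left₀ (abs_nonneg _) hx 2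
    refine h1.trans ?_
    have h2 : (C * r ^ 2 * m) ^ 2 = (C * r) ^ 2 * (r ^ 2 * m) * m := by ring
    rw [h2]
    have h3 : r ^ 2 * m * m ≤ mu * m := by
      calc r ^ 2 * m * m ≤ r ^ 2 * m * (C * (mu * m)) := by gcongr
        _ = ((C * r) * (r * m)) * (mu * m) := by ring
        _ ≤ ((1 / 1000) * (1 * 1)) * (mu * m) := by gcongr
        _ ≤ mu * m := by linarith
    calc (C * r) ^ 2 * (r ^ 2 * m) * m = (C * r) ^ 2 * (r ^ 2 * m * m) := by ring
      _ ≤ (1 / 1000) ^ 2 * (mu * m) := by gcongr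
  refine ⟨hM0, ?_, hsq t bt, hsq d bd, ?_, ?_, ?_, ?_, ?_, ?_⟩
  · calc mu * m ≤ C * s ^ 2 := by gcongr
      _ ≤ C * s := by gcongr
      _ ≤ 1 := by linarith
  · -- `a`
    have h1 : a ^ 2 ≤ (101 / 100 * (mu * m)) ^ 2 := by
      rw [← sq_abs a]
      apply pow_le_pow_left₀ (abs_nonneg _)
      rw [abs_le]
      constructor <;> linarith [l1.1, l1.2]
    have h2 : (3 / (10 ^ 5 * C ^ 2 * s) * a) ^ 2 = 9 * a ^ 2 / (10 ^ 10 * C ^ 4 * s ^ 2) := by
      rw [div_mul_eq_mul_div, div_pow]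
      congr 1 <;> ring
    rw [h2, div_le_iff₀ (by positivity)]
    have h3 : mu * m ≤ C * s ^ 2 := by gcongr
    have h4 : (101 / 100 * (mu * m)) ^ 2 ≤ 2 * (mu * m) * (C * s ^ 2) := by
      have : (101 / 100 * (mu * m)) ^ 2 = (101 / 100) ^ 2 * (mu * m) * (mu * m) := by ring
      rw [this]
      have : (101 / 100 : ℝ) ^ 2 ≤ 2 := by norm_num
      gcongr
    have h5 : 9 * a ^ 2 ≤ 18 * (mu * m) * (C * s ^ 2) := by linarith
    refine h5.trans ?_
    have h6 : (1 / 1000 : ℝ) ^ 2 * (mu * m) * (10 ^ 10 * C ^ 4 * s ^ 2) =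
        10000 * C ^ 3 * ((mu * m) * (C * s ^ 2)) := by ring
    rw [h6]
    have h7 : (1 : ℝ) ≤ C ^ 3 := one_le_pow₀ hC
    have h8 : 0 ≤ (mu * m) * (C * s ^ 2) := by positivity
    have h9 : 1 * ((mu * m) * (C * s ^ 2)) ≤ C ^ 3 * ((mu * m) * (C * s ^ 2)) :=
      mul_le_mul_of_nonneg_right h7 h8
    have h10 : 18 * (mu * m) * (C * s ^ 2) = 18 * ((mu * m) * (C * s ^ 2)) := by ring
    have h11 : 10000 * C ^ 3 * ((mu * m) * (C * s ^ 2)) =
      10000 * (C ^ 3 * ((mu * m) * (C * s ^ 2))) := by ring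
    rw [h10, h11]
    linarith
  · -- `g`
    calc g ^ 2 ≤ C * r ^ 4 * s ^ 2 * m := bg
      _ = (C * r) * (r ^ 3 * s ^ 2 * m) := by ring
      _ ≤ (C * r) * (r * 1 * 1) := by
          have : r ^ 3 ≤ r := by
            calc r ^ 3 ≤ r ^ 1 := pow_le_pow_of_le_one hr0.le hr1 (by norm_num)
              _ = r := pow_one _
          have : s ^ 2 ≤ 1 := pow_le_one₀ hs0.le hs1
          gcongr
      _ ≤ (1 / 1000) * (1 / 1000) := by
          rw [mul_one, mul_one]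
          gcongr
      _ = (1 / 1000) ^ 2 := by norm_num
  · -- `t`
    have h1 : 3 / (10 ^ 5 * C ^ 2 * s) * |t| ≤ 1 / 2000 := by
      rw [div_mul_eq_mul_div, div_le_iff₀ (by positivity)]
      have h2 : |t| ≤ C * r ^ 2 * s ^ 2 := bt.trans (by gcongr)
      have h3 : C * r ^ 2 * s ^ 2 = (C * r) * r * s * s := by ring
      have h4 : (C * r) * r * s * s ≤ (1 / 1000) * 1 * 1 * s := by gcongr
      have h5 : (1 : ℝ) ≤ C ^ 2 := one_le_pow₀ hC
      have h6 : 1 * s ≤ C ^ 2 * s := mul_le_mul_of_nonneg_right h5 hs0.le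
      rw [h3] at h2
      have h7 : 1 / 2000 * (10 ^ 5 * C ^ 2 * s) = 50 * (C ^ 2 * s) := by ring
      rw [h7]
      linarith
    have h2 : |tp| ≤ 1 / 2000 := by
      refine btp.trans ?_
      have h3 : C * r ^ 2 * m = (C * r) * (r * m) := by ring
      rw [h3]
      have h4 : r ≤ 1 / 1000 := hr3
      calc (C * r) * (r * m) ≤ (1 / 1000) * (1 / 1000 * 1) := by gcongr
        _ ≤ 1 / 2000 := by norm_num
    linarith
  · linarith [l1.1]
  · rw [abs_le]
    constructor <;> linarith [l1.1, l1.2]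
  · refine bt.trans ?_
    calc C * r ^ 2 * m = (C * r) * (r * m) := by ring
      _ ≤ (1 / 1000) * (1 * 1) := by gcongr
      _ ≤ 1 := by norm_num

/-- boundary integrand -/
theorem lay_bd {v vy vp t a m : ℝ} (hm : 0 ≤ m) (hm1 : m ≤ 1) (ht : |t| ≤ 1)
    (ht2 : t ^ 2 ≤ (1 / 1000) ^ 2 * m) (ha : |a| ≤ 101 / 100 * m) :
    |t * v * (vy + t * vp) - a * v * vp| ≤ 2 * (v ^ 2 + (vy ^ 2 + m * vp ^ 2)) := by
  have h1 : |t * v * (vy + t * vp)| ≤ 1 / 2 * (v ^ 2 + (vy + t * vp) ^ 2) := by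
    rw [abs_mul, abs_mul]
    have h2 : |t| * |v| * |vy + t * vp| ≤ 1 * |v| * |vy + t * vp| := by gcongr
    have h3 : 0 ≤ (|v| - |vy + t * vp|) ^ 2 := sq_nonneg _
    have h4 : (|v| - |vy + t * vp|) ^ 2 = v ^ 2 - 2 * (|v| * |vy + t * vp|) + (vy + t * vp) ^ 2 := by
      rw [sub_sq, sq_abs, sq_abs]
      ring
    linarith
  have h5 : (vy + t * vp) ^ 2 ≤ 2 * vy ^ 2 + 2 * (m * vp ^ 2) := by
    have h6 : t ^ 2 * vp ^ 2 ≤ m * vp ^ 2 := by
      refine mul_le_mul_of_nonneg_right ?_ (sq_nonneg _)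
      refine ht2.trans ?_
      linarith
    have h7 : 0 ≤ (vy - t * vp) ^ 2 := sq_nonneg _
    have h8 : (vy + t * vp) ^ 2 + (vy - t * vp) ^ 2 = 2 * vy ^ 2 + 2 * (t ^ 2 * vp ^ 2) := by ring
    linarith
  have h9 : |a * v * vp| ≤ 101 / 200 * (v ^ 2 + m * vp ^ 2) := by
    rw [abs_mul, abs_mul]
    have h10 : |a| * |v| * |vp| ≤ 101 / 100 * m * |v| * |vp| := by gcongr
    have h11 : 0 ≤ m * (|v| - |vp|) ^ 2 := mul_nonneg hm (sq_nonneg _)
    have h12 : m * (|v| - |vp|) ^ 2 = m * v ^ 2 - 2 * (m * |v| * |vp|) + m * vp ^ 2 := by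
      rw [sub_sq, sq_abs, sq_abs]
      ring
    have h13 : m * v ^ 2 ≤ 1 * v ^ 2 := mul_le_mul_of_nonneg_right hm1 (sq_nonneg _)
    linarith
  have h14 := abs_sub (t * v * (vy + t * vp)) (a * v * vp)
  have h15 : 0 ≤ m * vp ^ 2 := mul_nonneg hm (sq_nonneg _)
  have h16 := sq_nonneg vy
  have h17 := sq_nonneg v
  linarith

theorem LAY (C : ℝ) (hC : 1 ≤ C) (k b N : ℕ) (hk : 10 ≤ k) (hN : 100 * (k + 1) ≤ N) :
    ∃ C' r0 : ℝ, 0 < C' ∧ 0 < r0 ∧ ∀ r : ℝ, 0 < r → r < r0 →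
      ∀ (mu : ℝ) (ast : ℝ → ℝ) (V : J2) (h : ℝ → ℝ → ℝ), 1 / C ≤ mu → mu ≤ C →
        TData ⟨r, k, b⟩ mu C N ast V h →
        ∀ ps pt : ℝ, ps ∈ Icc (-(27 / 20) : ℝ) (-(5 / 4)) → ps ≤ pt → pt ≤ 1 / 100 →
        ∀ z w w' : ℝ → ℝ, Wt ⟨r, k, b⟩ C N pt z w w' →
        (∫ y in (-YY)..YY, en ⟨r, k, b⟩ mu V ps y) ≤ r ^ N →
        II ps pt 2 YY (fun p y => w p * en ⟨r, k, b⟩ mu V p y)
          ≤ 14 / 100 * (∫ p in ps..pt, w p * V.wy p 2 ^ 2) + C' * r ^ N := by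
  obtain ⟨r0, hr00, hr01, hsm⟩ := lay_small C hC k b hk
  refine ⟨100, r0, by norm_num, hr00, ?_⟩
  intro r hr0 hr mu ast V h hm1 hm2 T ps pt hps hpp hpt z w w' W hE
  have hr1 : r ≤ 1 := hr.le.trans hr01
  have YY2 : YY = 2 + 1 / 20 := by unfold YY; norm_num
  have h2Y : (2 : ℝ) ≤ YY := by rw [YY2]; norm_num
  have hps1 : -(7 / 5) ≤ ps := by linarith [hps.1]
  have hpt1 : pt ≤ 7 / 5 := by linarith
  have hY2 : -YY ≤ 2 := by linarith
  have hmu0 : 0 < mu := lt_of_lt_of_le (by positivity) hm1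
  have cw : Continuous w := continuous_iff_continuousAt.2 fun p => (W.hw p).continuousAt
  have wpos : ∀ p, 0 ≤ w p := fun p => (W.zpos p).le.trans (W.zw p)
  have jet := J2.IsJet.mono T.jet hps1 hpt1 hY2 le_rfl
  have cW : CR ps pt 2 YY (fun p _ => w p) := CR.ofP cw.continuousOn
  have cW' : CR ps pt 2 YY (fun p _ => w' p) := CR.ofP W.cw'.continuousOn
  have cv : CR ps pt 2 YY V.w := jet.cw
  have cvp : CR ps pt 2 YY V.wp := jet.cwp
  have cvy : CR ps pt 2 YY V.wy := jet.cwy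
  have ch : CR ps pt 2 YY h := ContinuousOn.mono T.ch (strip_sub hps1 hpt1 hY2 le_rfl)
  have cm : CR ps pt 2 YY (fun _ y => mu * md ⟨r, k, b⟩ y) :=
    CR.ofY (continuous_const.mul (md_cont _)).continuousOn
  obtain ⟨κ, hκ, hweak⟩ := T.weak ps pt 2 YY hps1 hpp hpt1 hY2 h2Y le_rfl
    (fun p y => w p * V.w p y) (cW.mul cv)
  obtain ⟨hlam, hs⟩ := hsm r hr0 hr mu ast κ hm1 hm2 hκ
  have hv := vid T.jet hκ hps1 hpp hpt1 hY2 h2Y le_rfl W.hw W.cw'
  have cJ := (hκ.coefJet0).mono hps1 hpt1 hY2 le_rfl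
  have cg : CR ps pt 2 YY (κ.gd V) := cr_gD jet cJ
  have ct : CR ps pt 2 YY κ.t := cJ.ctau
  have ctp : CR ps pt 2 YY κ.tp := cJ.ctaup
  have ca : CR ps pt 2 YY κ.a := cJ.cal
  have cd : CR ps pt 2 YY κ.d := hκ.cr_d hps1 hpt1 hY2 le_rfl
  have cgg : CR ps pt 2 YY κ.g := hκ.cr_g hps1 hpt1 hY2 le_rfl
  have hin : ∀ p ∈ Icc ps pt, p ∈ Icc (-(7 / 5) : ℝ) (7 / 5) := fun p hp =>
    ⟨hps1.trans hp.1, hp.2.trans hpt1⟩
  have hinY : ∀ y ∈ Icc 2 YY, y ∈ Icc (-YY) YY := fun y hy => ⟨hY2.trans hy.1, hy.2⟩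
  -- the integrand
  have cR : CR ps pt 2 YY (fun p y =>
            -(w p * κ.gd V p y ^ 2) + w p * κ.a p y * V.wp p y ^ 2
              - (w' p * κ.t p y + w p * κ.tp p y) * V.w p y * κ.gd V p y
              + w' p * κ.a p y * V.w p y * V.wp p y
              + w p * V.w p y * (κ.d p y * V.wp p y + κ.g p y * κ.gd V p y)) :=
    (((((cW.mul (cg.pow 2)).neg).add ((cW.mul ca).mul (cvp.pow 2))).sub
      ((((cW'.mul ct).add (cW.mul ctp)).mul cv).mul cg)).add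
      (((cW'.mul ca).mul cv).mul cvp)).add ((cW.mul cv).mul ((cd.mul cvp).add (cgg.mul cg)))
  have cF : CR ps pt 2 YY (fun p y => w p * V.w p y * h p y) := (cW.mul cv).mul ch
  have cE : CR ps pt 2 YY (fun p y => w p * en ⟨r, k, b⟩ mu V p y) := by
    unfold en
    exact cW.mul ((cvy.pow 2).add (cm.mul (cvp.pow 2)))
  have cV2 : CR ps pt 2 YY (fun p y => w p * V.w p y ^ 2) := cW.mul (cv.pow 2)
  obtain ⟨S, hS⟩ : ∃ S, S = II ps pt 2 YY (fun p y => w p * en ⟨r, k, b⟩ mu V p y) := ⟨_, rfl⟩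
  obtain ⟨Θ, hΘ⟩ : ∃ Θ, Θ = ∫ p in ps..pt, w p * V.wy p 2 ^ 2 := ⟨_, rfl⟩
  have hen0 : ∀ p y, 0 ≤ en ⟨r, k, b⟩ mu V p y := fun p y =>
    add_nonneg (sq_nonneg _) (mul_nonneg (mul_nonneg hmu0.le (md_nonneg _ hr0 y)) (sq_nonneg _))
  have hvye : ∀ p y, V.wy p y ^ 2 ≤ en ⟨r, k, b⟩ mu V p y := fun p y => by
    unfold en
    have := mul_nonneg (mul_nonneg hmu0.le (md_nonneg ⟨r, k, b⟩ hr0 y)) (sq_nonneg (V.wp p y))
    linarith
  have hS1 : II ps pt 2 YY (fun p y => w p * V.wy p y ^ 2) ≤ S := by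
    rw [hS]
    exact II_mono hpp h2Y (cW.mul (cvy.pow 2)) cE fun p _ y _ =>
      mul_le_mul_of_nonneg_left (hvye p y) (wpos p)
  have hS0 : 0 ≤ S := by
    rw [hS]
    exact II_nonneg hpp h2Y fun p _ y _ => mul_nonneg (wpos p) (hen0 p y)
  have htop : ∀ p ∈ Icc ps pt, V.w p YY = 0 := fun p hp => T.top p (hin p hp)
  -- (1) the integral of the weight
  have hW : II ps pt 2 YY (fun p _ => w p) ≤ 1 / 2 := by
    have e1 : II ps pt 2 YY (fun p _ => w p) = (1 / 20) * ∫ p in ps..pt, w p := by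
      unfold II
      rw [← intervalIntegral.integral_const_mul]
      refine intervalIntegral.integral_congr fun p _ => ?_
      simp only [intervalIntegral.integral_const, smul_eq_mul]
      rw [YY2]
      ring
    have e2 : ∫ p in ps..pt, w p = -z pt - -z ps := by
      apply intervalIntegral.integral_eq_sub_of_hasDerivAt
      · intro p _
        have := (W.hz p).neg
        rwa [neg_neg] at this
      · exact cw.intervalIntegrable _ _
    rw [e1, e2]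
    have := W.zpos pt
    have := W.zle ps hps1
    linarith
  -- (2) Poincare
  have hP : II ps pt 2 YY (fun p y => w p * V.w p y ^ 2) ≤ 1 / 400 * S := by
    have h1 : II ps pt 2 YY (fun p y => w p * V.w p y ^ 2) ≤
        (YY - 2) ^ 2 * II ps pt 2 YY (fun p y => w p * V.wy p y ^ 2) :=
      I2_poincare hpp h2Y jet cw.continuousOn (fun p _ => wpos p) htop
    have e : (YY - 2) ^ 2 = 1 / 400 := by rw [YY2]; norm_num
    rw [e] at h1
    linarith
  -- (3) the trace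
  have hTr : (∫ p in ps..pt, w p * V.w p 2 ^ 2) ≤ 1 / 20 * S := by
    have h1 : (∫ p in ps..pt, w p * V.w p 2 ^ 2) ≤
        (YY - 2) * II ps pt 2 YY (fun p y => w p * V.wy p y ^ 2) :=
      trace_le hpp h2Y jet cw.continuousOn (fun p _ => wpos p) htop
    have e : YY - 2 = 1 / 20 := by rw [YY2]; norm_num
    rw [e] at h1
    linarith
  -- (4) the boundary term at `y = 2`
  have hB1 : (∫ p in ps..pt, w p * (V.w p YY * κ.gd V p YY - V.w p 2 * κ.gd V p 2)) ≤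
      1 / 2 * S + 1 / 40 * Θ := by
    have i1 : IntervalIntegrable (fun p => w p * (V.w p YY * κ.gd V p YY -
        V.w p 2 * κ.gd V p 2)) volume ps pt := by
      apply ContinuousOn.intervalIntegrable_of_Icc hpp
      have a1 := cv.outer (y := YY) (right_mem_Icc.2 h2Y)
      have a2 := cg.outer (y := YY) (right_mem_Icc.2 h2Y)
      have a3 := cv.outer (y := 2) (left_mem_Icc.2 h2Y)
      have a4 := cg.outer (y := 2) (left_mem_Icc.2 h2Y)
      exact cw.continuousOn.mul ((a1.mul a2).sub (a3.mul a4))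
    have i2 : IntervalIntegrable (fun p => 10 * (w p * V.w p 2 ^ 2)) volume ps pt := by
      apply ContinuousOn.intervalIntegrable_of_Icc hpp
      have a3 := cv.outer (y := 2) (left_mem_Icc.2 h2Y)
      exact continuousOn_const.mul (cw.continuousOn.mul (a3.pow 2))
    have i3 : IntervalIntegrable (fun p => 1 / 40 * (w p * V.wy p 2 ^ 2)) volume ps pt := by
      apply ContinuousOn.intervalIntegrable_of_Icc hpp
      have a3 := cvy.outer (y := 2) (left_mem_Icc.2 h2Y)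
      exact continuousOn_const.mul (cw.continuousOn.mul (a3.pow 2))
    have hle : (∫ p in ps..pt, w p * (V.w p YY * κ.gd V p YY - V.w p 2 * κ.gd V p 2)) ≤
        ∫ p in ps..pt, (10 * (w p * V.w p 2 ^ 2) + 1 / 40 * (w p * V.wy p 2 ^ 2)) := by
      apply intervalIntegral.integral_mono_on hpp i1 (i2.add i3)
      intro p hp
      have t0 : κ.t p 2 = 0 := by
        have h1 := hκ.bt p (hin p hp) 2 ⟨hY2, h2Y⟩
        rw [md_gap _ (by norm_num) (by norm_num), mul_zero] at h1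
        exact abs_nonpos_iff.1 h1
      have e1 : κ.gd V p 2 = V.wy p 2 := by
        unfold Coef.gd
        rw [t0]
        ring
      rw [htop p hp, e1]
      have h2 : 0 ≤ w p * (20 * V.w p 2 + V.wy p 2) ^ 2 := mul_nonneg (wpos p) (sq_nonneg _)
      have h3 : w p * (20 * V.w p 2 + V.wy p 2) ^ 2 = 400 * (w p * V.w p 2 ^ 2) +
        40 * (w p * (V.w p 2 * V.wy p 2)) + w p * V.wy p 2 ^ 2 := by ring
      have h4 : w p * (0 * κ.gd V p YY - V.w p 2 * V.wy p 2) =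
        -(w p * (V.w p 2 * V.wy p 2)) := by ring
      rw [h4]
      linarith
    rw [intervalIntegral.integral_add i2 i3, intervalIntegral.integral_const_mul,
      intervalIntegral.integral_const_mul, ← hΘ] at hle
    linarith
  -- (5) the boundary terms at `p = ps, pt`
  have hbd : ∀ p ∈ Icc ps pt, ∀ y ∈ Icc 2 YY,
      |κ.t p y * V.w p y * κ.gd V p y - κ.a p y * V.w p y * V.wp p y| ≤
        2 * (V.w p y ^ 2 + en ⟨r, k, b⟩ mu V p y) := by
    intro p hp y hy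
    obtain ⟨a1, a2, a3, a4, a5, a6, a7, a8, a9, a10⟩ := hs p (hin p hp) y hy
    exact lay_bd a1 a2 a10 a3 a9
  have hEps : (∫ y in (2 : ℝ)..YY, en ⟨r, k, b⟩ mu V ps y) ≤ r ^ N := by
    refine le_trans ?_ hE
    have ceps : ContinuousOn (fun y => en ⟨r, k, b⟩ mu V ps y) (Icc (-YY) YY) := by
      have c1 : ContinuousOn (fun y => V.wy ps y) (Icc (-YY) YY) :=
        CR.inner T.jet.cwy (hin ps (left_mem_Icc.2 hpp))
      have c2 : ContinuousOn (fun y => V.wp ps y) (Icc (-YY) YY) :=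
        CR.inner T.jet.cwp (hin ps (left_mem_Icc.2 hpp))
      unfold en
      exact (c1.pow 2).add (((continuous_const.mul (md_cont _)).continuousOn).mul (c2.pow 2))
    apply intervalIntegral.integral_mono_interval hY2 h2Y le_rfl
    · exact Filter.Eventually.of_forall fun y => hen0 ps y
    · exact ceps.intervalIntegrable_of_Icc (by linarith)
  have hB2 : (∫ y in (2 : ℝ)..YY,
            (w pt * (κ.t pt y * V.w pt y * κ.gd V pt y - κ.a pt y * V.w pt y * V.wp pt y)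
              - w ps * (κ.t ps y * V.w ps y * κ.gd V ps y - κ.a ps y * V.w ps y * V.wp ps y))) ≤
      40 * r ^ N := by
    have m1 := left_mem_Icc.2 hpp
    have m2 := right_mem_Icc.2 hpp
    have cI : ∀ p ∈ Icc ps pt, ContinuousOn (fun y => κ.t p y * V.w p y * κ.gd V p y -
        κ.a p y * V.w p y * V.wp p y) (Icc 2 YY) := fun p hp =>
      (((ct.inner hp).mul (cv.inner hp)).mul (cg.inner hp)).sub
        (((ca.inner hp).mul (cv.inner hp)).mul (cvp.inner hp))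
    have i1 : IntervalIntegrable (fun y => w pt * (κ.t pt y * V.w pt y * κ.gd V pt y -
        κ.a pt y * V.w pt y * V.wp pt y) - w ps * (κ.t ps y * V.w ps y * κ.gd V ps y -
        κ.a ps y * V.w ps y * V.wp ps y)) volume 2 YY :=
      ((continuousOn_const.mul (cI pt m2)).sub
        (continuousOn_const.mul (cI ps m1))).intervalIntegrable_of_Icc h2Y
    have cen : ContinuousOn (fun y => en ⟨r, k, b⟩ mu V ps y) (Icc 2 YY) := by
      unfold en
      exact ((cvy.inner m1).pow 2).add ((cm.inner m1).mul ((cvp.inner m1).pow 2))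
    have i2 : IntervalIntegrable (fun y => r ^ N * 6 + 22 * (r ^ N / 20 +
        en ⟨r, k, b⟩ mu V ps y)) volume 2 YY :=
      (continuousOn_const.add (continuousOn_const.mul
        (continuousOn_const.add cen))).intervalIntegrable_of_Icc h2Y
    have hle := intervalIntegral.integral_mono_on h2Y i1 i2 (by
      intro y hy
      have q1 := hbd pt m2 y hy
      have q2 := hbd ps m1 y hy
      have wpt := W.endw
      have wps : w ps ≤ 11 := by
        have h1 := W.far ps hps1 (by linarith [hps.2])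
        have h2 := W.zle ps hps1
        linarith
      -- at `pt`
      obtain ⟨v1, v2, v3⟩ := T.bw pt (hin pt m2) y (hinY y hy)
      obtain ⟨a1, a2, -⟩ := hs pt (hin pt m2) y hy
      have q3 : 2 * (V.w pt y ^ 2 + en ⟨r, k, b⟩ mu V pt y) ≤ 6 := by
        have x1 : V.w pt y ^ 2 ≤ 1 := by rw [← sq_abs]; exact pow_le_one₀ (abs_nonneg _) v1
        have x2 : V.wp pt y ^ 2 ≤ 1 := by rw [← sq_abs]; exact pow_le_one₀ (abs_nonneg _) v2
        have x3 : V.wy pt y ^ 2 ≤ 1 := by rw [← sq_abs]; exact pow_le_one₀ (abs_nonneg _) v3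
        unfold en
        have x4 : mu * md ⟨r, k, b⟩ y * V.wp pt y ^ 2 ≤ 1 * 1 :=
          mul_le_mul a2 x2 (sq_nonneg _) (by norm_num)
        linarith
      have q4 : w pt * (κ.t pt y * V.w pt y * κ.gd V pt y - κ.a pt y * V.w pt y * V.wp pt y) ≤
          r ^ N * 6 := by
        refine (mul_le_mul_of_nonneg_left ((le_abs_self _).trans (q1.trans q3)) (wpos pt)).trans ?_
        exact mul_le_mul_of_nonneg_right wpt (by norm_num)
      -- at `ps`
      have q5 : V.w ps y ^ 2 ≤ r ^ N / 20 := by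
        have h1 := sq_le_of_zero_right h2Y (cv.inner m1) (cvy.inner m1)
          (fun y hy => jet.hy ps m1 y hy) (htop ps m1) hy
        have h2 : (∫ t in (2 : ℝ)..YY, V.wy ps t ^ 2) ≤ r ^ N := by
          refine le_trans ?_ hEps
          exact intervalIntegral.integral_mono_on h2Y
            (((cvy.inner m1).pow 2).intervalIntegrable_of_Icc h2Y)
            (cen.intervalIntegrable_of_Icc h2Y) fun y _ => hvye ps y
        have e : YY - 2 = 1 / 20 := by rw [YY2]; norm_num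
        rw [e] at h1
        linarith
      have q6 : -(w ps * (κ.t ps y * V.w ps y * κ.gd V ps y -
          κ.a ps y * V.w ps y * V.wp ps y)) ≤
          22 * (r ^ N / 20 + en ⟨r, k, b⟩ mu V ps y) := by
        have h1 : -(w ps * (κ.t ps y * V.w ps y * κ.gd V ps y -
          κ.a ps y * V.w ps y * V.wp ps y)) ≤
          w ps * |κ.t ps y * V.w ps y * κ.gd V ps y - κ.a ps y * V.w ps y * V.wp ps y| := by
          rw [← mul_neg]
          exact mul_le_mul_of_nonneg_left (neg_le_abs _) (wpos ps)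
        refine h1.trans ?_
        have h2 : w ps * |κ.t ps y * V.w ps y * κ.gd V ps y -
            κ.a ps y * V.w ps y * V.wp ps y| ≤
            11 * (2 * (V.w ps y ^ 2 + en ⟨r, k, b⟩ mu V ps y)) :=
          mul_le_mul wps q2 (abs_nonneg _) (by norm_num)
        refine h2.trans ?_
        linarith
      linarith)
    refine hle.trans ?_
    have e1 : (∫ y in (2 : ℝ)..YY, (r ^ N * 6 + 22 * (r ^ N / 20 +
        en ⟨r, k, b⟩ mu V ps y))) = (YY - 2) * (r ^ N * 6 + 22 * (r ^ N / 20)) +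
        22 * ∫ y in (2 : ℝ)..YY, en ⟨r, k, b⟩ mu V ps y := by
      have : (fun y => r ^ N * 6 + 22 * (r ^ N / 20 + en ⟨r, k, b⟩ mu V ps y)) =
          fun y => (r ^ N * 6 + 22 * (r ^ N / 20)) + 22 * en ⟨r, k, b⟩ mu V ps y := by
        funext y
        ring
      have i4 : IntervalIntegrable (fun y => 22 * en ⟨r, k, b⟩ mu V ps y) volume 2 YY :=
        (continuousOn_const.mul cen).intervalIntegrable_of_Icc h2Y
      rw [this, intervalIntegral.integral_add intervalIntegrable_const i4,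
        intervalIntegral.integral_const, intervalIntegral.integral_const_mul, smul_eq_mul]
    rw [e1]
    have e : YY - 2 = 1 / 20 := by rw [YY2]; norm_num
    rw [e]
    have : 0 ≤ r ^ N := by positivity
    linarith
  -- (6) the integrand
  have hF : II ps pt 2 YY (fun p y =>
            (-(w p * κ.gd V p y ^ 2) + w p * κ.a p y * V.wp p y ^ 2
              - (w' p * κ.t p y + w p * κ.tp p y) * V.w p y * κ.gd V p y
              + w' p * κ.a p y * V.w p y * V.wp p y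
              + w p * V.w p y * (κ.d p y * V.wp p y + κ.g p y * κ.gd V p y))
              - w p * V.w p y * h p y) ≤
      -(98 / 100) * S + 1 / 100 * (1 / 400 * S) + r ^ N * (1 / 2) := by
    have hle := II_mono hpp h2Y (cR.sub cF)
      ((((CR.const ps pt 2 YY (-(98 / 100))).mul cE).add
        ((CR.const ps pt 2 YY (1 / 100)).mul cV2)).add ((CR.const ps pt 2 YY (r ^ N)).mul cW)) (by
      intro p hp y hy
      obtain ⟨a1, a2, a3, a4, a5, a6, a7, a8, a9, a10⟩ := hs p (hin p hp) y hy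
      have hh : |h p y| ≤ r ^ N := by
        apply T.hsmall p (hin p hp) y (hinY y hy)
        right
        refine hlam.trans ?_
        rw [abs_of_nonneg (by linarith [hy.1])]
        linarith [hy.1]
      have hW0 : 0 < WW ⟨r, k, b⟩ C := by
        unfold WW KW Par.s
        positivity
      exact lay_ptw (wpos p) a1 (W.w'b p) a3 a4 a5 a6 (by positivity) a7 a8
        (T.bw p (hin p hp) y (hinY y hy)).1 hh)
    refine hle.trans ?_
    rw [II_add hpp h2Y (((CR.const ps pt 2 YY (-(98 / 100))).mul cE).add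
        ((CR.const ps pt 2 YY (1 / 100)).mul cV2)) ((CR.const ps pt 2 YY (r ^ N)).mul cW),
      II_add hpp h2Y ((CR.const ps pt 2 YY (-(98 / 100))).mul cE)
        ((CR.const ps pt 2 YY (1 / 100)).mul cV2), II_smul, II_smul, II_smul, ← hS]
    have : 0 ≤ r ^ N := by positivity
    have h9 := mul_le_mul_of_nonneg_left hW this
    linarith
  rw [II_sub hpp h2Y cR cF] at hF
  have hwk : II ps pt 2 YY (fun p y => w p * V.w p y * κ.L V p y) =
      II ps pt 2 YY (fun p y => w p * V.w p y * h p y) := hweak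
  rw [← hS, ← hΘ]
  have hΘ0 : 0 ≤ Θ := by
    rw [hΘ]
    exact intervalIntegral.integral_nonneg hpp fun p _ => mul_nonneg (wpos p) (sq_nonneg _)
  have : 0 ≤ r ^ N := by positivity
  linarith

private theorem layb_en {P : Par} {mu : ℝ} (V : J2) (p y : ℝ) :
    en P mu V.ry p y = en P mu V p (-y) := by
  simp only [en, J2.ry, md, kk_even, chi_even]
  ring

/-- Lower filter strip: apply `LAY` to the reflected data `T.ry`. -/
theorem LAYB (C : ℝ) (hC : 1 ≤ C) (k b N : ℕ) (hk : 10 ≤ k) (hN : 100 * (k + 1) ≤ N) :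
    ∃ C' r0 : ℝ, 0 < C' ∧ 0 < r0 ∧ ∀ r : ℝ, 0 < r → r < r0 →
      ∀ (mu : ℝ) (ast : ℝ → ℝ) (V : J2) (h : ℝ → ℝ → ℝ), 1 / C ≤ mu → mu ≤ C →
        TData ⟨r, k, b⟩ mu C N ast V h →
        ∀ ps pt : ℝ, ps ∈ Icc (-(27 / 20) : ℝ) (-(5 / 4)) → ps ≤ pt → pt ≤ 1 / 100 →
        ∀ z w w' : ℝ → ℝ, Wt ⟨r, k, b⟩ C N pt z w w' →
        (∫ y in (-YY)..YY, en ⟨r, k, b⟩ mu V ps y) ≤ r ^ N →
        II ps pt (-YY) (-2) (fun p y => w p * en ⟨r, k, b⟩ mu V p y)
          ≤ 14 / 100 * (∫ p in ps..pt, w p * V.wy p (-2) ^ 2) + C' * r ^ N := by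
  obtain ⟨C', r0, hC', hr0, H⟩ := LAY C hC k b N hk hN
  refine ⟨C', r0, hC', hr0, ?_⟩
  intro r hr hrr mu ast V h hmu1 hmu2 T ps pt hps hpp hpt z w w' hw hen
  have e1 : (∫ y in (-YY)..YY, en ⟨r, k, b⟩ mu V.ry ps y)
      = ∫ y in (-YY)..YY, en ⟨r, k, b⟩ mu V ps y := by
    simp only [layb_en]
    rw [intervalIntegral.integral_comp_neg (fun y => en ⟨r, k, b⟩ mu V ps y), neg_neg]
  have h1 := H r hr hrr mu (fun y => ast (-y)) V.ry (fun p y => h p (-y)) hmu1 hmu2 T.ry ps pt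
    hps hpp hpt z w w' hw (by rw [e1]; exact hen)
  have e2 : II ps pt 2 YY (fun p y => w p * en ⟨r, k, b⟩ mu V.ry p y)
      = II ps pt (-YY) (-2) (fun p y => w p * en ⟨r, k, b⟩ mu V p y) := by
    rw [← II_ry ps pt 2 YY (fun p y => w p * en ⟨r, k, b⟩ mu V p y)]
    simp only [layb_en]
  have e3 : (∫ p in ps..pt, w p * V.ry.wy p 2 ^ 2) = ∫ p in ps..pt, w p * V.wy p (-2) ^ 2 := by
    simp only [J2.ry, neg_sq]
  rw [e2, e3] at h1
  exact h1

end

end P229
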