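import Vale.Agent.P229.T.Glue

/-!
# P229 block T: explicit coefficients of the linearisation of `EE0` at a jet `J`   (helper72)
`x = J.wp`, `q = -J.wy/B`, `t = r^2 b0x q`, `a = B varpi b0xx`; see notes/P229.md section 6.
-/

namespace P229

open Set Real
open scoped ContDiff

noncomputable section

/-- jet of `v = u - U`. -/
def vJetT (u : ℝ → ℝ → ℝ) (U : J2) : J2 :=
  ⟨fun p y => u p y - U.w p y, fun p y => dx u p y - U.wp p y, fun p y => dy u p y - U.wy p y,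
   fun p y => dx (dx u) p y - U.wpp p y, fun p y => dy (dx u) p y - U.wpy p y,
   fun p y => dy (dy u) p y - U.wyy p y⟩

/-- `h = E0(u) - E0(U)`. -/
def hfunT (P : Par) (mu : ℝ) (u : ℝ → ℝ → ℝ) (U : J2) (p y : ℝ) : ℝ :=
  EE0 P mu p y (dx u p y) (dy u p y) (dx (dx u) p y) (dy (dx u) p y) (dy (dy u) p y)
    - EE0 P mu p y (U.wp p y) (U.wy p y) (U.wpp p y) (U.wpy p y) (U.wyy p y)

/-- `U + s V`. -/
def J2.line (U V : J2) (s : ℝ) : J2 :=
  ⟨fun p y => U.w p y + s * V.w p y, fun p y => U.wp p y + s * V.wp p y,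
   fun p y => U.wy p y + s * V.wy p y, fun p y => U.wpp p y + s * V.wpp p y,
   fun p y => U.wpy p y + s * V.wpy p y, fun p y => U.wyy p y + s * V.wyy p y⟩

/-- `∂_y b0x`. -/
def b0xy (P : Par) (x y : ℝ) : ℝ :=
  -(P.eps * deriv chi y * x) + P.epsc * deriv kk y * (x - x ^ 3 / 3)
/-- `∂_x b0xx`. -/
def b0xxx (P : Par) (x y : ℝ) : ℝ := P.epsc * kk y * (-(2 * x))

def cB (P : Par) (J : J2) (p y : ℝ) : ℝ := 1 + P.r ^ 2 * b0 P (J.wp p y) y
def cq (P : Par) (J : J2) (p y : ℝ) : ℝ := -J.wy p y / cB P J p y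
def cvp (P : Par) (mu : ℝ) (J : J2) (p y : ℝ) : ℝ := mu - P.r ^ 2 * (p ^ 2 + cq P J p y ^ 2)
def ct (P : Par) (J : J2) (p y : ℝ) : ℝ := P.r ^ 2 * b0x P (J.wp p y) y * cq P J p y
def cqp (P : Par) (J : J2) (p y : ℝ) : ℝ :=
  -(J.wpy p y + ct P J p y * J.wpp p y) / cB P J p y
def cqy (P : Par) (J : J2) (p y : ℝ) : ℝ :=
  -(J.wyy p y + cq P J p y * (P.r ^ 2 * (b0y P (J.wp p y) y + b0x P (J.wp p y) y * J.wpy p y)))
    / cB P J p y
def ctp (P : Par) (J : J2) (p y : ℝ) : ℝ :=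
  P.r ^ 2 * (b0xx P (J.wp p y) y * J.wpp p y * cq P J p y + b0x P (J.wp p y) y * cqp P J p y)
def cty (P : Par) (J : J2) (p y : ℝ) : ℝ :=
  P.r ^ 2 * ((b0xx P (J.wp p y) y * J.wpy p y + b0xy P (J.wp p y) y) * cq P J p y
    + b0x P (J.wp p y) y * cqy P J p y)
def ca (P : Par) (mu : ℝ) (J : J2) (p y : ℝ) : ℝ :=
  cB P J p y * cvp P mu J p y * b0xx P (J.wp p y) y
def cap (P : Par) (mu : ℝ) (J : J2) (p y : ℝ) : ℝ :=
  P.r ^ 2 * b0x P (J.wp p y) y * J.wpp p y * cvp P mu J p y * b0xx P (J.wp p y) y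
    + cB P J p y * (-(P.r ^ 2 * (2 * p + 2 * cq P J p y * cqp P J p y))) * b0xx P (J.wp p y) y
    + cB P J p y * cvp P mu J p y * (b0xxx P (J.wp p y) y * J.wpp p y)
def cd1 (P : Par) (J : J2) (p y : ℝ) : ℝ :=
  -(P.r ^ 2 * (3 * cB P J p y * b0xx P (J.wp p y) y * (p + cq P J p y * cqp P J p y)
      + b0x P (J.wp p y) y * (cqy P J p y + ct P J p y * cqp P J p y)
      + P.r ^ 2 * p * b0x P (J.wp p y) y ^ 2))
def cg2 (P : Par) (J : J2) (p y : ℝ) : ℝ :=
  P.r ^ 2 * (2 * b0x P (J.wp p y) y * cqp P J p y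
    - 2 * cq P J p y * b0xx P (J.wp p y) y * J.wpp p y - b0y P (J.wp p y) y / cB P J p y)

/-- the coefficients of the linearisation at `J`. -/
def coefOf (P : Par) (mu : ℝ) (J : J2) : Coef :=
  ⟨ct P J, ctp P J, cty P J, ca P mu J, cap P mu J, cd1 P J, cg2 P J⟩

/-- `a_*`: value of `a` for `u` at `p = 0`. -/
def astT (P : Par) (mu : ℝ) (u : ℝ → ℝ → ℝ) (y : ℝ) : ℝ := ca P mu (jetOf u) 0 y

theorem dx_b0y (P : Par) (x y : ℝ) : HasDerivAt (fun t => b0y P t y) (b0xy P x y) x := by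
  unfold b0y b0xy
  have h1 := (((hasDerivAt_id x).pow 2).const_mul (P.eps * deriv chi y)).div_const 2
  have h2 := ((((hasDerivAt_id x).pow 2).div_const 2).sub
    (((hasDerivAt_id x).pow 4).div_const 12)).const_mul (P.epsc * deriv kk y)
  have h3 := h1.neg.add h2
  refine h3.congr_deriv ?_
  simp; ring

theorem dx_b0xx (P : Par) (x y : ℝ) : HasDerivAt (fun t => b0xx P t y) (b0xxx P x y) x := by
  unfold b0xx b0xxx
  have h2 := (((hasDerivAt_const x (1 : ℝ))).sub ((hasDerivAt_id x).pow 2)).const_mul (P.epsc * kk y)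
  have h3 := (hasDerivAt_const x (-(P.eps * chi y))).add h2
  refine h3.congr_deriv ?_
  simp

/-- algebraic part of the linearisation identity. -/
theorem lin_alg (r mu p B bx by' bxx bxxx bxy uy upp upy uyy vp vy vpp vpy vyy : ℝ)
    (hB : B ≠ 0) (q t qp qy : ℝ) (hq : q = -uy / B) (ht : t = r ^ 2 * bx * q)
    (hqp : qp = -(upy + t * upp) / B)
    (hqy : qy = -(uyy + q * (r ^ 2 * (by' + bx * upy))) / B)
    (dq : ℝ) (hdq : dq = (-vy * B - -uy * (r ^ 2 * (bx * vp))) / B ^ 2) :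
    vyy + (2 * (r ^ 2 * (bxx * vp * q + bx * dq)) * upy + 2 * (r ^ 2 * bx * q) * vpy)
      + (2 * (r ^ 2 * bx * q) * (r ^ 2 * (bxx * vp * q + bx * dq)) * upp
        + (r ^ 2 * bx * q) ^ 2 * vpp)
      - ((r ^ 2 * (bx * vp) * (mu - r ^ 2 * (p ^ 2 + q ^ 2))
            + B * (-(r ^ 2 * (2 * q * dq)))) * bxx * upp
          + B * (mu - r ^ 2 * (p ^ 2 + q ^ 2)) * (bxxx * vp) * upp
          + B * (mu - r ^ 2 * (p ^ 2 + q ^ 2)) * bxx * vpp)
      + r ^ 2 * (dq * by' + q * (bxy * vp) - (r ^ 2 * (bx * vp) * p * bx + B * p * (bxx * vp)))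
    = vyy + 2 * t * vpy + t ^ 2 * vpp
      + (r ^ 2 * ((bxx * upy + bxy) * q + bx * qy)
          + t * (r ^ 2 * (bxx * upp * q + bx * qp))) * vp
      - ((r ^ 2 * bx * upp * (mu - r ^ 2 * (p ^ 2 + q ^ 2)) * bxx
            + B * (-(r ^ 2 * (2 * p + 2 * q * qp))) * bxx
            + B * (mu - r ^ 2 * (p ^ 2 + q ^ 2)) * (bxxx * upp)) * vp
          + B * (mu - r ^ 2 * (p ^ 2 + q ^ 2)) * bxx * vpp)
      + (-(r ^ 2 * (3 * B * bxx * (p + q * qp) + bx * (qy + t * qp) + r ^ 2 * p * bx ^ 2))) * vp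
      + r ^ 2 * (2 * bx * qp - 2 * q * bxx * upp - by' / B) * (vy + t * vp) := by
  have e1 : vy = -(B * dq) - q * (r ^ 2 * (bx * vp)) := by
    rw [hdq, hq]; field_simp; ring
  have e2 : upy = -(B * qp) - t * upp := by rw [hqp]; field_simp; ring
  have e3 : uyy = -(B * qy) - q * (r ^ 2 * (by' + bx * upy)) := by rw [hqy]; field_simp; ring
  have e4 : by' / B = by' / B := rfl
  obtain ⟨β, hβ⟩ : ∃ β, by' = B * β := ⟨by' / B, by field_simp⟩
  have e5 : by' / B = β := by rw [hβ]; field_simp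
  clear hqp hqy hdq hq
  rw [e5, hβ, e1, e2, ht]
  ring

/-- **LIN1, linearisation identity** (pure algebra + chain rule in the one variable `s`). -/
theorem lin_deriv (P : Par) (mu : ℝ) (U V : J2) (p y s : ℝ)
    (hB : cB P (U.line V s) p y ≠ 0) :
    HasDerivAt (fun s : ℝ => EE0 P mu p y ((U.line V s).wp p y) ((U.line V s).wy p y)
        ((U.line V s).wpp p y) ((U.line V s).wpy p y) ((U.line V s).wyy p y))
      ((coefOf P mu (U.line V s)).L V p y) s := by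
  have hx : HasDerivAt (fun s : ℝ => U.wp p y + s * V.wp p y) (V.wp p y) s := by
    simpa using ((hasDerivAt_id s).mul_const (V.wp p y)).const_add (U.wp p y)
  have huy : HasDerivAt (fun s : ℝ => U.wy p y + s * V.wy p y) (V.wy p y) s := by
    simpa using ((hasDerivAt_id s).mul_const (V.wy p y)).const_add (U.wy p y)
  have hupp : HasDerivAt (fun s : ℝ => U.wpp p y + s * V.wpp p y) (V.wpp p y) s := by
    simpa using ((hasDerivAt_id s).mul_const (V.wpp p y)).const_add (U.wpp p y)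
  have hupy : HasDerivAt (fun s : ℝ => U.wpy p y + s * V.wpy p y) (V.wpy p y) s := by
    simpa using ((hasDerivAt_id s).mul_const (V.wpy p y)).const_add (U.wpy p y)
  have huyy : HasDerivAt (fun s : ℝ => U.wyy p y + s * V.wyy p y) (V.wyy p y) s := by
    simpa using ((hasDerivAt_id s).mul_const (V.wyy p y)).const_add (U.wyy p y)
  set J := U.line V s with hJ
  have hBs : HasDerivAt (fun s : ℝ => 1 + P.r ^ 2 * b0 P (U.wp p y + s * V.wp p y) y)
      (P.r ^ 2 * (b0x P (U.wp p y + s * V.wp p y) y * V.wp p y)) s :=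
    ((HasDerivAt.comp (h₂ := fun t => b0 P t y) s (dx_b0 P (U.wp p y + s * V.wp p y) y) hx).const_mul (P.r ^ 2)).const_add 1
  have hbx : HasDerivAt (fun s : ℝ => b0x P (U.wp p y + s * V.wp p y) y)
      (b0xx P (U.wp p y + s * V.wp p y) y * V.wp p y) s :=
    HasDerivAt.comp (h₂ := fun t => b0x P t y) s (dx_b0x P (U.wp p y + s * V.wp p y) y) hx
  have hby : HasDerivAt (fun s : ℝ => b0y P (U.wp p y + s * V.wp p y) y)
      (b0xy P (U.wp p y + s * V.wp p y) y * V.wp p y) s :=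
    HasDerivAt.comp (h₂ := fun t => b0y P t y) s (dx_b0y P (U.wp p y + s * V.wp p y) y) hx
  have hbxx : HasDerivAt (fun s : ℝ => b0xx P (U.wp p y + s * V.wp p y) y)
      (b0xxx P (U.wp p y + s * V.wp p y) y * V.wp p y) s :=
    HasDerivAt.comp (h₂ := fun t => b0xx P t y) s (dx_b0xx P (U.wp p y + s * V.wp p y) y) hx
  have hB0 : (1 + P.r ^ 2 * b0 P (U.wp p y + s * V.wp p y) y) ≠ 0 := hB
  have hq := (huy.neg).div hBs hB0
  set dq := ((-V.wy p y) * (1 + P.r ^ 2 * b0 P (U.wp p y + s * V.wp p y) y)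
    - (-(U.wy p y + s * V.wy p y)) * (P.r ^ 2 * (b0x P (U.wp p y + s * V.wp p y) y * V.wp p y)))
      / (1 + P.r ^ 2 * b0 P (U.wp p y + s * V.wp p y) y) ^ 2 with hdq
  have hq' : HasDerivAt (fun s : ℝ => -(U.wy p y + s * V.wy p y)
      / (1 + P.r ^ 2 * b0 P (U.wp p y + s * V.wp p y) y)) dq s := hq
  have hbq := (hbx.mul hq').const_mul (P.r ^ 2)
  have hT1 := (hbq.const_mul 2).mul hupy
  have hT2 := (hbq.pow 2).mul hupp
  have hvp := (((hq'.pow 2).const_add (p ^ 2)).const_mul (P.r ^ 2)).const_sub mu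
  have hT3 := (((hBs.mul hvp).mul hbxx).mul hupp)
  have hT4 := ((hq'.mul hby).sub ((hBs.mul_const p).mul hbx)).const_mul (P.r ^ 2)
  have hall := (((huyy.add hT1).add hT2).sub hT3).add hT4
  have key := lin_alg P.r mu p (1 + P.r ^ 2 * b0 P (U.wp p y + s * V.wp p y) y)
    (b0x P (U.wp p y + s * V.wp p y) y) (b0y P (U.wp p y + s * V.wp p y) y)
    (b0xx P (U.wp p y + s * V.wp p y) y) (b0xxx P (U.wp p y + s * V.wp p y) y)
    (b0xy P (U.wp p y + s * V.wp p y) y) (U.wy p y + s * V.wy p y) (U.wpp p y + s * V.wpp p y)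
    (U.wpy p y + s * V.wpy p y) (U.wyy p y + s * V.wyy p y) (V.wp p y) (V.wy p y) (V.wpp p y)
    (V.wpy p y) (V.wyy p y) hB0 (cq P J p y) (ct P J p y) (cqp P J p y) (cqy P J p y)
    rfl rfl rfl rfl dq hdq
  refine (hall.congr_deriv ?_).congr_of_eventuallyEq (Filter.Eventually.of_forall ?_)
  · refine Eq.trans ?_ (key.trans ?_)
    · simp only [cq, cB, hJ, J2.line, Pi.mul_apply, Pi.add_apply, Pi.neg_apply, Pi.div_apply,
        Pi.pow_apply, Nat.cast_ofNat]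
      ring
    · simp only [Coef.L, Coef.gd, coefOf, ca, cap, cvp, cd1, cg2, cty, ctp, cB]
      simp only [hJ, J2.line]
  · intro s'
    simp only [EE0, EEalg, J2.line, Pi.mul_apply, Pi.add_apply, Pi.sub_apply, Pi.neg_apply,
      Pi.div_apply, Pi.pow_apply]
    ring

end

end P229
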