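import Vale.Agent.P229.T.LinDefs

/-!
# P229 block T: mean value theorem for `s ↦ II φ EE0(U + s V)`  (module LIN_MVT)
`F(s) = II a b c d (φ * EE0(U.line V s))` is differentiable on `[0,1]` with derivative
`II φ * (coefOf P mu (U.line V s)).L V` (`lin_deriv`; differentiation under the integral sign, all
functions are jointly continuous in `(s,p,y)` on the compact box, since `cB ≥ 1/2`), and
`F(1) - F(0) = F'(s)` for some `s ∈ (0,1)`.  (Alternatively: `G(s) = II φ L_s V - (F 1 - F 0)` is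
continuous on `[0,1]` with integral `0` by Fubini and the fundamental theorem of calculus, so it
vanishes somewhere.)
-/

namespace P229

open Set Real MeasureTheory
open scoped ContDiff

noncomputable section

/-- abstract mean value theorem under the double integral (Fubini). -/
private theorem lmvt_abs {a b c d : ℝ} (hab : a ≤ b) (hcd : c ≤ d)
    {D G : ℝ → ℝ → ℝ → ℝ} {φ : ℝ → ℝ → ℝ}
    (hD : ContinuousOn (fun z : ℝ × ℝ × ℝ => D z.1 z.2.1 z.2.2)
      (Icc (0 : ℝ) 1 ×ˢ (Icc a b ×ˢ Icc c d)))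
    (hG : ∀ s ∈ Icc (0 : ℝ) 1, ∀ p ∈ Icc a b, ∀ y ∈ Icc c d,
      HasDerivAt (fun s => G s p y) (D s p y) s)
    (hφ : ContinuousOn (Function.uncurry φ) (Icc a b ×ˢ Icc c d)) :
    ∃ s ∈ Ioo (0 : ℝ) 1,
      II a b c d (fun p y => φ p y * D s p y)
        = II a b c d (fun p y => φ p y * (G 1 p y - G 0 p y)) := by
  -- global continuous extension
  set K : ℝ → ℝ → ℝ → ℝ := fun s p y =>
    φ (clamp a b p) (clamp c d y) * D (clamp 0 1 s) (clamp a b p) (clamp c d y) with hK
  have hKc : Continuous (fun z : ℝ × ℝ × ℝ => K z.1 z.2.1 z.2.2) := by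
    have h1 : Continuous (fun z : ℝ × ℝ × ℝ =>
        (clamp 0 1 z.1, (clamp a b z.2.1, clamp c d z.2.2))) :=
      ((continuous_clamp 0 1).comp continuous_fst).prodMk
        (((continuous_clamp a b).comp (continuous_fst.comp continuous_snd)).prodMk
          ((continuous_clamp c d).comp (continuous_snd.comp continuous_snd)))
    have h2 : Continuous (fun z : ℝ × ℝ × ℝ => (clamp a b z.2.1, clamp c d z.2.2)) :=
      ((continuous_clamp a b).comp (continuous_fst.comp continuous_snd)).prodMk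
          ((continuous_clamp c d).comp (continuous_snd.comp continuous_snd))
    have h3 := hD.comp_continuous h1 (fun z =>
      ⟨clamp_mem zero_le_one _, clamp_mem hab _, clamp_mem hcd _⟩)
    have h4 := hφ.comp_continuous h2 (fun z => ⟨clamp_mem hab _, clamp_mem hcd _⟩)
    exact h4.mul h3
  have hKeq : ∀ s ∈ Icc (0 : ℝ) 1, ∀ p ∈ Icc a b, ∀ y ∈ Icc c d,
      K s p y = φ p y * D s p y := by
    intro s hs p hp y hy
    simp only [hK, clamp_eq hs, clamp_eq hp, clamp_eq hy]
  -- the function H(s)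
  set H : ℝ → ℝ := fun s => ∫ p in a..b, ∫ y in c..d, K s p y with hH
  have hin : Continuous (fun z : ℝ × ℝ => ∫ y in c..d, K z.1 z.2 y) := by
    apply intervalIntegral.continuous_parametric_intervalIntegral_of_continuous'
    have : Continuous (fun w : (ℝ × ℝ) × ℝ => (w.1.1, (w.1.2, w.2))) := by fun_prop
    exact hKc.comp this
  have hHc : Continuous H := by
    apply intervalIntegral.continuous_parametric_intervalIntegral_of_continuous'
    exact hin
  have hHI : ∀ s ∈ Icc (0 : ℝ) 1, H s = II a b c d (fun p y => φ p y * D s p y) := by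
    intro s hs
    rw [II_eq_I2]
    exact I2_congr hab hcd (fun p hp y hy => hKeq s hs p hp y hy)
  -- Fubini
  have hfub : (∫ s in (0 : ℝ)..1, H s) = II a b c d (fun p y => φ p y * (G 1 p y - G 0 p y)) := by
    have h1 : (∫ s in (0 : ℝ)..1, H s)
        = ∫ p in a..b, ∫ s in (0 : ℝ)..1, ∫ y in c..d, K s p y := by
      have := I2_swap (a := 0) (b := 1) (c := a) (d := b) (f := fun s p => ∫ y in c..d, K s p y)
        zero_le_one hab hin.continuousOn
      exact this
    rw [h1, II]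
    apply intervalIntegral.integral_congr
    intro p hp
    rw [uIcc_of_le hab] at hp
    have h2 : (∫ s in (0 : ℝ)..1, ∫ y in c..d, K s p y)
        = ∫ y in c..d, ∫ s in (0 : ℝ)..1, K s p y := by
      have hcont : Continuous (Function.uncurry (fun s y => K s p y)) := by
        have : Continuous (fun w : ℝ × ℝ => (w.1, (p, w.2))) := by fun_prop
        exact hKc.comp this
      exact I2_swap (a := 0) (b := 1) (c := c) (d := d) (f := fun s y => K s p y)
        zero_le_one hcd hcont.continuousOn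
    show (∫ s in (0 : ℝ)..1, ∫ y in c..d, K s p y) = _
    rw [h2]
    apply intervalIntegral.integral_congr
    intro y hy
    rw [uIcc_of_le hcd] at hy
    show (∫ s in (0 : ℝ)..1, K s p y) = φ p y * (G 1 p y - G 0 p y)
    have hcont : Continuous (fun s => K s p y) := by
      have : Continuous (fun w : ℝ => (w, (p, y))) := by fun_prop
      exact hKc.comp this
    have h3 : ∀ s ∈ uIcc (0 : ℝ) 1, HasDerivAt (fun s => φ p y * G s p y) (K s p y) s := by
      intro s hs
      rw [uIcc_of_le zero_le_one] at hs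
      rw [hKeq s hs p hp y hy]
      exact (hG s hs p hp y hy).const_mul _
    rw [intervalIntegral.integral_eq_sub_of_hasDerivAt h3 (hcont.intervalIntegrable _ _)]
    ring
  -- mean value theorem
  have hder : ∀ x ∈ Ioo (0 : ℝ) 1, HasDerivAt (fun t => ∫ s in (0 : ℝ)..t, H s) (H x) x :=
    fun x _ => intervalIntegral.integral_hasDerivAt_right (hHc.intervalIntegrable _ _)
      (hHc.stronglyMeasurableAtFilter _ _) hHc.continuousAt
  have hcont : ContinuousOn (fun t => ∫ s in (0 : ℝ)..t, H s) (Icc 0 1) := by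
    have : Continuous (fun t => ∫ s in (0 : ℝ)..t, H s) :=
      intervalIntegral.continuous_primitive (fun _ _ => hHc.intervalIntegrable _ _) 0
    exact this.continuousOn
  obtain ⟨s, hs, he⟩ := exists_hasDerivAt_eq_slope _ _ zero_lt_one hcont hder
  refine ⟨s, hs, ?_⟩
  rw [← hHI s ⟨hs.1.le, hs.2.le⟩, ← hfub, he]
  simp

section

variable {S : Set (ℝ × ℝ × ℝ)}

private theorem lmvt_fst : ContinuousOn (fun z : ℝ × ℝ × ℝ => z.1) S := continuousOn_fst
private theorem lmvt_p : ContinuousOn (fun z : ℝ × ℝ × ℝ => z.2.1) S :=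
  (continuous_fst.comp continuous_snd).continuousOn
private theorem lmvt_y {f : ℝ → ℝ} (hf : Continuous f) :
    ContinuousOn (fun z : ℝ × ℝ × ℝ => f z.2.2) S :=
  (hf.comp (continuous_snd.comp continuous_snd)).continuousOn

end

/-- joint continuity of the linearised operator. -/
private theorem lmvt_cont (P : Par) (mu : ℝ) (U V : J2) {a b c d : ℝ}
    (hU : U.IsJet a b c d) (hV : V.IsJet a b c d)
    (hB : ∀ s ∈ Icc (0 : ℝ) 1, ∀ p ∈ Icc a b, ∀ y ∈ Icc c d, 1 / 2 ≤ cB P (U.line V s) p y) :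
    ContinuousOn (fun z : ℝ × ℝ × ℝ => (coefOf P mu (U.line V z.1)).L V z.2.1 z.2.2)
      (Icc (0 : ℝ) 1 ×ˢ (Icc a b ×ˢ Icc c d)) := by
  set S : Set (ℝ × ℝ × ℝ) := Icc (0 : ℝ) 1 ×ˢ (Icc a b ×ˢ Icc c d) with hS
  have lift : ∀ f : ℝ → ℝ → ℝ, ContinuousOn (Function.uncurry f) (Icc a b ×ˢ Icc c d) →
      ContinuousOn (fun z : ℝ × ℝ × ℝ => f z.2.1 z.2.2) S := by
    intro f hf
    exact ContinuousOn.comp (g := Function.uncurry f) hf continuousOn_snd (fun z hz => hz.2)
  have vp := lift _ hV.cwp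
  have vy := lift _ hV.cwy
  have vpp := lift _ hV.cwpp
  have vpy := lift _ hV.cwpy
  have vyy := lift _ hV.cwyy
  have up := lift _ hU.cwp
  have uy := lift _ hU.cwy
  have upp := lift _ hU.cwpp
  have upy := lift _ hU.cwpy
  have uyy := lift _ hU.cwyy
  have s1 : ContinuousOn (fun z : ℝ × ℝ × ℝ => z.1) S := lmvt_fst
  have pp : ContinuousOn (fun z : ℝ × ℝ × ℝ => z.2.1) S := lmvt_p
  have hchi : ContinuousOn (fun z : ℝ × ℝ × ℝ => chi z.2.2) S := lmvt_y chi_contDiff.continuous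
  have hkk : ContinuousOn (fun z : ℝ × ℝ × ℝ => kk z.2.2) S := lmvt_y kk_contDiff.continuous
  have hdchi : ContinuousOn (fun z : ℝ × ℝ × ℝ => deriv chi z.2.2) S :=
    lmvt_y (chi_contDiff.continuous_deriv (by simp))
  have hdkk : ContinuousOn (fun z : ℝ × ℝ × ℝ => deriv kk z.2.2) S :=
    lmvt_y (kk_contDiff.continuous_deriv (by simp))
  have jp : ContinuousOn (fun z : ℝ × ℝ × ℝ => (U.line V z.1).wp z.2.1 z.2.2) S :=
    up.add (s1.mul vp)
  have jy : ContinuousOn (fun z : ℝ × ℝ × ℝ => (U.line V z.1).wy z.2.1 z.2.2) S :=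
    uy.add (s1.mul vy)
  have jpp : ContinuousOn (fun z : ℝ × ℝ × ℝ => (U.line V z.1).wpp z.2.1 z.2.2) S :=
    upp.add (s1.mul vpp)
  have jpy : ContinuousOn (fun z : ℝ × ℝ × ℝ => (U.line V z.1).wpy z.2.1 z.2.2) S :=
    upy.add (s1.mul vpy)
  have jyy : ContinuousOn (fun z : ℝ × ℝ × ℝ => (U.line V z.1).wyy z.2.1 z.2.2) S :=
    uyy.add (s1.mul vyy)
  have cb0 : ContinuousOn (fun z : ℝ × ℝ × ℝ => b0 P ((U.line V z.1).wp z.2.1 z.2.2) z.2.2) S := by
    unfold b0; fun_prop
  have cb0x : ContinuousOn (fun z : ℝ × ℝ × ℝ => b0x P ((U.line V z.1).wp z.2.1 z.2.2) z.2.2) S := by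
    unfold b0x; fun_prop
  have cb0xx : ContinuousOn
      (fun z : ℝ × ℝ × ℝ => b0xx P ((U.line V z.1).wp z.2.1 z.2.2) z.2.2) S := by
    unfold b0xx; fun_prop
  have cb0xxx : ContinuousOn
      (fun z : ℝ × ℝ × ℝ => b0xxx P ((U.line V z.1).wp z.2.1 z.2.2) z.2.2) S := by
    unfold b0xxx; fun_prop
  have cb0y : ContinuousOn (fun z : ℝ × ℝ × ℝ => b0y P ((U.line V z.1).wp z.2.1 z.2.2) z.2.2) S := by
    unfold b0y; fun_prop
  have cb0xy : ContinuousOn
      (fun z : ℝ × ℝ × ℝ => b0xy P ((U.line V z.1).wp z.2.1 z.2.2) z.2.2) S := by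
    unfold b0xy; fun_prop
  have hBc : ContinuousOn (fun z : ℝ × ℝ × ℝ => cB P (U.line V z.1) z.2.1 z.2.2) S := by
    unfold cB; fun_prop
  have hB0 : ∀ z ∈ S, cB P (U.line V z.1) z.2.1 z.2.2 ≠ 0 := by
    intro z hz
    have := hB z.1 hz.1 z.2.1 hz.2.1 z.2.2 hz.2.2
    intro h
    rw [h] at this
    norm_num at this
  have hq : ContinuousOn (fun z : ℝ × ℝ × ℝ => cq P (U.line V z.1) z.2.1 z.2.2) S :=
    jy.neg.div hBc hB0
  have hvp : ContinuousOn (fun z : ℝ × ℝ × ℝ => cvp P mu (U.line V z.1) z.2.1 z.2.2) S := by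
    unfold cvp; fun_prop
  have ht : ContinuousOn (fun z : ℝ × ℝ × ℝ => ct P (U.line V z.1) z.2.1 z.2.2) S := by
    unfold ct; fun_prop
  have hqp : ContinuousOn (fun z : ℝ × ℝ × ℝ => cqp P (U.line V z.1) z.2.1 z.2.2) S := by
    unfold cqp
    refine ContinuousOn.div ?_ hBc hB0
    fun_prop
  have hqy : ContinuousOn (fun z : ℝ × ℝ × ℝ => cqy P (U.line V z.1) z.2.1 z.2.2) S := by
    unfold cqy
    refine ContinuousOn.div ?_ hBc hB0
    fun_prop
  have htp : ContinuousOn (fun z : ℝ × ℝ × ℝ => ctp P (U.line V z.1) z.2.1 z.2.2) S := by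
    unfold ctp; fun_prop
  have hty : ContinuousOn (fun z : ℝ × ℝ × ℝ => cty P (U.line V z.1) z.2.1 z.2.2) S := by
    unfold cty; fun_prop
  have ha : ContinuousOn (fun z : ℝ × ℝ × ℝ => ca P mu (U.line V z.1) z.2.1 z.2.2) S := by
    unfold ca; fun_prop
  have hap : ContinuousOn (fun z : ℝ × ℝ × ℝ => cap P mu (U.line V z.1) z.2.1 z.2.2) S := by
    unfold cap; fun_prop
  have hd1 : ContinuousOn (fun z : ℝ × ℝ × ℝ => cd1 P (U.line V z.1) z.2.1 z.2.2) S := by
    unfold cd1; fun_prop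
  have hdiv : ContinuousOn (fun z : ℝ × ℝ × ℝ =>
      b0y P ((U.line V z.1).wp z.2.1 z.2.2) z.2.2 / cB P (U.line V z.1) z.2.1 z.2.2) S :=
    cb0y.div hBc hB0
  have hg2 : ContinuousOn (fun z : ℝ × ℝ × ℝ => cg2 P (U.line V z.1) z.2.1 z.2.2) S := by
    unfold cg2; fun_prop
  unfold Coef.L Coef.gd coefOf
  dsimp only
  fun_prop

theorem lin_weak (P : Par) (mu : ℝ) (U V : J2) {a b c d : ℝ} (hab : a ≤ b) (hcd : c ≤ d)
    (hU : U.IsJet a b c d) (hV : V.IsJet a b c d)
    (hB : ∀ s ∈ Icc (0 : ℝ) 1, ∀ p ∈ Icc a b, ∀ y ∈ Icc c d, 1 / 2 ≤ cB P (U.line V s) p y)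
    {φ : ℝ → ℝ → ℝ} (hφ : ContinuousOn (Function.uncurry φ) (Icc a b ×ˢ Icc c d)) :
    ∃ s ∈ Ioo (0 : ℝ) 1,
      II a b c d (fun p y => φ p y * (coefOf P mu (U.line V s)).L V p y)
        = II a b c d (fun p y => φ p y *
          (EE0 P mu p y ((U.line V 1).wp p y) ((U.line V 1).wy p y)
              ((U.line V 1).wpp p y) ((U.line V 1).wpy p y) ((U.line V 1).wyy p y)
            - EE0 P mu p y (U.wp p y) (U.wy p y) (U.wpp p y) (U.wpy p y) (U.wyy p y))) := by
  obtain ⟨s, hs, he⟩ := lmvt_abs hab hcd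
    (D := fun s p y => (coefOf P mu (U.line V s)).L V p y)
    (G := fun s p y => EE0 P mu p y ((U.line V s).wp p y) ((U.line V s).wy p y)
        ((U.line V s).wpp p y) ((U.line V s).wpy p y) ((U.line V s).wyy p y))
    (lmvt_cont P mu U V hU hV hB)
    (fun s hs p hp y hy => lin_deriv P mu U V p y s (by
      have := hB s hs p hp y hy
      intro h
      rw [h] at this
      norm_num at this)) hφ
  refine ⟨s, hs, he.trans ?_⟩
  have h0 : ∀ p y : ℝ, EE0 P mu p y ((U.line V 0).wp p y) ((U.line V 0).wy p y)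
        ((U.line V 0).wpp p y) ((U.line V 0).wpy p y) ((U.line V 0).wyy p y)
      = EE0 P mu p y (U.wp p y) (U.wy p y) (U.wpp p y) (U.wpy p y) (U.wyy p y) := by
    intro p y
    simp only [J2.line, zero_mul, add_zero]
  simp only [h0]

end

end P229
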