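import Vale.Agent.P229.T.GoodJ

/-!
# P229 block T: sizes of the building blocks of the coefficients  (module LIN_SZ)
-/

namespace P229

open Set Real
open scoped ContDiff

noncomputable section

private theorem linSz_poly {x : ℝ} (hx : |x| ≤ 3 / 2) :
    |x ^ 2 / 2| ≤ 9 / 8 ∧ |x ^ 2 / 2 - x ^ 4 / 12| ≤ 9 / 8 ∧ |x - x ^ 3 / 3| ≤ 3 / 2 ∧
      |1 - x ^ 2| ≤ 5 / 4 := by
  have h0 : x ^ 2 ≤ 9 / 4 := by
    rw [← sq_abs]
    nlinarith [abs_nonneg x]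
  have h1 : 0 ≤ x ^ 2 := sq_nonneg x
  refine ⟨?_, ?_, ?_, ?_⟩
  · rw [abs_of_nonneg (by positivity)]
    linarith
  · have h2 : x ^ 4 = (x ^ 2) ^ 2 := by ring
    rw [h2, abs_le]
    constructor <;> nlinarith
  · have h2 : x - x ^ 3 / 3 = x * (1 - x ^ 2 / 3) := by ring
    rw [h2, abs_mul]
    have h3 : |1 - x ^ 2 / 3| ≤ 1 := by
      rw [abs_le]
      constructor <;> linarith
    calc |x| * |1 - x ^ 2 / 3| ≤ 3 / 2 * 1 := mul_le_mul hx h3 (abs_nonneg _) (by norm_num)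
      _ = 3 / 2 := by norm_num
  · rw [abs_le]
    constructor <;> linarith

private theorem linSz_comb {A B a b m : ℝ} (hA : 0 ≤ A) (hB : 0 ≤ B) (ha : |a| ≤ m)
    (hb : |b| ≤ m) : |-(A * a) + B * b| ≤ m * (A + B) := by
  have h1 : |-(A * a)| ≤ m * A := by
    rw [abs_neg, abs_mul, abs_of_nonneg hA, mul_comm]
    exact mul_le_mul_of_nonneg_right ha hA
  have h2 : |B * b| ≤ m * B := by
    rw [abs_mul, abs_of_nonneg hB, mul_comm]
    exact mul_le_mul_of_nonneg_right hb hB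
  calc |-(A * a) + B * b| ≤ |-(A * a)| + |B * b| := abs_add_le _ _
    _ ≤ m * A + m * B := add_le_add h1 h2
    _ = m * (A + B) := by ring

/-- profile functions for `|x| ≤ 3/2` (no jets involved). -/
theorem b0_size (k b : ℕ) : ∃ C' : ℝ, 1 ≤ C' ∧ ∀ r : ℝ, 0 < r → r ≤ 1 →
    ∀ x y : ℝ, |x| ≤ 3 / 2 →
      |b0 ⟨r, k, b⟩ x y| ≤ 2 * md ⟨r, k, b⟩ y ∧
      |b0x ⟨r, k, b⟩ x y| ≤ 3 * md ⟨r, k, b⟩ y ∧
      |b0xx ⟨r, k, b⟩ x y| ≤ 5 / 4 * md ⟨r, k, b⟩ y ∧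
      |b0xxx ⟨r, k, b⟩ x y| ≤ 3 * md ⟨r, k, b⟩ y ∧
      b0y ⟨r, k, b⟩ x y ^ 2 ≤ C' * ((Par.mk r k b).eps * md ⟨r, k, b⟩ y) ∧
      |b0y ⟨r, k, b⟩ x y| ≤ C' * (Par.mk r k b).eps ∧
      |b0xy ⟨r, k, b⟩ x y| ≤ C' * (Par.mk r k b).eps := by
  obtain ⟨Cp, hCp, hpr⟩ := prof_bounds
  refine ⟨6 * Cp, by linarith, ?_⟩
  intro r hr hr1 x y hx
  obtain ⟨q1, q2, q3, q4⟩ := linSz_poly hx
  obtain ⟨p1, -, p3, p4, -, p6⟩ := hpr y
  have hkk := kk_nonneg y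
  have hch := chi_nonneg y
  have he : 0 < (Par.mk r k b).eps := pow_pos hr _
  have hec : 0 < (Par.mk r k b).epsc := pow_pos hr _
  have hece : (Par.mk r k b).epsc ≤ (Par.mk r k b).eps := by
    change r ^ (20 * k + 2) ≤ r ^ (20 * k)
    exact pow_le_pow_of_le_one hr.le hr1 (by omega)
  have hmd0 := md_nonneg (Par.mk r k b) hr y
  set E := (Par.mk r k b).eps with hE
  set F := (Par.mk r k b).epsc with hF
  have hmd : md ⟨r, k, b⟩ y = E * chi y + F * kk y := rfl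
  have hA : 0 ≤ E * chi y := mul_nonneg he.le hch
  have hB : 0 ≤ F * kk y := mul_nonneg hec.le hkk
  refine ⟨?_, ?_, ?_, ?_, ?_, ?_, ?_⟩
  · have e : b0 ⟨r, k, b⟩ x y = -((E * chi y) * (x ^ 2 / 2)) +
        (F * kk y) * (x ^ 2 / 2 - x ^ 4 / 12) := by
      unfold b0
      rw [← hE, ← hF]
      ring
    rw [e]
    refine (linSz_comb hA hB (m := 2) (by linarith) (by linarith)).trans (le_of_eq ?_)
    rw [hmd]
  · have e : b0x ⟨r, k, b⟩ x y = -((E * chi y) * x) + (F * kk y) * (x - x ^ 3 / 3) := by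
      unfold b0x
      rw [← hE, ← hF]
    rw [e]
    refine (linSz_comb hA hB (m := 3) (by linarith) (by linarith)).trans (le_of_eq ?_)
    rw [hmd]
  · have e : b0xx ⟨r, k, b⟩ x y = -((E * chi y) * 1) + (F * kk y) * (1 - x ^ 2) := by
      unfold b0xx
      rw [← hE, ← hF]
      ring
    rw [e]
    refine (linSz_comb hA hB (m := 5 / 4) (by norm_num) (by linarith)).trans (le_of_eq ?_)
    rw [hmd]
  · have e : b0xxx ⟨r, k, b⟩ x y = -((E * chi y) * 0) + (F * kk y) * (-(2 * x)) := by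
      unfold b0xxx
      rw [← hF]
      ring
    rw [e]
    refine (linSz_comb hA hB (m := 3) (by norm_num) ?_).trans (le_of_eq ?_)
    · rw [abs_neg, abs_mul, abs_of_pos (by norm_num : (0 : ℝ) < 2)]
      linarith
    · rw [hmd]
  · have e : b0y ⟨r, k, b⟩ x y = -((E * deriv chi y) * (x ^ 2 / 2)) +
        (F * deriv kk y) * (x ^ 2 / 2 - x ^ 4 / 12) := by
      unfold b0y
      rw [← hE, ← hF]
      ring
    have s1 : ((E * deriv chi y) * (x ^ 2 / 2)) ^ 2 ≤ (E * (E * (Cp * chi y))) * (81 / 64) := by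
      have t1 : (x ^ 2 / 2) ^ 2 ≤ 81 / 64 := by
        rw [← sq_abs (x ^ 2 / 2)]
        nlinarith [abs_nonneg (x ^ 2 / 2)]
      calc ((E * deriv chi y) * (x ^ 2 / 2)) ^ 2
          = (E * (E * deriv chi y ^ 2)) * (x ^ 2 / 2) ^ 2 := by ring
        _ ≤ (E * (E * (Cp * chi y))) * (81 / 64) := by
          refine mul_le_mul ?_ t1 (sq_nonneg _) (by positivity)
          exact mul_le_mul_of_nonneg_left (mul_le_mul_of_nonneg_left p6 he.le) he.le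
    have s2 : ((F * deriv kk y) * (x ^ 2 / 2 - x ^ 4 / 12)) ^ 2 ≤
        (E * (F * (Cp * kk y))) * (81 / 64) := by
      have t1 : (x ^ 2 / 2 - x ^ 4 / 12) ^ 2 ≤ 81 / 64 := by
        rw [← sq_abs (x ^ 2 / 2 - x ^ 4 / 12)]
        nlinarith [abs_nonneg (x ^ 2 / 2 - x ^ 4 / 12)]
      calc ((F * deriv kk y) * (x ^ 2 / 2 - x ^ 4 / 12)) ^ 2
          = (F * (F * deriv kk y ^ 2)) * (x ^ 2 / 2 - x ^ 4 / 12) ^ 2 := by ring
        _ ≤ (E * (F * (Cp * kk y))) * (81 / 64) := by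
          refine mul_le_mul ?_ t1 (sq_nonneg _) (by positivity)
          exact mul_le_mul hece (mul_le_mul_of_nonneg_left p3 hec.le) (by positivity) he.le
    rw [e, hmd]
    have s3 : (-((E * deriv chi y) * (x ^ 2 / 2)) +
        (F * deriv kk y) * (x ^ 2 / 2 - x ^ 4 / 12)) ^ 2 ≤
        2 * ((E * deriv chi y) * (x ^ 2 / 2)) ^ 2 +
        2 * ((F * deriv kk y) * (x ^ 2 / 2 - x ^ 4 / 12)) ^ 2 := by
      nlinarith [sq_nonneg ((E * deriv chi y) * (x ^ 2 / 2) +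
        (F * deriv kk y) * (x ^ 2 / 2 - x ^ 4 / 12))]
    have s4 : 0 ≤ E * (E * (Cp * chi y)) := by positivity
    have s5 : 0 ≤ E * (F * (Cp * kk y)) := by positivity
    have s6 : 6 * Cp * (E * (E * chi y + F * kk y)) =
        6 * (E * (E * (Cp * chi y))) + 6 * (E * (F * (Cp * kk y))) := by ring
    rw [s6]
    linarith
  · have e : b0y ⟨r, k, b⟩ x y = -(E * (deriv chi y * (x ^ 2 / 2))) +
        F * (deriv kk y * (x ^ 2 / 2 - x ^ 4 / 12)) := by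
      unfold b0y
      rw [← hE, ← hF]
      ring
    rw [e]
    refine (linSz_comb he.le hec.le (m := Cp * (9 / 8)) ?_ ?_).trans ?_
    · rw [abs_mul]
      exact mul_le_mul p4 q1 (abs_nonneg _) (by linarith)
    · rw [abs_mul]
      exact mul_le_mul p1 q2 (abs_nonneg _) (by linarith)
    · have h1 : E + F ≤ 2 * E := by linarith
      have h2 : 0 ≤ Cp * (9 / 8) := by linarith
      have h3 := mul_le_mul_of_nonneg_left h1 h2
      have h4 : 0 ≤ Cp * E := mul_nonneg (by linarith) he.le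
      linarith
  · have e : b0xy ⟨r, k, b⟩ x y = -(E * (deriv chi y * x)) +
        F * (deriv kk y * (x - x ^ 3 / 3)) := by
      unfold b0xy
      rw [← hE, ← hF]
      ring
    rw [e]
    refine (linSz_comb he.le hec.le (m := Cp * (3 / 2)) ?_ ?_).trans ?_
    · rw [abs_mul]
      exact mul_le_mul p4 hx (abs_nonneg _) (by linarith)
    · rw [abs_mul]
      exact mul_le_mul p1 q3 (abs_nonneg _) (by linarith)
    · have h1 : E + F ≤ 2 * E := by linarith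
      have h2 : 0 ≤ Cp * (3 / 2) := by linarith
      have h3 := mul_le_mul_of_nonneg_left h1 h2
      have h4 : 0 ≤ Cp * E := mul_nonneg (by linarith) he.le
      linarith

private theorem linSz_div {a B M : ℝ} (hB : |B - 1| ≤ 1 / 10) (ha : |a| ≤ M) :
    |a / B| ≤ 2 * M := by
  have h1 : 9 / 10 ≤ B := by
    rw [abs_le] at hB
    linarith
  have hM : 0 ≤ M := (abs_nonneg a).trans ha
  rw [abs_div, abs_of_pos (by linarith : (0 : ℝ) < B), div_le_iff₀ (by linarith)]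
  nlinarith

private theorem linSz_yy {wyy q r2 Y X w C C0 : ℝ} (hC : 0 ≤ C) (hC0 : 0 ≤ C0)
    (h1 : |wyy| ≤ C) (h2 : |q| ≤ 2 * C) (h3 : 0 ≤ r2) (h4 : r2 ≤ 1) (h5 : |Y| ≤ C0)
    (h6 : |X| ≤ 3) (h7 : |w| ≤ 3 / 100) :
    |-(wyy + q * (r2 * (Y + X * w)))| ≤ C + 2 * C * (C0 + 1) := by
  rw [abs_neg]
  refine (abs_add_le _ _).trans (add_le_add h1 ?_)
  rw [abs_mul, abs_mul, abs_of_nonneg h3]
  have e1 : |Y + X * w| ≤ C0 + 1 := by
    refine (abs_add_le _ _).trans (add_le_add h5 ?_)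
    rw [abs_mul]
    calc |X| * |w| ≤ 3 * (3 / 100) := mul_le_mul h6 h7 (abs_nonneg _) (by norm_num)
      _ ≤ 1 := by norm_num
  have e2 : r2 * |Y + X * w| ≤ 1 * (C0 + 1) := mul_le_mul h4 e1 (abs_nonneg _) (by norm_num)
  calc |q| * (r2 * |Y + X * w|) ≤ (2 * C) * (1 * (C0 + 1)) :=
        mul_le_mul h2 e2 (mul_nonneg h3 (abs_nonneg _)) (by linarith)
    _ = 2 * C * (C0 + 1) := by ring

private theorem linSz_t {r2 X q C m : ℝ} (hr : 0 ≤ r2) (hC : 0 ≤ C) (hm : 0 ≤ m)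
    (hX : |X| ≤ 3 * m) (hq : |q| ≤ 2 * C) : |r2 * X * q| ≤ 6 * C * r2 * m := by
  rw [abs_mul, abs_mul, abs_of_nonneg hr]
  calc r2 * |X| * |q| ≤ r2 * (3 * m) * (2 * C) :=
        mul_le_mul (mul_le_mul_of_nonneg_left hX hr) hq (abs_nonneg _) (by positivity)
    _ = 6 * C * r2 * m := by ring

private theorem linSz_v {r2 p q C C' mu : ℝ} (hp : |p| ≤ 7 / 5) (hq : |q| ≤ 2 * C)
    (hr : 0 ≤ r2) (hC' : 2 + 4 * C ^ 2 ≤ C') : |mu - r2 * (p ^ 2 + q ^ 2) - mu| ≤ C' * r2 := by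
  have e : mu - r2 * (p ^ 2 + q ^ 2) - mu = -(r2 * (p ^ 2 + q ^ 2)) := by ring
  rw [e, abs_neg, abs_of_nonneg (by positivity), mul_comm]
  refine mul_le_mul_of_nonneg_right ?_ hr
  have h1 : p ^ 2 ≤ 2 := by
    have h := mul_self_le_mul_self (abs_nonneg p) hp
    rw [abs_mul_abs_self] at h
    nlinarith
  have h2 : q ^ 2 ≤ 4 * C ^ 2 := by
    have h := mul_self_le_mul_self (abs_nonneg q) hq
    rw [abs_mul_abs_self] at h
    nlinarith
  linarith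

/-- sizes along a good jet. -/
theorem goodJ_size (C : ℝ) (k b : ℕ) (hC : 1 ≤ C) (hk : 10 ≤ k) :
    ∃ C' r0 : ℝ, 1 ≤ C' ∧ 0 < r0 ∧ ∀ r : ℝ, 0 < r → r < r0 → ∀ (mu : ℝ)
      (u : ℝ → ℝ → ℝ) (J : J2), 1 / C ≤ mu → mu ≤ C → GoodJ ⟨r, k, b⟩ C u J →
      ∀ p ∈ Icc (-(7 / 5) : ℝ) (7 / 5), ∀ y ∈ Icc (-YY) YY,
        |J.wp p y| ≤ 146 / 100 ∧
        |cB ⟨r, k, b⟩ J p y - 1| ≤ 2 * r ^ 2 * md ⟨r, k, b⟩ y ∧
        |cB ⟨r, k, b⟩ J p y - 1| ≤ 1 / 10 ∧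
        |cq ⟨r, k, b⟩ J p y| ≤ C' ∧
        |ct ⟨r, k, b⟩ J p y| ≤ C' * r ^ 2 * md ⟨r, k, b⟩ y ∧
        |cqp ⟨r, k, b⟩ J p y| ≤ C' ∧
        |cqy ⟨r, k, b⟩ J p y| ≤ C' ∧
        |cvp ⟨r, k, b⟩ mu J p y - mu| ≤ C' * r ^ 2 := by
  obtain ⟨C0, hC0, hb0⟩ := b0_size k b
  refine ⟨20 * C + 2 * (C + 2 * C * (C0 + 1)) + 2 + 4 * C ^ 2, 1 / 5, ?_, by norm_num, ?_⟩
  · have h1 : 0 ≤ 2 * (C + 2 * C * (C0 + 1)) := by positivity
    have h2 : 0 ≤ 4 * C ^ 2 := by positivity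
    linarith
  intro r hr hr0 mu u J hmu1 hmu2 hJ p hp y hy
  have hr1 : r ≤ 1 := by linarith
  have hD1 : 0 ≤ 2 * (C + 2 * C * (C0 + 1)) := by positivity
  have hD2 : 0 ≤ 4 * C ^ 2 := by positivity
  have hC'1 : 20 * C ≤ 20 * C + 2 * (C + 2 * C * (C0 + 1)) + 2 + 4 * C ^ 2 := by linarith
  have hC'2 : 2 * (C + 2 * C * (C0 + 1)) ≤
      20 * C + 2 * (C + 2 * C * (C0 + 1)) + 2 + 4 * C ^ 2 := by linarith
  have hC'3 : 2 + 4 * C ^ 2 ≤ 20 * C + 2 * (C + 2 * C * (C0 + 1)) + 2 + 4 * C ^ 2 := by linarith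
  generalize 20 * C + 2 * (C + 2 * C * (C0 + 1)) + 2 + 4 * C ^ 2 = C' at *
  have hx := hJ.hx p hp y hy
  have hpp := hJ.hpp p hp y hy
  have hpy := hJ.hpy p hp y hy
  have hyw := hJ.hy p hp y hy
  have hyy := hJ.hyy p hp y hy
  have habsp : |p| ≤ 7 / 5 := abs_le.mpr hp
  have hwp : |J.wp p y| ≤ 146 / 100 := by
    rw [abs_le] at hx habsp ⊢
    constructor <;> linarith [hx.1, hx.2, habsp.1, habsp.2]
  obtain ⟨z1, z2, z3, z4, z5, z6, z7⟩ := hb0 r hr hr1 (J.wp p y) y (by linarith)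
  have hmd0 := md_nonneg (Par.mk r k b) hr y
  have hmdE := md_le_eps (Par.mk r k b) hr hr1 y
  have hE1 : (Par.mk r k b).eps ≤ 1 := pow_le_one₀ hr.le hr1
  have hE0 : 0 < (Par.mk r k b).eps := pow_pos hr _
  have hmd1 : md ⟨r, k, b⟩ y ≤ 1 := hmdE.trans hE1
  have hr2 : 0 < r ^ 2 := by positivity
  have hr2' : r ^ 2 ≤ 1 / 25 := by nlinarith
  set m : ℝ := md ⟨r, k, b⟩ y with hm
  have hB : |cB ⟨r, k, b⟩ J p y - 1| ≤ 2 * r ^ 2 * m := by
    have e : cB ⟨r, k, b⟩ J p y - 1 = r ^ 2 * b0 ⟨r, k, b⟩ (J.wp p y) y := by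
      unfold cB
      ring
    rw [e, abs_mul, abs_of_pos hr2]
    have := mul_le_mul_of_nonneg_left z1 hr2.le
    linarith
  have hB' : |cB ⟨r, k, b⟩ J p y - 1| ≤ 1 / 10 := by
    refine hB.trans ?_
    have : r ^ 2 * m ≤ 1 / 25 * 1 := mul_le_mul hr2' hmd1 hmd0 (by norm_num)
    linarith
  have hq : |cq ⟨r, k, b⟩ J p y| ≤ 2 * C := by
    unfold cq
    refine linSz_div hB' ?_
    rw [abs_neg]
    exact hyw
  have ht : |ct ⟨r, k, b⟩ J p y| ≤ 6 * C * r ^ 2 * m :=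
    linSz_t hr2.le (by linarith) hmd0 z2 hq
  have hr2m : r ^ 2 * m ≤ 1 := by
    calc r ^ 2 * m ≤ 1 / 25 * 1 := mul_le_mul hr2' hmd1 hmd0 (by norm_num)
      _ ≤ 1 := by norm_num
  have ht' : |ct ⟨r, k, b⟩ J p y| ≤ 6 * C := by
    refine ht.trans ?_
    have : 6 * C * (r ^ 2 * m) ≤ 6 * C * 1 := mul_le_mul_of_nonneg_left hr2m (by linarith)
    linarith
  have hwpp : |J.wpp p y| ≤ 51 / 50 := by
    rw [abs_le] at hpp ⊢
    constructor <;> linarith [hpp.1, hpp.2]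
  refine ⟨hwp, hB, hB', by linarith, ?_, ?_, ?_, ?_⟩
  · refine ht.trans ?_
    have h1 : 0 ≤ r ^ 2 * m := mul_nonneg hr2.le hmd0
    have h2 : 6 * C * (r ^ 2 * m) ≤ C' * (r ^ 2 * m) :=
      mul_le_mul_of_nonneg_right (by linarith) h1
    linarith
  · unfold cqp
    refine (linSz_div hB' (M := 10 * C) ?_).trans (by linarith)
    rw [abs_neg]
    refine (abs_add_le _ _).trans ?_
    rw [abs_mul]
    have h1 : |ct ⟨r, k, b⟩ J p y| * |J.wpp p y| ≤ 6 * C * (51 / 50) :=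
      mul_le_mul ht' hwpp (abs_nonneg _) (by linarith)
    linarith
  · unfold cqy
    refine (linSz_div hB' (M := C + 2 * C * (C0 + 1)) ?_).trans (by linarith)
    exact linSz_yy (by linarith) (by linarith) hyy hq hr2.le (by linarith) (z6.trans
      (mul_le_of_le_one_right (by linarith) hE1)) (z2.trans (by linarith)) hpy
  · exact linSz_v habsp hq hr2.le hC'3

end

end P229
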