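import Vale.Agent.P229.T.VID
import Vale.Agent.P229.T.Prof
import Vale.Agent.P229.T.Ell

/-!
# P229 block T: start of the energy estimate in the elliptic zone  (module T_T0A)
Multiplier `om v`, `om = 1/cosh((p+13/10)/W)`, `W = K s`, on `[-7/5,-6/5] x [-YY,YY]`.
Use `T.weak` with `φ = om V.w`, then `ell_energy` (the `y`-boundary term vanishes).  There
`a ≤ -29/100 mu md` everywhere (`core0` for `|y| ≤ 2`, `lay1` for `|y| ≥ 2`).
Boundary terms at `p = -7/5, -6/5`: `om <= r^(2N)`, everything else bounded.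
-/

namespace P229

open Set Real MeasureTheory
open scoped ContDiff

noncomputable section

/-- the weight `1/cosh((p+13/10)/W)`. -/
def om (P : Par) (C p : ℝ) : ℝ := 1 / Real.cosh ((p + 13 / 10) / WW P C)

/-- the weight is exponentially small away from `-13/10` (and `W ≤ 1/100`). -/
theorem om_small (C : ℝ) (hC : 1 ≤ C) (k b N : ℕ) (hk : 10 ≤ k) :
    ∃ r0 : ℝ, 0 < r0 ∧ ∀ r : ℝ, 0 < r → r < r0 →
      WW ⟨r, k, b⟩ C ≤ 1 / 100 ∧
      ∀ p : ℝ, 1 / 10 ≤ |p + 13 / 10| → om ⟨r, k, b⟩ C p ≤ r ^ N := by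
  have hK1 : 1 ≤ KW C := by unfold KW; nlinarith
  have hK0 : 0 < KW C := by linarith
  have hf : (1 : ℝ) ≤ ((N + 1).factorial : ℝ) := by
    exact_mod_cast Nat.one_le_iff_ne_zero.2 (Nat.factorial_ne_zero _)
  set M : ℝ := 2 * ((N + 1).factorial : ℝ) * (10 * KW C) ^ (N + 1) with hM
  have hp1 : (1 : ℝ) ≤ (10 * KW C) ^ (N + 1) := one_le_pow₀ (by linarith)
  have hM1 : 1 ≤ M := by
    rw [hM]
    nlinarith
  have hM0 : 0 < M := by linarith
  refine ⟨1 / (100 * KW C * M), by positivity, fun r hr hr0 => ?_⟩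
  have hrM : r * (100 * KW C * M) < 1 := by rwa [lt_div_iff₀ (by positivity)] at hr0
  have hKM : 1 ≤ KW C * M := by nlinarith
  have hKr : KW C * r ≤ 1 / 100 := by
    have h1 : KW C * r ≤ KW C * r * M := le_mul_of_one_le_right (by positivity) hM1
    nlinarith
  have hMr : M * r ≤ 1 := by
    have h1 : M * r ≤ M * r * KW C := le_mul_of_one_le_right (by positivity) hK1
    nlinarith [mul_pos hM0 hr]
  have hr1 : r ≤ 1 := by nlinarith
  have hs : (⟨r, k, b⟩ : Par).s ≤ r := by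
    change r ^ (10 * k) ≤ r
    exact pow_le_of_le_one hr.le hr1 (by omega)
  have hs0 : 0 < (⟨r, k, b⟩ : Par).s := by
    change 0 < r ^ (10 * k)
    positivity
  have hW : WW ⟨r, k, b⟩ C ≤ KW C * r := mul_le_mul_of_nonneg_left hs hK0.le
  have hW0 : 0 < WW ⟨r, k, b⟩ C := mul_pos hK0 hs0
  refine ⟨hW.trans hKr, fun p hp => ?_⟩
  unfold om
  set x := (p + 13 / 10) / WW ⟨r, k, b⟩ C with hx
  have hx1 : 1 / (10 * KW C * r) ≤ |x| := by
    rw [hx, abs_div, abs_of_pos hW0, div_le_div_iff₀ (by positivity) hW0]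
    calc 1 * WW ⟨r, k, b⟩ C ≤ KW C * r := by rw [one_mul]; exact hW
      _ = (1 / 10) * (10 * KW C * r) := by ring
      _ ≤ |p + 13 / 10| * (10 * KW C * r) := mul_le_mul_of_nonneg_right hp (by positivity)
  have hy0 : 0 ≤ 1 / (10 * KW C * r) := by positivity
  have h1 : (1 / (10 * KW C * r)) ^ (N + 1) / ((N + 1).factorial : ℝ) ≤ 2 * Real.cosh x := by
    calc (1 / (10 * KW C * r)) ^ (N + 1) / ((N + 1).factorial : ℝ)
        ≤ Real.exp (1 / (10 * KW C * r)) := Real.pow_div_factorial_le_exp _ hy0 _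
      _ ≤ Real.exp |x| := Real.exp_le_exp.2 hx1
      _ ≤ 2 * Real.cosh |x| := by
          rw [Real.cosh_eq]
          have := Real.exp_pos (-|x|)
          linarith
      _ = 2 * Real.cosh x := by rw [Real.cosh_abs]
  have hc : 0 < Real.cosh x := Real.cosh_pos x
  rw [div_le_iff₀ hc]
  have h2 : (1 / (10 * KW C * r)) ^ (N + 1) / ((N + 1).factorial : ℝ) * r ^ N
      = 2 * (1 / (M * r)) := by
    rw [hM, div_pow, one_pow, mul_pow (10 * KW C) r, pow_succ r N]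
    have h3 : (10 * KW C) ^ (N + 1) ≠ 0 := by positivity
    have h4 : ((N + 1).factorial : ℝ) ≠ 0 := by positivity
    have h5 : r ^ N ≠ 0 := by positivity
    have h6 : r ≠ 0 := hr.ne'
    field_simp
  have h3 : 1 ≤ 1 / (M * r) := by
    rw [le_div_iff₀ (by positivity), one_mul]
    exact hMr
  have h4 : (1 / (10 * KW C * r)) ^ (N + 1) / ((N + 1).factorial : ℝ) * r ^ N
      ≤ 2 * Real.cosh x * r ^ N := mul_le_mul_of_nonneg_right h1 (by positivity)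
  rw [h2] at h4
  nlinarith

/-- derivative of the weight -/
private def omd (P : Par) (C p : ℝ) : ℝ :=
  -(Real.sinh ((p + 13 / 10) / WW P C) * (1 / WW P C)) / Real.cosh ((p + 13 / 10) / WW P C) ^ 2

private theorem t0a_om_deriv (P : Par) (C p : ℝ) : HasDerivAt (om P C) (omd P C p) p := by
  have h1 : HasDerivAt (fun p : ℝ => (p + 13 / 10) / WW P C) (1 / WW P C) p :=
    ((hasDerivAt_id p).add_const _).div_const _
  have h2 := h1.cosh.fun_inv (Real.cosh_pos _).ne'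
  have h3 : om P C = fun p => (Real.cosh ((p + 13 / 10) / WW P C))⁻¹ := by
    funext q; unfold om; rw [one_div]
  rw [h3]
  exact h2

private theorem t0a_om_pos (P : Par) (C p : ℝ) : 0 < om P C p := by
  unfold om
  exact one_div_pos.2 (Real.cosh_pos _)

private theorem t0a_om_le_one (P : Par) (C p : ℝ) : om P C p ≤ 1 := by
  unfold om
  rw [div_le_one (Real.cosh_pos _)]
  exact Real.one_le_cosh _

private theorem t0a_omd_cont (P : Par) (C : ℝ) : Continuous (omd P C) := by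
  unfold omd
  refine Continuous.div ?_ ?_ (fun p => (pow_pos (Real.cosh_pos _) 2).ne')
  · exact ((Real.continuous_sinh.comp (by fun_prop)).mul continuous_const).neg
  · exact (Real.continuous_cosh.comp (by fun_prop)).pow 2

private theorem t0a_om_cont (P : Par) (C : ℝ) : Continuous (om P C) :=
  continuous_iff_continuousAt.2 fun p => (t0a_om_deriv P C p).continuousAt

private theorem t0a_omd_le (P : Par) (C p : ℝ) (hW : 0 < WW P C) :
    |omd P C p| ≤ om P C p / WW P C := by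
  unfold omd om
  set x := (p + 13 / 10) / WW P C
  have hc := Real.cosh_pos x
  have h1 : |Real.sinh x| ≤ Real.cosh x := by
    rw [Real.abs_sinh, ← Real.cosh_abs x]
    exact (Real.sinh_lt_cosh _).le
  rw [abs_div, abs_neg, abs_mul, abs_of_pos (pow_pos hc 2), abs_of_pos (one_div_pos.2 hW)]
  calc |Real.sinh x| * (1 / WW P C) / Real.cosh x ^ 2
      ≤ Real.cosh x * (1 / WW P C) / Real.cosh x ^ 2 := by gcongr
    _ = 1 / Real.cosh x / WW P C := by field_simp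

private theorem t0a_ap {P : Par} {mu C : ℝ} {ast : ℝ → ℝ} {κ : Coef} (hκ : κ.Good P mu C ast)
    (hr : 0 < P.r) (hmu : 0 ≤ mu) {p y : ℝ} (hp : p ∈ Icc (-(7 / 5) : ℝ) (-(6 / 5)))
    (hy : y ∈ Icc (-YY) YY) : κ.a p y ≤ -(29 / 100 * mu * md P y) := by
  have hp' : p ∈ Icc (-(7 / 5) : ℝ) (7 / 5) := ⟨hp.1, hp.2.trans (by norm_num)⟩
  have hpa : 6 / 5 ≤ |p| := by rw [le_abs]; right; linarith [hp.2]
  have hm := mul_nonneg hmu (md_nonneg P hr y)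
  rcases le_total (|y|) 2 with h | h
  · exact hκ.core0 p hp' y hpa h
  · have := (hκ.lay1 p hp' y hy h).1
    nlinarith

private theorem t0a_A1 {z z' t tp W C r m : ℝ} (hz : 0 ≤ z) (hW : 0 < W) (hz' : |z'| ≤ z / W)
    (hC : 1 ≤ C) (hr : 0 < r) (hCr : C * r ≤ 1 / 4000) (hr1 : r ≤ 1)
    (hm1 : m ≤ 1) (hmW : m ≤ W) (ht : |t| ≤ C * r ^ 2 * m) (htp : |tp| ≤ C * r ^ 2 * m) :
    |z' * t + z * tp| ≤ 1 / 2000 * z := by
  have h1 : |z' * t| ≤ z * (C * r ^ 2) := by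
    rw [abs_mul]
    calc |z'| * |t| ≤ (z / W) * (C * r ^ 2 * m) :=
          mul_le_mul hz' ht (abs_nonneg _) (by positivity)
      _ = z * (C * r ^ 2) * (m / W) := by ring
      _ ≤ z * (C * r ^ 2) * 1 :=
          mul_le_mul_of_nonneg_left ((div_le_one hW).2 hmW) (by positivity)
      _ = _ := mul_one _
  have h2 : |z * tp| ≤ z * (C * r ^ 2) := by
    rw [abs_mul, abs_of_nonneg hz]
    refine mul_le_mul_of_nonneg_left (htp.trans ?_) hz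
    exact mul_le_of_le_one_right (by positivity) hm1
  have h3 : C * r ^ 2 ≤ 1 / 4000 := by
    calc C * r ^ 2 = (C * r) * r := by ring
      _ ≤ (1 / 4000) * 1 := mul_le_mul hCr hr1 hr.le (by norm_num)
      _ = 1 / 4000 := by ring
  calc |z' * t + z * tp| ≤ |z' * t| + |z * tp| := abs_add_le _ _
    _ ≤ z * (C * r ^ 2) + z * (C * r ^ 2) := add_le_add h1 h2
    _ ≤ z * (1 / 4000) + z * (1 / 4000) := by gcongr
    _ = 1 / 2000 * z := by ring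

private theorem t0a_A2 {z z' a W : ℝ} (hW : 0 < W) (hz' : |z'| ≤ z / W)
    (ha0 : a ≤ 0) (ha : -a ≤ W ^ 2 / 2000) : z' ^ 2 * (-a) ≤ 1 / 2000 * z ^ 2 := by
  have h1 : z' ^ 2 ≤ (z / W) ^ 2 := by
    rw [← sq_abs z']
    exact pow_le_pow_left₀ (abs_nonneg _) hz' 2
  calc z' ^ 2 * (-a) ≤ (z / W) ^ 2 * (W ^ 2 / 2000) :=
        mul_le_mul h1 ha (by linarith) (by positivity)
    _ = 1 / 2000 * z ^ 2 := by field_simp

private theorem t0a_sq {x C r m mu : ℝ} (hC : 1 ≤ C) (hr : 0 < r)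
    (h3 : C ^ 3 * r ^ 4 ≤ 1 / 10 ^ 10) (hm0 : 0 ≤ m) (hm1 : m ≤ 1) (hmu : 1 / C ≤ mu)
    (hx : |x| ≤ C * r ^ 2 * m) : (2000 * x) ^ 2 ≤ 29 / 100 * mu * m := by
  have hC0 : 0 < C := by linarith
  have hmu0 : 0 < mu := lt_of_lt_of_le (by positivity) hmu
  have h1 : x ^ 2 ≤ (C * r ^ 2 * m) ^ 2 := by
    rw [← sq_abs x]
    exact pow_le_pow_left₀ (abs_nonneg _) hx 2
  have h2 : (C * r ^ 2 * m) ^ 2 ≤ C ^ 2 * r ^ 4 * m := by
    have hmm : m ^ 2 ≤ m := by nlinarith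
    calc (C * r ^ 2 * m) ^ 2 = C ^ 2 * r ^ 4 * m ^ 2 := by ring
      _ ≤ C ^ 2 * r ^ 4 * m := mul_le_mul_of_nonneg_left hmm (by positivity)
  have h4 : C ^ 2 * r ^ 4 ≤ 1 / 10 ^ 10 * mu := by
    have e : C ^ 2 * r ^ 4 = C ^ 3 * r ^ 4 * (1 / C) := by field_simp
    rw [e]
    exact mul_le_mul h3 hmu (by positivity) (by positivity)
  have h5 : C ^ 2 * r ^ 4 * m ≤ 1 / 10 ^ 10 * mu * m := mul_le_mul_of_nonneg_right h4 hm0
  have h6 : 0 ≤ mu * m := by positivity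
  calc (2000 * x) ^ 2 = 4000000 * x ^ 2 := by ring
    _ ≤ 4000000 * (1 / 10 ^ 10 * mu * m) := by linarith
    _ ≤ 29 / 100 * mu * m := by linarith

private theorem t0a_A3 {h d g wp gd a e0 : ℝ} (hh : |h| ≤ e0) (hd : |d| ≤ 1 / 2000 * √(-a))
    (hg : |g| ≤ 1 / 2000) :
    |h - (d * wp + g * gd)| ≤ e0 + 1 / 2000 * (√(-a) * |wp| + |gd|) := by
  have h1 : |d * wp| ≤ 1 / 2000 * √(-a) * |wp| := by
    rw [abs_mul]; exact mul_le_mul_of_nonneg_right hd (abs_nonneg _)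
  have h2 : |g * gd| ≤ 1 / 2000 * |gd| := by
    rw [abs_mul]; exact mul_le_mul_of_nonneg_right hg (abs_nonneg _)
  have h3 := abs_sub h (d * wp + g * gd)
  have h4 := abs_add_le (d * wp) (g * gd)
  linarith

private theorem t0a_en {wy wp t a mu m : ℝ} (h1 : t ^ 2 ≤ -a) (h2 : 29 / 100 * mu * m ≤ -a) :
    wy ^ 2 + mu * m * wp ^ 2 ≤ 6 * ((wy + t * wp) ^ 2 + (-a) * wp ^ 2) := by
  have h3 := mul_le_mul_of_nonneg_right h1 (sq_nonneg wp)
  have h4 := mul_le_mul_of_nonneg_right h2 (sq_nonneg wp)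
  nlinarith [sq_nonneg (wy + t * wp + t * wp), sq_nonneg (wy + t * wp),
    mul_nonneg ((sq_nonneg t).trans h1) (sq_nonneg wp)]

private theorem t0a_bdry {z w t g a wp e C : ℝ} (hC : 1 ≤ C) (hz : 0 ≤ z) (hze : z ≤ e)
    (hw : |w| ≤ 1) (ht : |t| ≤ C) (hg : |g| ≤ 1 + C) (ha : |a| ≤ 2 * C) (hwp : |wp| ≤ 1) :
    |z * w * (t * g - a * wp)| ≤ e * (C * (1 + C) + 2 * C) := by
  have h1 : |t * g - a * wp| ≤ C * (1 + C) + 2 * C := by
    calc |t * g - a * wp| ≤ |t * g| + |a * wp| := abs_sub _ _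
      _ ≤ C * (1 + C) + 2 * C := by
          rw [abs_mul, abs_mul]
          have h2 : |t| * |g| ≤ C * (1 + C) := mul_le_mul ht hg (abs_nonneg _) (by linarith)
          have h3 : |a| * |wp| ≤ 2 * C * 1 := mul_le_mul ha hwp (abs_nonneg _) (by linarith)
          linarith
  rw [abs_mul, abs_mul, abs_of_nonneg hz]
  have h4 : z * |w| ≤ e := by
    calc z * |w| ≤ z * 1 := mul_le_mul_of_nonneg_left hw hz
      _ ≤ e := by rw [mul_one]; exact hze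
  exact mul_le_mul h4 h1 (abs_nonneg _) (hz.trans hze)

private theorem t0a_jet {P : Par} {mu C : ℝ} {ast : ℝ → ℝ} {κ : Coef}
    (hκ : κ.Good P mu C ast) :
    CoefJet (-(7 / 5)) (7 / 5) (-YY) YY κ.t κ.tp κ.ty κ.a κ.ap where
  ctau := hκ.ct
  ctaup := hκ.ctp
  ctauy := hκ.cty
  cal := hκ.ca
  calp := hκ.cap
  htaup := hκ.htp
  htauy := hκ.hty
  halp := hκ.hap

/-- smallness of `r` -/
private theorem t0a_small {C r : ℝ} (hC : 1 ≤ C) (hr : 0 < r) (h : r < 1 / (4000 * C)) :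
    r ≤ 1 / 4000 ∧ C * r ≤ 1 / 4000 ∧ C ^ 3 * r ^ 4 ≤ 1 / 10 ^ 10 ∧ C * r ^ 4 ≤ 1 / 10 ^ 10 := by
  have hC0 : 0 < C := by linarith
  rw [lt_div_iff₀ (by positivity)] at h
  have h1 : C * r ≤ 1 / 4000 := by linarith
  have h2 : r ≤ 1 / 4000 := by
    have : r ≤ C * r := le_mul_of_one_le_left hr.le hC
    linarith
  have h3 : C ^ 3 * r ^ 4 ≤ 1 / 10 ^ 10 := by
    calc C ^ 3 * r ^ 4 = (C * r) ^ 3 * r := by ring
      _ ≤ (1 / 4000) ^ 3 * (1 / 4000) := by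
          refine mul_le_mul (pow_le_pow_left₀ (by positivity) h1 3) h2 hr.le (by norm_num)
      _ ≤ 1 / 10 ^ 10 := by norm_num
  refine ⟨h2, h1, h3, ?_⟩
  have h4 : C * r ^ 4 ≤ C ^ 3 * r ^ 4 := by
    refine mul_le_mul_of_nonneg_right ?_ (by positivity)
    exact le_self_pow₀ hC (by norm_num)
  linarith

/-- all pointwise bounds for one choice of coefficients -/
private theorem t0a_pt {k b : ℕ} {r mu C : ℝ} {ast : ℝ → ℝ} {κ : Coef} (hC : 1 ≤ C)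
    (hr : 0 < r) (hr1 : r < 1 / (4000 * C)) (hmu : 1 / C ≤ mu) (hmu2 : mu ≤ C)
    (hκ : κ.Good ⟨r, k, b⟩ mu C ast) {p y : ℝ} (hp : p ∈ Icc (-(7 / 5) : ℝ) (-(6 / 5)))
    (hy : y ∈ Icc (-YY) YY) :
    κ.a p y ≤ 0 ∧ 29 / 100 * mu * md ⟨r, k, b⟩ y ≤ -κ.a p y ∧
      |κ.a p y| ≤ 2 * C ∧ |κ.t p y| ≤ C ∧
      |omd ⟨r, k, b⟩ C p * κ.t p y + om ⟨r, k, b⟩ C p * κ.tp p y|
        ≤ 1 / 2000 * om ⟨r, k, b⟩ C p ∧
      omd ⟨r, k, b⟩ C p ^ 2 * (-κ.a p y) ≤ 1 / 2000 * om ⟨r, k, b⟩ C p ^ 2 ∧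
      κ.t p y ^ 2 ≤ -κ.a p y ∧ |κ.d p y| ≤ 1 / 2000 * √(-κ.a p y) ∧ |κ.g p y| ≤ 1 / 2000 := by
  have hC0 : 0 < C := by linarith
  have hmu0 : 0 < mu := lt_of_lt_of_le (by positivity) hmu
  obtain ⟨s1, s2, s3, s4⟩ := t0a_small hC hr hr1
  have hr1' : r ≤ 1 := by linarith
  have hp' : p ∈ Icc (-(7 / 5) : ℝ) (7 / 5) := ⟨hp.1, hp.2.trans (by norm_num)⟩
  have hm0 : 0 ≤ md ⟨r, k, b⟩ y := md_nonneg ⟨r, k, b⟩ hr y
  have hme : md ⟨r, k, b⟩ y ≤ (⟨r, k, b⟩ : Par).eps := md_le_eps ⟨r, k, b⟩ hr hr1' y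
  have hs0 : 0 < (⟨r, k, b⟩ : Par).s := by
    change 0 < r ^ (10 * k)
    positivity
  have hs1 : (⟨r, k, b⟩ : Par).s ≤ 1 := by
    change r ^ (10 * k) ≤ 1
    exact pow_le_one₀ hr.le hr1'
  have hee : (⟨r, k, b⟩ : Par).eps = (⟨r, k, b⟩ : Par).s ^ 2 := by
    change r ^ (20 * k) = (r ^ (10 * k)) ^ 2
    rw [← pow_mul]
    congr 1
    ring
  have he1 : (⟨r, k, b⟩ : Par).eps ≤ 1 := by rw [hee]; exact pow_le_one₀ hs0.le hs1
  have he0 : 0 ≤ (⟨r, k, b⟩ : Par).eps := by rw [hee]; positivity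
  have hm1 : md ⟨r, k, b⟩ y ≤ 1 := hme.trans he1
  have hK : 1 ≤ KW C := by unfold KW; nlinarith
  have hK2 : 4000 * C ≤ KW C ^ 2 := by
    have h1 : 4000 * C ≤ KW C := by unfold KW; nlinarith
    nlinarith
  have hW0 : 0 < WW ⟨r, k, b⟩ C := mul_pos (by linarith) hs0
  have hWs : (⟨r, k, b⟩ : Par).s ≤ WW ⟨r, k, b⟩ C := le_mul_of_one_le_left hs0.le hK
  have hmW : md ⟨r, k, b⟩ y ≤ WW ⟨r, k, b⟩ C := by
    refine hme.trans (le_trans ?_ hWs)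
    rw [hee]
    nlinarith
  have ha := t0a_ap hκ hr hmu0.le hp hy
  have hmm : 0 ≤ mu * md ⟨r, k, b⟩ y := mul_nonneg hmu0.le hm0
  have ha0 : κ.a p y ≤ 0 := by nlinarith
  have hba := hκ.ba p hp' y hy
  have hba2 : |κ.a p y| ≤ 2 * C * md ⟨r, k, b⟩ y := by
    refine hba.trans ?_
    gcongr
  have ht := hκ.bt p hp' y hy
  have htp := hκ.btp p hp' y hy
  have hd := hκ.bd p hp' y hy
  have hg := hκ.bg p hp' y hy
  have hrr : r ^ 2 ≤ 1 := pow_le_one₀ hr.le hr1'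
  have hom := (t0a_om_pos ⟨r, k, b⟩ C p).le
  refine ⟨ha0, by linarith, ?_, ?_, ?_, ?_, ?_, ?_, ?_⟩
  · refine hba2.trans ?_
    exact mul_le_of_le_one_right (by positivity) hm1
  · refine ht.trans ?_
    calc C * r ^ 2 * md ⟨r, k, b⟩ y ≤ C * 1 * 1 := by
          refine mul_le_mul (mul_le_mul_of_nonneg_left hrr hC0.le) hm1 hm0 (by positivity)
      _ = C := by ring
  · exact t0a_A1 hom hW0 (t0a_omd_le _ C p hW0) hC hr s2 hr1' hm1 hmW ht htp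
  · refine t0a_A2 hW0 (t0a_omd_le _ C p hW0) ha0 ?_
    have h1 : -κ.a p y ≤ 2 * C * md ⟨r, k, b⟩ y := (neg_le_abs _).trans hba2
    have h2 : 2 * C * md ⟨r, k, b⟩ y ≤ 2 * C * (⟨r, k, b⟩ : Par).s ^ 2 := by
      rw [← hee]
      exact mul_le_mul_of_nonneg_left hme (by positivity)
    have h3 : WW ⟨r, k, b⟩ C ^ 2 = KW C ^ 2 * (⟨r, k, b⟩ : Par).s ^ 2 := by
      unfold WW; ring
    have h4 : 4000 * C * (⟨r, k, b⟩ : Par).s ^ 2 ≤ KW C ^ 2 * (⟨r, k, b⟩ : Par).s ^ 2 :=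
      mul_le_mul_of_nonneg_right hK2 (by positivity)
    rw [h3]
    linarith
  · have h1 := t0a_sq hC hr s3 hm0 hm1 hmu ht
    nlinarith [sq_nonneg (κ.t p y)]
  · have h1 := t0a_sq hC hr s3 hm0 hm1 hmu hd
    have h2 : |2000 * κ.d p y| ≤ √(-κ.a p y) := Real.abs_le_sqrt (by linarith)
    rw [abs_mul, abs_of_pos (by norm_num : (0 : ℝ) < 2000)] at h2
    linarith
  · refine abs_le_of_sq_le_sq (hg.trans ?_) (by norm_num)
    calc C * r ^ 4 * (⟨r, k, b⟩ : Par).eps * md ⟨r, k, b⟩ y ≤ 1 / 10 ^ 10 * 1 * 1 := by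
          refine mul_le_mul (mul_le_mul s4 he1 he0 (by norm_num)) hm1 hm0 (by norm_num)
      _ ≤ (1 / 2000) ^ 2 := by norm_num

/-- boundary terms -/
private theorem t0a_bd {k b N : ℕ} {r mu C q : ℝ} {ast : ℝ → ℝ} {κ : Coef} (hC : 1 ≤ C)
    (hr : 0 < r) (hr1 : r < 1 / (4000 * C)) (hmu : 1 / C ≤ mu) (hmu2 : mu ≤ C)
    (hκ : κ.Good ⟨r, k, b⟩ mu C ast) {V : J2} {h : ℝ → ℝ → ℝ}
    (hT : TData ⟨r, k, b⟩ mu C N ast V h) (hq : q ∈ Icc (-(7 / 5) : ℝ) (-(6 / 5)))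
    (hom : om ⟨r, k, b⟩ C q ≤ r ^ (2 * N)) :
    |∫ y in (-YY)..YY, om ⟨r, k, b⟩ C q * V.w q y * (κ.t q y * gD V κ.t q y
        - κ.a q y * V.wp q y)| ≤ r ^ (2 * N) * (C * (1 + C) + 2 * C) * (2 * YY) := by
  have hY : (0 : ℝ) < YY := by unfold YY; norm_num
  have hq' : q ∈ Icc (-(7 / 5) : ℝ) (7 / 5) := ⟨hq.1, hq.2.trans (by norm_num)⟩
  have h1 : ∀ y ∈ Set.uIoc (-YY) YY, ‖om ⟨r, k, b⟩ C q * V.w q y * (κ.t q y * gD V κ.t q y
        - κ.a q y * V.wp q y)‖ ≤ r ^ (2 * N) * (C * (1 + C) + 2 * C) := by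
    intro y hy
    rw [uIoc_of_le (by linarith)] at hy
    have hy' : y ∈ Icc (-YY) YY := ⟨hy.1.le, hy.2⟩
    obtain ⟨-, -, ha, ht, -⟩ := t0a_pt hC hr hr1 hmu hmu2 hκ hq hy'
    obtain ⟨b1, b2, b3⟩ := hT.bw q hq' y hy'
    rw [Real.norm_eq_abs]
    refine t0a_bdry hC (t0a_om_pos _ C q).le hom b1 ht ?_ ha b2
    unfold gD
    calc |V.wy q y + κ.t q y * V.wp q y| ≤ |V.wy q y| + |κ.t q y * V.wp q y| := abs_add_le _ _
      _ ≤ 1 + C * 1 := by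
          rw [abs_mul]
          exact add_le_add b3 (mul_le_mul ht b2 (abs_nonneg _) (by linarith))
      _ = 1 + C := by ring
  have h2 := intervalIntegral.norm_integral_le_of_norm_le_const h1
  rw [Real.norm_eq_abs, abs_of_pos (by linarith : (0 : ℝ) < YY - -YY)] at h2
  refine h2.trans (le_of_eq ?_)
  ring

/-- the weak equation in the form used by `ell_energy` -/
private theorem t0a_weak {P : Par} {mu C : ℝ} {ast : ℝ → ℝ} {κ : Coef}
    (hκ : κ.Good P mu C ast) {V : J2} {h : ℝ → ℝ → ℝ} {N : ℕ}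
    (hT : TData P mu C N ast V h)
    (hw : II (-(7 / 5)) (-(6 / 5)) (-YY) YY
        (fun p y => om P C p * V.w p y * κ.L V p y)
      = II (-(7 / 5)) (-(6 / 5)) (-YY) YY (fun p y => om P C p * V.w p y * h p y)) :
    I2 (-(7 / 5)) (-(6 / 5)) (-YY) YY
        (fun p y => om P C p * V.w p y * L0 V κ.t κ.tp κ.ty κ.a κ.ap p y)
      = I2 (-(7 / 5)) (-(6 / 5)) (-YY) YY (fun p y => om P C p * V.w p y *
          (h p y - (κ.d p y * V.wp p y + κ.g p y * gD V κ.t p y))) := by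
  have hY : -YY ≤ YY := by unfold YY; norm_num
  have hab : (-(7 / 5) : ℝ) ≤ -(6 / 5) := by norm_num
  have hm : ∀ {f : ℝ → ℝ → ℝ}, CR (-(7 / 5)) (7 / 5) (-YY) YY f →
      CR (-(7 / 5)) (-(6 / 5)) (-YY) YY f :=
    fun hf => hf.mono le_rfl (by norm_num) le_rfl le_rfl
  have cw : CR (-(7 / 5)) (-(6 / 5)) (-YY) YY V.w := hm hT.jet.cw
  have cwp : CR (-(7 / 5)) (-(6 / 5)) (-YY) YY V.wp := hm hT.jet.cwp
  have cd : CR (-(7 / 5)) (-(6 / 5)) (-YY) YY κ.d := hm hκ.cd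
  have cg : CR (-(7 / 5)) (-(6 / 5)) (-YY) YY κ.g := hm hκ.cg
  have ch : CR (-(7 / 5)) (-(6 / 5)) (-YY) YY h := hm hT.ch
  have cgD : CR (-(7 / 5)) (-(6 / 5)) (-YY) YY (gD V κ.t) := hm (cr_gD hT.jet (t0a_jet hκ))
  have cL0 : CR (-(7 / 5)) (-(6 / 5)) (-YY) YY (L0 V κ.t κ.tp κ.ty κ.a κ.ap) :=
    hm (cr_L0 hT.jet (t0a_jet hκ))
  have co : CR (-(7 / 5)) (-(6 / 5)) (-YY) YY (fun p _ => om P C p) :=
    CR.ofP (t0a_om_cont P C).continuousOn
  have cE : CR (-(7 / 5)) (-(6 / 5)) (-YY) YY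
      (fun p y => κ.d p y * V.wp p y + κ.g p y * gD V κ.t p y) :=
    (cd.mul cwp).add (cg.mul cgD)
  have cz := co.mul cw
  have e1 : II (-(7 / 5)) (-(6 / 5)) (-YY) YY (fun p y => om P C p * V.w p y * κ.L V p y)
      = I2 (-(7 / 5)) (-(6 / 5)) (-YY) YY (fun p y =>
          om P C p * V.w p y * L0 V κ.t κ.tp κ.ty κ.a κ.ap p y
          + om P C p * V.w p y * (κ.d p y * V.wp p y + κ.g p y * gD V κ.t p y)) := by
    refine I2_congr hab hY (fun p _ y _ => ?_)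
    unfold Coef.L L0 gDy gDp Coef.gd gD
    ring
  have e2 : I2 (-(7 / 5)) (-(6 / 5)) (-YY) YY (fun p y => om P C p * V.w p y *
          (h p y - (κ.d p y * V.wp p y + κ.g p y * gD V κ.t p y)))
      = I2 (-(7 / 5)) (-(6 / 5)) (-YY) YY (fun p y => om P C p * V.w p y * h p y
          - om P C p * V.w p y * (κ.d p y * V.wp p y + κ.g p y * gD V κ.t p y)) :=
    I2_congr hab hY (fun p _ y _ => by ring)
  rw [e1, I2_add hab hY (cz.mul cL0) (cz.mul cE)] at hw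
  rw [e2, I2_sub hab hY (cz.mul ch) (cz.mul cE)]
  have e3 : I2 (-(7 / 5)) (-(6 / 5)) (-YY) YY (fun p y => om P C p * V.w p y * h p y)
      = II (-(7 / 5)) (-(6 / 5)) (-YY) YY (fun p y => om P C p * V.w p y * h p y) := rfl
  rw [e3]
  linarith

theorem T0A (C : ℝ) (hC : 1 ≤ C) (k b N : ℕ) (hk : 10 ≤ k) (hN : 100 * (k + 1) ≤ N) :
    ∃ C' r0 : ℝ, 0 < C' ∧ 0 < r0 ∧ ∀ r : ℝ, 0 < r → r < r0 →
      ∀ (mu : ℝ) (ast : ℝ → ℝ) (V : J2) (h : ℝ → ℝ → ℝ), 1 / C ≤ mu → mu ≤ C →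
        TData ⟨r, k, b⟩ mu C N ast V h →
        II (-(7 / 5)) (-(6 / 5)) (-YY) YY
            (fun p y => om ⟨r, k, b⟩ C p * en ⟨r, k, b⟩ mu V p y)
          ≤ C' * r ^ (2 * N) := by
  have hC0 : 0 < C := by linarith
  have hY0 : (0 : ℝ) < YY := by unfold YY; norm_num
  have hY : -YY ≤ YY := by linarith
  have hY2 : YY = 41 / 20 := rfl
  have hab : (-(7 / 5) : ℝ) ≤ -(6 / 5) := by norm_num
  obtain ⟨r1, hr1, H1⟩ := om_small C hC k b (2 * N) hk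
  refine ⟨48 / 5 * (200 + 2 * ((C * (1 + C) + 2 * C) * (2 * YY))), min r1 (1 / (4000 * C)),
    by positivity, lt_min hr1 (by positivity), fun r hr hr0 mu ast V h hmu hmu2 hT => ?_⟩
  have hrr1 : r < r1 := hr0.trans_le (min_le_left _ _)
  have hrC : r < 1 / (4000 * C) := hr0.trans_le (min_le_right _ _)
  obtain ⟨-, Hom⟩ := H1 r hr hrr1
  have hmu0 : 0 < mu := lt_of_lt_of_le (by positivity) hmu
  obtain ⟨s1, -, -, -⟩ := t0a_small hC hr hrC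
  -- restriction to the small rectangle
  have hm : ∀ {f : ℝ → ℝ → ℝ}, CR (-(7 / 5)) (7 / 5) (-YY) YY f →
      CR (-(7 / 5)) (-(6 / 5)) (-YY) YY f :=
    fun hf => hf.mono le_rfl (by norm_num) le_rfl le_rfl
  have hjet : V.IsJet (-(7 / 5)) (-(6 / 5)) (-YY) YY :=
    hT.jet.mono le_rfl (by norm_num) le_rfl le_rfl
  have cw : CR (-(7 / 5)) (-(6 / 5)) (-YY) YY V.w := hjet.cw
  have cwp : CR (-(7 / 5)) (-(6 / 5)) (-YY) YY V.wp := hjet.cwp
  have cwy : CR (-(7 / 5)) (-(6 / 5)) (-YY) YY V.wy := hjet.cwy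
  have co : CR (-(7 / 5)) (-(6 / 5)) (-YY) YY (fun p _ => om ⟨r, k, b⟩ C p) :=
    CR.ofP (t0a_om_cont ⟨r, k, b⟩ C).continuousOn
  obtain ⟨κ, hκ, hw⟩ := hT.weak (-(7 / 5)) (-(6 / 5)) (-YY) YY le_rfl hab (by norm_num) le_rfl hY
    le_rfl (fun p y => om ⟨r, k, b⟩ C p * V.w p y) (co.mul cw)
  have hcj : CoefJet (-(7 / 5)) (-(6 / 5)) (-YY) YY κ.t κ.tp κ.ty κ.a κ.ap :=
    (t0a_jet hκ).mono le_rfl (by norm_num) le_rfl le_rfl
  have cF : CR (-(7 / 5)) (-(6 / 5)) (-YY) YY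
      (fun p y => h p y - (κ.d p y * V.wp p y + κ.g p y * gD V κ.t p y)) :=
    (hm hT.ch).sub (((hm hκ.cd).mul cwp).add ((hm hκ.cg).mul (cr_gD hjet hcj)))
  have hpt := fun (p : ℝ) (hp : p ∈ Icc (-(7 / 5) : ℝ) (-(6 / 5))) (y : ℝ)
    (hy : y ∈ Icc (-YY) YY) => t0a_pt hC hr hrC hmu hmu2 hκ hp hy
  have hp' : ∀ p ∈ Icc (-(7 / 5) : ℝ) (-(6 / 5)), p ∈ Icc (-(7 / 5) : ℝ) (7 / 5) :=
    fun p hp => ⟨hp.1, hp.2.trans (by norm_num)⟩
  have key := ell_energy (F := fun p y => h p y - (κ.d p y * V.wp p y + κ.g p y * gD V κ.t p y))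
    hab hY hjet hcj (t0a_om_cont ⟨r, k, b⟩ C).continuousOn
    (t0a_omd_cont ⟨r, k, b⟩ C).continuousOn (fun p _ => t0a_om_deriv _ C p)
    (fun p _ => t0a_om_pos _ C p) (fun p hp => hT.top p (hp' p hp)) (δ := 1 / 2000)
    (e0 := r ^ N) (by norm_num) (by rw [hY2]; norm_num)
    (fun p hp y hy => (hpt p hp y hy).1)
    (fun p hp y hy => (hpt p hp y hy).2.2.2.2.1)
    (fun p hp y hy => (hpt p hp y hy).2.2.2.2.2.1)
    cF (t0a_weak hκ hT hw)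
    (fun p hp y hy => ?_)
    (fun p hp y hy => (hpt p hp y hy).2.2.2.2.2.2.1)
  swap
  · obtain ⟨-, -, -, -, -, -, -, hd, hg⟩ := hpt p hp y hy
    refine t0a_A3 ?_ hd hg
    refine hT.hsmall p (hp' p hp) y hy (Or.inl ?_)
    have h1 : (⟨r, k, b⟩ : Par).lam ≤ 1 / 4000 := by
      change r ^ (10 * k + 2) ≤ 1 / 4000
      exact (pow_le_of_le_one hr.le (by linarith) (by omega)).trans s1
    have h2 : 6 / 5 ≤ |p| := by rw [le_abs]; right; linarith [hp.2]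
    linarith
  -- the boundary terms
  have hB1 := t0a_bd hC hr hrC hmu hmu2 hκ hT (q := -(6 / 5)) ⟨by norm_num, le_rfl⟩
    (Hom _ (by rw [abs_of_pos (by norm_num)]; norm_num))
  have hB2 := t0a_bd hC hr hrC hmu hmu2 hκ hT (q := -(7 / 5)) ⟨le_rfl, by norm_num⟩
    (Hom _ (by rw [abs_of_neg (by norm_num)]; norm_num))
  have hB0 : (∫ p in (-(7 / 5) : ℝ)..(-(6 / 5)), om ⟨r, k, b⟩ C p * V.w p (-YY)
      * gD V κ.t p (-YY)) = 0 := by
    rw [← intervalIntegral.integral_zero (a := (-(7 / 5) : ℝ)) (b := -(6 / 5)) (μ := volume)]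
    apply intervalIntegral.integral_congr
    intro p hp
    rw [uIcc_of_le hab] at hp
    simp [hT.bot p (hp' p hp)]
  have hZ : I2 (-(7 / 5)) (-(6 / 5)) (-YY) YY (fun p _ => om ⟨r, k, b⟩ C p) ≤ 1 := by
    have h1 := I2_mono hab hY co (CR.const _ _ _ _ 1)
      (fun p _ y _ => t0a_om_le_one ⟨r, k, b⟩ C p)
    refine h1.trans ?_
    unfold I2
    rw [intervalIntegral.integral_const, intervalIntegral.integral_const, hY2]
    norm_num
  have hfin : II (-(7 / 5)) (-(6 / 5)) (-YY) YY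
            (fun p y => om ⟨r, k, b⟩ C p * en ⟨r, k, b⟩ mu V p y)
      ≤ 6 * I2 (-(7 / 5)) (-(6 / 5)) (-YY) YY (fun p y => om ⟨r, k, b⟩ C p *
          (gD V κ.t p y ^ 2 + (-κ.a p y) * V.wp p y ^ 2)) := by
    rw [← I2_const_mul]
    have hmdc : CR (-(7 / 5)) (-(6 / 5)) (-YY) YY (fun _ y => md ⟨r, k, b⟩ y) :=
      CR.ofY (md_cont ⟨r, k, b⟩).continuousOn
    refine I2_mono hab hY (co.mul ((cwy.pow 2).add (((CR.const _ _ _ _ mu).mul hmdc).mul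
      (cwp.pow 2)))) ((CR.const _ _ _ _ 6).mul (co.mul (((cr_gD hjet hcj).pow 2).add
        ((hm hκ.ca).neg.mul (cwp.pow 2))))) (fun p hp y hy => ?_)
    obtain ⟨-, h2, -, -, -, -, h1, -⟩ := hpt p hp y hy
    have h3 := t0a_en (wy := V.wy p y) (wp := V.wp p y) h1 h2
    have h4 := mul_le_mul_of_nonneg_left h3 (t0a_om_pos ⟨r, k, b⟩ C p).le
    unfold gD en
    linarith
  rw [hB0, abs_zero] at key
  have hr2 : (r ^ N) ^ 2 = r ^ (2 * N) := by rw [← pow_mul]; congr 1; ring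
  rw [hr2] at key
  have hR : 0 ≤ r ^ (2 * N) := by positivity
  have h5 : 8 * ((YY - -YY) ^ 2 + 1) * r ^ (2 * N)
      * I2 (-(7 / 5)) (-(6 / 5)) (-YY) YY (fun p _ => om ⟨r, k, b⟩ C p)
      ≤ 200 * r ^ (2 * N) := by
    calc 8 * ((YY - -YY) ^ 2 + 1) * r ^ (2 * N)
          * I2 (-(7 / 5)) (-(6 / 5)) (-YY) YY (fun p _ => om ⟨r, k, b⟩ C p)
        ≤ 8 * ((YY - -YY) ^ 2 + 1) * r ^ (2 * N) * 1 :=
          mul_le_mul_of_nonneg_left hZ (by positivity)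
      _ ≤ 200 * r ^ (2 * N) := by
          rw [mul_one, hY2]
          refine mul_le_mul_of_nonneg_right (by norm_num) hR
  linarith

end

end P229
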