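import Vale.Agent.P229.T.T0A

/-!
# P229 block T: choice of the starting section `ps`  (module T_T0B)
On `|p+13/10| <= W` the weight `om` is `>= 1/cosh 1 >= 1/2`, so the mean value over this window of
`∫ en(p,.)` is at most `2 C' r^(2N)/(2W)`; `W = K s = K r^(10k)`, `N >= 100(k+1)`, so it is `<= r^N`
for small `r`; take `ps` with value at most the mean value.
-/

namespace P229

open Set Real MeasureTheory
open scoped ContDiff

noncomputable section

private theorem t0b_om_cont (P : Par) (C : ℝ) : Continuous (om P C) := by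
  unfold om
  exact continuous_const.div (by fun_prop) (fun p => (Real.cosh_pos _).ne')

private theorem t0b_cosh_one : Real.cosh 1 ≤ 2 := by
  rw [Real.cosh_eq]
  have h1 := Real.exp_one_lt_d9
  have h2 : Real.exp (-1) ≤ 1 := Real.exp_le_one_iff.2 (by norm_num)
  linarith

private theorem t0b_om_ge (P : Par) (C p : ℝ) (hW : 0 < WW P C) (hp : |p + 13 / 10| ≤ WW P C) :
    1 / 2 ≤ om P C p := by
  unfold om
  apply one_div_le_one_div_of_le (Real.cosh_pos _)
  refine le_trans ?_ t0b_cosh_one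
  rw [Real.cosh_le_cosh, abs_div, abs_of_pos hW, abs_one]
  exact (div_le_one hW).2 hp

private theorem t0b_om_pos (P : Par) (C p : ℝ) : 0 < om P C p := by
  unfold om
  exact one_div_pos.2 (Real.cosh_pos _)

theorem T0B (C : ℝ) (hC : 1 ≤ C) (k b N : ℕ) (hk : 10 ≤ k) (hN : 100 * (k + 1) ≤ N) :
    ∃ r0 : ℝ, 0 < r0 ∧ ∀ r : ℝ, 0 < r → r < r0 →
      ∀ (mu : ℝ) (ast : ℝ → ℝ) (V : J2) (h : ℝ → ℝ → ℝ), 1 / C ≤ mu → mu ≤ C →
        TData ⟨r, k, b⟩ mu C N ast V h →
        ∃ ps ∈ Icc (-(27 / 20) : ℝ) (-(5 / 4)),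
          (∫ y in (-YY)..YY, en ⟨r, k, b⟩ mu V ps y) ≤ r ^ N := by
  obtain ⟨C', rA, hC', hrA, hA⟩ := T0A C hC k b N hk hN
  obtain ⟨rS, hrS, hS⟩ := om_small C hC k b 0 hk
  have hK : 0 < KW C := by
    unfold KW
    positivity
  refine ⟨min (min rA rS) (min 1 (KW C / C')),
    lt_min (lt_min hrA hrS) (lt_min one_pos (div_pos hK hC')), ?_⟩
  intro r hr hr0 mu ast V h hmu1 hmu2 hT
  have hr1 : r < rA := lt_of_lt_of_le hr0 ((min_le_left _ _).trans (min_le_left _ _))
  have hr2 : r < rS := lt_of_lt_of_le hr0 ((min_le_left _ _).trans (min_le_right _ _))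
  have hr3 : r < 1 := lt_of_lt_of_le hr0 ((min_le_right _ _).trans (min_le_left _ _))
  have hr4 : r < KW C / C' := lt_of_lt_of_le hr0 ((min_le_right _ _).trans (min_le_right _ _))
  have hII := hA r hr hr1 mu ast V h hmu1 hmu2 hT
  obtain ⟨hW1, -⟩ := hS r hr hr2
  set P : Par := ⟨r, k, b⟩ with hP
  have hPr : P.r = r := rfl
  have hWeq : WW P C = KW C * r ^ (10 * k) := rfl
  have hWpos : 0 < WW P C := by
    rw [hWeq]
    positivity
  have hmu : 0 < mu := lt_of_lt_of_le (by positivity) hmu1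
  by_contra hcon
  push Not at hcon
  have hYY : (-YY : ℝ) ≤ YY := by
    unfold YY
    norm_num
  -- continuity
  have hsub : Icc (-(7 / 5) : ℝ) (-(6 / 5)) ×ˢ Icc (-YY) YY
      ⊆ Icc (-(7 / 5) : ℝ) (7 / 5) ×ˢ Icc (-YY) YY :=
    Set.prod_mono (Icc_subset_Icc_right (by norm_num)) (le_refl _)
  have hen : ContinuousOn (Function.uncurry (fun p y => en P mu V p y))
      (Icc (-(7 / 5) : ℝ) (-(6 / 5)) ×ˢ Icc (-YY) YY) := by
    have h1 := hT.jet.cwy.mono hsub
    have h2 := hT.jet.cwp.mono hsub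
    have h3 : ContinuousOn (fun z : ℝ × ℝ => md P z.2)
        (Icc (-(7 / 5) : ℝ) (-(6 / 5)) ×ˢ Icc (-YY) YY) :=
      ((md_cont P).comp continuous_snd).continuousOn
    exact (h1.pow 2).add ((continuousOn_const.mul h3).mul (h2.pow 2))
  have hf : ContinuousOn (Function.uncurry (fun p y => om P C p * en P mu V p y))
      (Icc (-(7 / 5) : ℝ) (-(6 / 5)) ×ˢ Icc (-YY) YY) :=
    (((t0b_om_cont P C).comp continuous_fst).continuousOn).mul hen
  have hen0 : ∀ p y, 0 ≤ en P mu V p y := by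
    intro p y
    unfold en
    have := md_nonneg P hr y
    positivity
  have hmono := II_mono_rect (a := -(7 / 5)) (b := -(6 / 5)) (c := -YY) (d := YY)
    (a' := -(13 / 10) - WW P C) (b' := -(13 / 10) + WW P C) (c' := -YY) (d' := YY)
    (by linarith) (by linarith) (by linarith) le_rfl hYY le_rfl hf
    (fun p _ y _ => mul_nonneg (t0b_om_pos P C p).le (hen0 p y))
  have hsub2 : Icc (-(13 / 10) - WW P C) (-(13 / 10) + WW P C)
      ⊆ Icc (-(7 / 5) : ℝ) (-(6 / 5)) := Icc_subset_Icc (by linarith) (by linarith)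
  have hf2 := hf.mono (Set.prod_mono hsub2 (le_refl (Icc (-YY) YY)))
  have hlow : WW P C * r ^ N ≤ II (-(13 / 10) - WW P C) (-(13 / 10) + WW P C) (-YY) YY
      (fun p y => om P C p * en P mu V p y) := by
    have h1 : WW P C * r ^ N
        = ∫ _ in (-(13 / 10) - WW P C)..(-(13 / 10) + WW P C), (1 / 2 * r ^ N : ℝ) := by
      rw [intervalIntegral.integral_const, smul_eq_mul]
      ring
    rw [h1]
    unfold II
    apply intervalIntegral.integral_mono_on (by linarith) intervalIntegrable_const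
      (II_outer_int (by linarith) hYY hf2)
    intro p hp
    rw [intervalIntegral.integral_const_mul]
    have hp1 : |p + 13 / 10| ≤ WW P C := by
      rw [abs_le]
      constructor <;> linarith [hp.1, hp.2]
    have h2 := t0b_om_ge P C p hWpos hp1
    have h3 := hcon p ⟨by linarith [hp.1], by linarith [hp.2]⟩
    have h4 : (0 : ℝ) ≤ r ^ N := by positivity
    exact mul_le_mul h2 h3.le h4 (t0b_om_pos P C p).le
  have hfin : WW P C * r ^ N ≤ C' * r ^ (2 * N) := hlow.trans (hmono.trans hII)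
  have hrN : (0 : ℝ) < r ^ N := by positivity
  have h5 : WW P C ≤ C' * r ^ N := by
    rw [two_mul, pow_add, ← mul_assoc] at hfin
    exact le_of_mul_le_mul_right hfin hrN
  have h6 : r ^ N ≤ r ^ (10 * k + 1) := pow_le_pow_of_le_one hr.le hr3.le (by omega)
  have h7 : C' * r ^ N ≤ (C' * r) * r ^ (10 * k) := by
    calc C' * r ^ N ≤ C' * r ^ (10 * k + 1) := mul_le_mul_of_nonneg_left h6 hC'.le
      _ = (C' * r) * r ^ (10 * k) := by ring
  have h8 : C' * r < KW C := by
    rw [lt_div_iff₀ hC'] at hr4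
    linarith
  have h9 : (0 : ℝ) < r ^ (10 * k) := by positivity
  rw [hWeq] at h5
  nlinarith

end

end P229
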