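import Vale.Agent.P229.T.T1ID
import Vale.Agent.P229.T.Prof

/-!
# P229 block T: the main energy inequality  (module T_T1A)
`T.weak` with `φ = z V.wp` on `[ps,pt] x [-YY,YY]`, then `t1id` (the `y`-boundary term vanishes
because `V.wp p (±YY) = 0` for `p` in the open interval; `∫` over `p`).
Pointwise lower bounds (`g = v_y + t v_p`, `r` small):
* `|y| <= 2`: `w a + z ap >= 7/10 w mu md`.  For `p >= -9/20` : `w a + z ap = (w - z) a + z (a + ap)
  >= (w-z) 7/10 mu md + z 4/5 mu md`.  For `p <= -9/20` : `|(w-z) a| <= (5/1000) z 2 mu md` (`far`),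
  so `w a + z ap >= z (4/5 - 1/100) mu md >= 7/10 w mu md`.
  Hence `(1/2) (w g^2 + (w a + z ap) v_p^2) >= 346/1000 w en`.
* `|y| >= 2`: `(1/2)(w g^2 + (w a + z ap) v_p^2) >= - 51/100 w en` (`a >= -101/100 mu md`,
  `|ap| <= C r^2 md`).
Errors: `|w t v_p g|`, `|z d v_p^2|`, `|z g2 g v_p|` are `<= (1/2000) w en` each (`z <= w`,
`mu >= 1/C`); boundary at `pt`: `z pt <= w pt <= r^N`, all else bounded; boundary at `ps`:
`z ps <= 10`, `∫ en(ps,.) <= r^N`, `g^2 <= 2 v_y^2 + 2 t^2 v_p^2 <= 3 en`, `|a| v_p^2 <= 2 en`.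
-/

namespace P229

open Set Real MeasureTheory
open scoped ContDiff

noncomputable section

namespace T1Aux

theorem sm1 {C r mu m x : ℝ} (hC : 1 ≤ C) (hCr : C ^ 2 * r ^ 2 ≤ 1 / 10000)
    (hmu : 1 / C ≤ mu) (hm : 0 ≤ m) (hm1 : m ≤ 1) (hx : |x| ≤ C * r ^ 2 * m) :
    |x| ≤ 1 / 10000 ∧ |x| ≤ 1 / 10000 * (mu * m) := by
  have hC0 : 0 < C := by linarith
  have hr2 : 0 ≤ r ^ 2 := sq_nonneg _
  have h1 : C * r ^ 2 ≤ C ^ 2 * r ^ 2 := by
    have : C ≤ C ^ 2 := by nlinarith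
    exact mul_le_mul_of_nonneg_right this hr2
  have hCm : 1 ≤ C * mu := by
    rw [div_le_iff₀ hC0] at hmu; linarith
  have hmm : m ≤ C * mu * m := by nlinarith
  constructor
  · calc |x| ≤ C * r ^ 2 * m := hx
      _ ≤ C * r ^ 2 * 1 := by gcongr
      _ ≤ 1 / 10000 := by linarith
  · calc |x| ≤ C * r ^ 2 * m := hx
      _ ≤ C * r ^ 2 * (C * mu * m) := by gcongr
      _ = (C ^ 2 * r ^ 2) * (mu * m) := by ring
      _ ≤ 1 / 10000 * (mu * m) := by
          have : 0 ≤ mu * m := by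
            have : 0 ≤ mu := le_trans (by positivity) hmu
            positivity
          gcongr

theorem sm2 {C r mu m x e : ℝ} (hC : 1 ≤ C) (hCr : C ^ 2 * r ^ 2 ≤ 1 / 10000) (hr1 : r ^ 2 ≤ 1 / 10000)
    (hmu : 1 / C ≤ mu) (hm : 0 ≤ m) (he0 : 0 ≤ e) (he : e ≤ 1) (hx : x ^ 2 ≤ C * r ^ 4 * e * m) :
    x ^ 2 ≤ 1 / 10000 * (1 / 10000) * (mu * m) := by
  have hC0 : 0 < C := by linarith
  have hCm : 1 ≤ C * mu := by
    rw [div_le_iff₀ hC0] at hmu; linarith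
  have hmm : m ≤ C * mu * m := by nlinarith
  have hmu0 : 0 ≤ mu := le_trans (by positivity) hmu
  calc x ^ 2 ≤ C * r ^ 4 * e * m := hx
    _ ≤ C * r ^ 4 * 1 * (C * mu * m) := by gcongr
    _ = r ^ 2 * (C ^ 2 * r ^ 2) * (mu * m) := by ring
    _ ≤ 1 / 10000 * (1 / 10000) * (mu * m) := by
        have : 0 ≤ mu * m := by positivity
        gcongr

theorem gb {M t vp vy : ℝ} (hM : 0 ≤ M) (h1 : |t| ≤ 1 / 10000) (h2 : |t| ≤ 1 / 10000 * M) :
    (vy + t * vp) ^ 2 ≤ 2 * vy ^ 2 + 1 / 1000 * (M * vp ^ 2) ∧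
    999 / 1000 * vy ^ 2 - 1 / 1000 * (M * vp ^ 2) ≤ (vy + t * vp) ^ 2 ∧
    |t * vp * (vy + t * vp)| ≤ 2 / 10000 * (vy ^ 2 + M * vp ^ 2) := by
  have hX : 0 ≤ M * vp ^ 2 := by positivity
  have hY : 0 ≤ vy ^ 2 := sq_nonneg _
  have a1 : |t| * vp ^ 2 ≤ 1 / 10000 * (M * vp ^ 2) := by
    have := mul_le_mul_of_nonneg_right h2 (sq_nonneg vp)
    linarith
  have a2 : |t| * vy ^ 2 ≤ 1 / 10000 * vy ^ 2 := mul_le_mul_of_nonneg_right h1 hY
  have a3 : |t * vp * vy| ≤ |t| * (vp ^ 2 + vy ^ 2) / 2 := by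
    rw [mul_assoc, abs_mul, abs_mul]
    have : |vp| * |vy| ≤ (vp ^ 2 + vy ^ 2) / 2 := by
      have h := sq_nonneg (|vp| - |vy|)
      have e1 := sq_abs vp
      have e2 := sq_abs vy
      nlinarith
    have := mul_le_mul_of_nonneg_left this (abs_nonneg t)
    linarith
  have a4 : (t * vp) ^ 2 ≤ 1 / 10000 * (1 / 10000 * (M * vp ^ 2)) := by
    have e : (t * vp) ^ 2 = |t| * (|t| * vp ^ 2) := by
      rw [mul_pow, ← sq_abs t]; ring
    rw [e]
    exact mul_le_mul h1 a1 (by positivity) (by norm_num)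
  have b1 := abs_le.1 a3
  have e0 : (vy + t * vp) ^ 2 = vy ^ 2 + 2 * (t * vp * vy) + (t * vp) ^ 2 := by ring
  have hn : 0 ≤ (t * vp) ^ 2 := sq_nonneg _
  refine ⟨?_, ?_, ?_⟩
  · rw [e0]; linarith [b1.2]
  · rw [e0]; linarith [b1.1]
  · have e1 : t * vp * (vy + t * vp) = t * vp * vy + (t * vp) ^ 2 := by ring
    rw [e1]
    refine (abs_add_le _ _).trans ?_
    rw [abs_of_nonneg hn]
    linarith

theorem g2b {M g2 g vp vy : ℝ} (hM : 0 ≤ M) (h2 : g2 ^ 2 ≤ 1 / 10000 * (1 / 10000) * M)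
    (hg : g ^ 2 ≤ 2 * vy ^ 2 + 1 / 1000 * (M * vp ^ 2)) :
    |g2 * g * vp| ≤ 2 / 10000 * (vy ^ 2 + M * vp ^ 2) := by
  have hX : 0 ≤ M * vp ^ 2 := by positivity
  have hY : 0 ≤ vy ^ 2 := sq_nonneg _
  have h3 : (g2 * vp) ^ 2 ≤ 1 / 10000 * (1 / 10000) * (M * vp ^ 2) := by
    have := mul_le_mul_of_nonneg_right h2 (sq_nonneg vp)
    rw [mul_pow]; linarith
  have h4 : |g2 * g * vp| = |g2 * vp| * |g| := by rw [← abs_mul]; ring_nf
  rw [h4]
  have h5 := sq_nonneg (100 * |g2 * vp| - 1 / 100 * |g|)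
  have e1 := sq_abs (g2 * vp)
  have e2 := sq_abs g
  have h6 : 2 * (|g2 * vp| * |g|) ≤ 10000 * |g2 * vp| ^ 2 + 1 / 10000 * |g| ^ 2 := by nlinarith
  rw [e1, e2] at h6
  linarith

/-- core -/
theorem core {M w z a ap vp vy g : ℝ} (hM : 0 ≤ M) (hw : 0 ≤ w)
    (h1 : 7 / 10 * w * M ≤ w * a + z * ap)
    (hg : 999 / 1000 * vy ^ 2 - 1 / 1000 * (M * vp ^ 2) ≤ g ^ 2) :
    346 / 1000 * (w * (vy ^ 2 + M * vp ^ 2)) ≤ 1 / 2 * (w * g ^ 2 + (w * a + z * ap) * vp ^ 2) := by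
  have h2 := mul_le_mul_of_nonneg_left hg hw
  have h3 := mul_le_mul_of_nonneg_right h1 (sq_nonneg vp)
  have h4 : 0 ≤ w * (M * vp ^ 2) := by positivity
  have h5 : 0 ≤ w * vy ^ 2 := by positivity
  nlinarith

/-- layers -/
theorem layer {M w z a ap vp vy g : ℝ} (hM : 0 ≤ M) (hw : 0 ≤ w) (hz : 0 ≤ z) (hzw : z ≤ w)
    (h1 : -(101 / 100 * M) ≤ a) (h2 : |ap| ≤ 1 / 10000 * M) :
    -(51 / 100 * (w * (vy ^ 2 + M * vp ^ 2))) ≤ 1 / 2 * (w * g ^ 2 + (w * a + z * ap) * vp ^ 2) := by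
  have h3 : -(102 / 100 * M) * w ≤ w * a + z * ap := by
    have h4 := mul_le_mul_of_nonneg_left h1 hw
    have h5 : -(1 / 10000 * M) ≤ ap := (abs_le.1 h2).1
    have h6 := mul_le_mul_of_nonneg_left h5 hz
    have h7 : z * (1 / 10000 * M) ≤ w * (1 / 10000 * M) :=
      mul_le_mul_of_nonneg_right hzw (by positivity)
    have h8 : 0 ≤ M * w := by positivity
    nlinarith
  have h4 := mul_le_mul_of_nonneg_right h3 (sq_nonneg vp)
  have h5 : 0 ≤ w * g ^ 2 := by positivity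
  have h6 : 0 ≤ w * vy ^ 2 := by positivity
  nlinarith

/-- positivity of the multiplier -/
theorem mult {M w z a ap : ℝ} (hM : 0 ≤ M) (hz : 0 ≤ z) (hzw : z ≤ w)
    (h1 : 4 / 5 * M ≤ a + ap) (h2 : 7 / 10 * M ≤ a ∨ (|a| ≤ 2 * M ∧ w ≤ 1005 / 1000 * z)) :
    7 / 10 * w * M ≤ w * a + z * ap := by
  have h3 := mul_le_mul_of_nonneg_left h1 hz
  have hzM : 0 ≤ z * M := by positivity
  rcases h2 with h2 | ⟨h2, h4⟩
  · have h4 := mul_le_mul_of_nonneg_left h2 (sub_nonneg.2 hzw)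
    nlinarith
  · have h5 : -(2 * M) ≤ a := (abs_le.1 h2).1
    have h6 := mul_le_mul_of_nonneg_left h5 (sub_nonneg.2 hzw)
    have h7 : (w - z) * M ≤ 5 / 1000 * z * M := by
      apply mul_le_mul_of_nonneg_right _ hM
      linarith
    nlinarith

end T1Aux

open T1Aux

theorem T1A (C : ℝ) (hC : 1 ≤ C) (k b N : ℕ) (hk : 10 ≤ k) (hN : 100 * (k + 1) ≤ N) :
    ∃ C' r0 : ℝ, 0 < C' ∧ 0 < r0 ∧ ∀ r : ℝ, 0 < r → r < r0 →
      ∀ (mu : ℝ) (ast : ℝ → ℝ) (V : J2) (h : ℝ → ℝ → ℝ), 1 / C ≤ mu → mu ≤ C →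
        TData ⟨r, k, b⟩ mu C N ast V h →
        ∀ ps pt : ℝ, ps ∈ Icc (-(27 / 20) : ℝ) (-(5 / 4)) → ps ≤ pt → pt ≤ 1 / 100 →
        ∀ z w w' : ℝ → ℝ, Wt ⟨r, k, b⟩ C N pt z w w' →
        (∫ y in (-YY)..YY, en ⟨r, k, b⟩ mu V ps y) ≤ r ^ N →
        346 / 1000 * II ps pt (-2) 2 (fun p y => w p * en ⟨r, k, b⟩ mu V p y)
          ≤ 51 / 100 * (II ps pt 2 YY (fun p y => w p * en ⟨r, k, b⟩ mu V p y)
              + II ps pt (-YY) (-2) (fun p y => w p * en ⟨r, k, b⟩ mu V p y))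
            + 2 / 1000 * II ps pt (-YY) YY (fun p y => w p * en ⟨r, k, b⟩ mu V p y)
            + II ps pt (-YY) YY (fun p y => z p * (|V.wp p y| * |h p y|)) + C' * r ^ N := by
  have hC0 : 0 < C := by linarith
  refine ⟨30 + 13 * (1 + C), 1 / (100 * C), by positivity, by positivity, ?_⟩
  intro r hr hr0 mu ast V h hmu hmuC T ps pt hps hpp hpt z w w' hW hen
  have hmu0 : 0 < mu := lt_of_lt_of_le (by positivity) hmu
  -- smallness
  have hrC : C * r ≤ 1 / 100 := by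
    rw [lt_div_iff₀ (by positivity)] at hr0
    linarith
  have hCr : C ^ 2 * r ^ 2 ≤ 1 / 10000 := by
    have : (C * r) ^ 2 ≤ (1 / 100) ^ 2 := pow_le_pow_left₀ (by positivity) hrC 2
    rw [mul_pow] at this
    linarith
  have hr1' : r ≤ 1 / 100 := by nlinarith
  have hr1 : r ≤ 1 := by linarith
  have hr2 : r ^ 2 ≤ 1 / 10000 := by nlinarith
  set P : Par := ⟨r, k, b⟩ with hP
  have hPr : P.r = r := rfl
  have heps0 : 0 ≤ P.eps := by simp only [Par.eps, hPr]; positivity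
  have heps1 : P.eps ≤ 1 := by
    simp only [Par.eps, hPr]; exact pow_le_one₀ hr.le hr1
  have hm0 : ∀ y, 0 ≤ md P y := md_nonneg P hr
  have hm1 : ∀ y, md P y ≤ 1 := fun y => (md_le_eps P hr hr1 y).trans heps1
  have hYY : (YY : ℝ) = 41 / 20 := rfl
  -- rectangle in the strip
  have hps1 : (-(7 / 5) : ℝ) ≤ ps := by have := hps.1; linarith
  have hpt1 : pt ≤ 7 / 5 := by linarith
  have hsub : ∀ {p : ℝ}, p ∈ Icc ps pt → p ∈ Icc (-(7 / 5) : ℝ) (7 / 5) := fun hp =>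
    ⟨hps1.trans hp.1, hp.2.trans hpt1⟩
  have hsubo : ∀ {p : ℝ}, p ∈ Icc ps pt → p ∈ Ioo (-(7 / 5) : ℝ) (7 / 5) := fun hp =>
    ⟨by have := hps.1; have := hp.1; linarith, by have := hp.2; linarith⟩
  have hcd : (-YY : ℝ) ≤ YY := by rw [hYY]; norm_num
  have cw : Continuous w := continuous_iff_continuousAt.2 fun p => (hW.hw p).continuousAt
  have cz : Continuous z := continuous_iff_continuousAt.2 fun p => (hW.hz p).continuousAt
  have hz0 : ∀ p, 0 ≤ z p := fun p => (hW.zpos p).le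
  have hw0 : ∀ p, 0 ≤ w p := fun p => (hz0 p).trans (hW.zw p)
  -- continuity on the rectangle
  have mono : ∀ {f : ℝ → ℝ → ℝ}, ContinuousOn (Function.uncurry f) strip →
      CR ps pt (-YY) YY f := fun hf =>
    ContinuousOn.mono hf (Set.prod_mono (Icc_subset_Icc hps1 hpt1) le_rfl)
  have cVp : CR ps pt (-YY) YY V.wp := mono T.jet.cwp
  have cVy : CR ps pt (-YY) YY V.wy := mono T.jet.cwy
  have cH : CR ps pt (-YY) YY h := mono T.ch
  have cW : CR ps pt (-YY) YY (fun p _ => w p) := CR.ofP cw.continuousOn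
  have cZ : CR ps pt (-YY) YY (fun p _ => z p) := CR.ofP cz.continuousOn
  have cM : CR ps pt (-YY) YY (fun _ y => md P y) := CR.ofY (md_cont P).continuousOn
  have cE : CR ps pt (-YY) YY (fun p y => en P mu V p y) := by
    unfold en
    exact (cVy.pow 2).add (((CR.const _ _ _ _ mu).mul cM).mul (cVp.pow 2))
  have cWE : CR ps pt (-YY) YY (fun p y => w p * en P mu V p y) := cW.mul cE
  -- the weak equation
  obtain ⟨κ, hκ, hweak⟩ := T.weak ps pt (-YY) YY hps1 hpp hpt1 le_rfl hcd le_rfl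
    (fun p y => z p * V.wp p y) (cZ.mul cVp)
  have cT : CR ps pt (-YY) YY κ.t := mono hκ.ct
  have cA : CR ps pt (-YY) YY κ.a := mono hκ.ca
  have cAp : CR ps pt (-YY) YY κ.ap := mono hκ.cap
  have cD : CR ps pt (-YY) YY κ.d := mono hκ.cd
  have cG2 : CR ps pt (-YY) YY κ.g := mono hκ.cg
  have cG : CR ps pt (-YY) YY (fun p y => κ.gd V p y) := by
    unfold Coef.gd
    exact cVy.add (cT.mul cVp)
  have hid := t1id T.jet hκ hps1 hpp hpt1 le_rfl hcd le_rfl hW.hz cw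
  rw [hweak] at hid
  -- pointwise facts
  have ft : ∀ p ∈ Icc ps pt, ∀ y ∈ Icc (-YY) YY,
      |κ.t p y| ≤ 1 / 10000 ∧ |κ.t p y| ≤ 1 / 10000 * (mu * md P y) := fun p hp y hy =>
    sm1 hC hCr hmu (hm0 y) (hm1 y) (hκ.bt p (hsub hp) y hy)
  have fd : ∀ p ∈ Icc ps pt, ∀ y ∈ Icc (-YY) YY,
      |κ.d p y| ≤ 1 / 10000 * (mu * md P y) := fun p hp y hy =>
    (sm1 hC hCr hmu (hm0 y) (hm1 y) (hκ.bd p (hsub hp) y hy)).2
  have fg2 : ∀ p ∈ Icc ps pt, ∀ y ∈ Icc (-YY) YY,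
      κ.g p y ^ 2 ≤ 1 / 10000 * (1 / 10000) * (mu * md P y) := fun p hp y hy =>
    sm2 hC hCr hr2 hmu (hm0 y) heps0 heps1 (hκ.bg p (hsub hp) y hy)
  have hM0 : ∀ y, 0 ≤ mu * md P y := fun y => mul_nonneg hmu0.le (hm0 y)
  have fg : ∀ p ∈ Icc ps pt, ∀ y ∈ Icc (-YY) YY,
      κ.gd V p y ^ 2 ≤ 2 * V.wy p y ^ 2 + 1 / 1000 * (mu * md P y * V.wp p y ^ 2) ∧
      999 / 1000 * V.wy p y ^ 2 - 1 / 1000 * (mu * md P y * V.wp p y ^ 2) ≤ κ.gd V p y ^ 2 ∧
      |κ.t p y * V.wp p y * κ.gd V p y| ≤ 2 / 10000 * en P mu V p y := fun p hp y hy =>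
    gb (hM0 y) (ft p hp y hy).1 (ft p hp y hy).2
  have fe0 : ∀ p y, 0 ≤ en P mu V p y := fun p y => by
    have := mul_nonneg (hM0 y) (sq_nonneg (V.wp p y))
    have := sq_nonneg (V.wy p y)
    unfold en; linarith
  -- the quadratic form and the error
  set Q : ℝ → ℝ → ℝ := fun p y => 1 / 2 * (w p * κ.gd V p y ^ 2
    + (w p * κ.a p y + z p * κ.ap p y) * V.wp p y ^ 2) with hQ
  set R : ℝ → ℝ → ℝ := fun p y => w p * κ.t p y * V.wp p y * κ.gd V p y
    + z p * (κ.d p y * V.wp p y ^ 2 + κ.g p y * κ.gd V p y * V.wp p y) with hR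
  have cQ : CR ps pt (-YY) YY Q :=
    (CR.const _ _ _ _ (1 / 2)).mul ((cW.mul (cG.pow 2)).add
      (((cW.mul cA).add (cZ.mul cAp)).mul (cVp.pow 2)))
  have cR : CR ps pt (-YY) YY R :=
    (((cW.mul cT).mul cVp).mul cG).add (cZ.mul ((cD.mul (cVp.pow 2)).add
      ((cG2.mul cG).mul cVp)))
  have eRQ : II ps pt (-YY) YY (fun p y =>
            -(1 / 2 * w p * κ.gd V p y ^ 2) - 1 / 2 * w p * κ.a p y * V.wp p y ^ 2
              - 1 / 2 * z p * κ.ap p y * V.wp p y ^ 2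
              + w p * κ.t p y * V.wp p y * κ.gd V p y
              + z p * (κ.d p y * V.wp p y ^ 2 + κ.g p y * κ.gd V p y * V.wp p y))
      = II ps pt (-YY) YY R - II ps pt (-YY) YY Q := by
    rw [← II_sub hpp hcd cR cQ]
    refine II_congr hpp hcd fun p _ y _ => ?_
    simp only [hQ, hR]
    ring
  rw [eRQ] at hid
  -- the y-boundary term
  have hvp : ∀ p ∈ Icc ps pt, ∀ y0 ∈ Icc (-YY) YY,
      (∀ q ∈ Icc (-(7 / 5) : ℝ) (7 / 5), V.w q y0 = 0) → V.wp p y0 = 0 := by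
    intro p hp y0 hy0 hv
    have h1 := T.jet.hp p (hsubo hp) y0 hy0
    have h2 : (fun t => V.w t y0) =ᶠ[nhds p] fun _ => 0 := by
      filter_upwards [Ioo_mem_nhds (hsubo hp).1 (hsubo hp).2] with q hq
      exact hv q ⟨hq.1.le, hq.2.le⟩
    exact h1.unique ((hasDerivAt_const p (0 : ℝ)).congr_of_eventuallyEq h2)
  have hB0 : (∫ p in ps..pt, z p * (V.wp p YY * κ.gd V p YY - V.wp p (-YY) * κ.gd V p (-YY)))
      = 0 := by
    have : (∫ p in ps..pt, z p * (V.wp p YY * κ.gd V p YY - V.wp p (-YY) * κ.gd V p (-YY)))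
        = ∫ p in ps..pt, (0 : ℝ) := by
      apply intervalIntegral.integral_congr
      intro p hp
      rw [uIcc_of_le hpp] at hp
      simp only
      rw [hvp p hp YY ⟨hcd, le_rfl⟩ T.top, hvp p hp (-YY) ⟨le_rfl, hcd⟩ T.bot]
      ring
    rw [this]
    simp
  rw [hB0, zero_add] at hid
  -- the p-boundary terms
  set S : ℝ → ℝ → ℝ := fun p y => z p * (κ.t p y * V.wp p y * κ.gd V p y
    - 1 / 2 * κ.gd V p y ^ 2 - 1 / 2 * κ.a p y * V.wp p y ^ 2) with hS
  have cS : CR ps pt (-YY) YY S :=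
    cZ.mul ((((cT.mul cVp).mul cG).sub ((CR.const _ _ _ _ (1 / 2)).mul (cG.pow 2))).sub
      (((CR.const _ _ _ _ (1 / 2)).mul cA).mul (cVp.pow 2)))
  have fS : ∀ p ∈ Icc ps pt, ∀ y ∈ Icc (-YY) YY, |S p y| ≤ z p * (3 * en P mu V p y) := by
    intro p hp y hy
    simp only [hS]
    rw [abs_mul, abs_of_nonneg (hz0 p)]
    refine mul_le_mul_of_nonneg_left ?_ (hz0 p)
    obtain ⟨g1, -, g3⟩ := fg p hp y hy
    have g4 : |κ.a p y * V.wp p y ^ 2| ≤ 2 * (mu * md P y * V.wp p y ^ 2) := by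
      rw [abs_mul, abs_of_nonneg (sq_nonneg (V.wp p y))]
      have := mul_le_mul_of_nonneg_right (hκ.ba p (hsub hp) y hy) (sq_nonneg (V.wp p y))
      linarith
    have g5 := abs_le.1 g3
    have g6 := abs_le.1 g4
    have g7 := sq_nonneg (κ.gd V p y)
    have g8 := mul_nonneg (hM0 y) (sq_nonneg (V.wp p y))
    have g9 := sq_nonneg (V.wy p y)
    have g10 : en P mu V p y = V.wy p y ^ 2 + mu * md P y * V.wp p y ^ 2 := rfl
    rw [g10] at g5 ⊢
    rw [abs_le]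
    constructor
    · linarith [g5.1, g6.2]
    · linarith [g5.2, g6.1]
  have hB : (∫ y in (-YY)..YY,
            (z pt * (κ.t pt y * V.wp pt y * κ.gd V pt y - 1 / 2 * κ.gd V pt y ^ 2
                - 1 / 2 * κ.a pt y * V.wp pt y ^ 2)
              - z ps * (κ.t ps y * V.wp ps y * κ.gd V ps y - 1 / 2 * κ.gd V ps y ^ 2
                - 1 / 2 * κ.a ps y * V.wp ps y ^ 2)))
      ≤ (30 + 13 * (1 + C)) * r ^ N := by
    have hpsm : ps ∈ Icc ps pt := ⟨le_rfl, hpp⟩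
    have hptm : pt ∈ Icc ps pt := ⟨hpp, le_rfl⟩
    have i1 : IntervalIntegrable (fun y => en P mu V ps y) volume (-YY) YY :=
      cE.inner_integrable hcd hpsm
    have hrN : 0 ≤ r ^ N := by positivity
    have step : (∫ y in (-YY)..YY, (S pt y - S ps y))
        ≤ ∫ y in (-YY)..YY, (3 * (1 + C) * r ^ N + 30 * en P mu V ps y) := by
      apply intervalIntegral.integral_mono_on hcd
      · exact ((cS.inner_integrable hcd hptm).sub (cS.inner_integrable hcd hpsm))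
      · exact intervalIntegrable_const.add (i1.const_mul 30)
      · intro y hy
        have s1 := (le_abs_self _).trans (fS pt hptm y hy)
        have s2 := (neg_abs_le (S ps y))
        have s3 := fS ps hpsm y hy
        have s4 : z ps ≤ 10 := hW.zle ps hps1
        have s5 : z ps * (3 * en P mu V ps y) ≤ 10 * (3 * en P mu V ps y) :=
          mul_le_mul_of_nonneg_right s4 (by have := fe0 ps y; linarith)
        have s6 : z pt ≤ r ^ N := (hW.zw pt).trans hW.endw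
        have s7 : en P mu V pt y ≤ 1 + C := by
          obtain ⟨-, e1, e2⟩ := T.bw pt (hsub hptm) y hy
          have e3 : V.wy pt y ^ 2 ≤ 1 := by
            rw [← sq_abs]; exact pow_le_one₀ (abs_nonneg _) e2
          have e4 : V.wp pt y ^ 2 ≤ 1 := by
            rw [← sq_abs]; exact pow_le_one₀ (abs_nonneg _) e1
          have e5 : mu * md P y * V.wp pt y ^ 2 ≤ C * 1 * 1 := by
            have := hm1 y
            have := hm0 y
            gcongr
          unfold en; linarith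
        have s8 : z pt * (3 * en P mu V pt y) ≤ r ^ N * (3 * (1 + C)) := by
          have := fe0 pt y
          have := hz0 pt
          gcongr
        linarith
    have e1 : (∫ y in (-YY)..YY, (3 * (1 + C) * r ^ N + 30 * en P mu V ps y))
        = (YY - -YY) * (3 * (1 + C) * r ^ N) + 30 * ∫ y in (-YY)..YY, en P mu V ps y := by
      rw [intervalIntegral.integral_add intervalIntegrable_const (i1.const_mul 30),
        intervalIntegral.integral_const, intervalIntegral.integral_const_mul, smul_eq_mul]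
    rw [e1] at step
    refine step.trans ?_
    have e2 : 30 * (∫ y in (-YY)..YY, en P mu V ps y) ≤ 30 * r ^ N := by linarith
    have e3 : (YY - -YY) * (3 * (1 + C) * r ^ N) ≤ 13 * (1 + C) * r ^ N := by
      rw [hYY]
      have : 0 ≤ (1 + C) * r ^ N := by positivity
      nlinarith
    linarith
  -- the error terms
  have hRle : II ps pt (-YY) YY R
      ≤ 2 / 1000 * II ps pt (-YY) YY (fun p y => w p * en P mu V p y) := by
    rw [← II_smul]
    refine II_mono hpp hcd cR ((CR.const _ _ _ _ _).mul cWE) fun p hp y hy => ?_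
    obtain ⟨g1, -, g3⟩ := fg p hp y hy
    have g4 := g2b (hM0 y) (fg2 p hp y hy) g1
    have g10 : en P mu V p y = V.wy p y ^ 2 + mu * md P y * V.wp p y ^ 2 := rfl
    rw [← g10] at g4
    have g5 : |κ.d p y * V.wp p y ^ 2| ≤ 1 / 10000 * en P mu V p y := by
      rw [abs_mul, abs_of_nonneg (sq_nonneg (V.wp p y))]
      have h1 := mul_le_mul_of_nonneg_right (fd p hp y hy) (sq_nonneg (V.wp p y))
      have h2 := sq_nonneg (V.wy p y)
      rw [g10]; linarith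
    have q1 : w p * κ.t p y * V.wp p y * κ.gd V p y
        ≤ w p * (2 / 10000 * en P mu V p y) := by
      have : w p * κ.t p y * V.wp p y * κ.gd V p y
        = w p * (κ.t p y * V.wp p y * κ.gd V p y) := by ring
      rw [this]
      exact mul_le_mul_of_nonneg_left ((le_abs_self _).trans g3) (hw0 p)
    have q2 : z p * (κ.d p y * V.wp p y ^ 2 + κ.g p y * κ.gd V p y * V.wp p y)
        ≤ w p * (3 / 10000 * en P mu V p y) := by
      have h1 : κ.d p y * V.wp p y ^ 2 + κ.g p y * κ.gd V p y * V.wp p y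
          ≤ 3 / 10000 * en P mu V p y := by
        have := le_abs_self (κ.d p y * V.wp p y ^ 2)
        have := le_abs_self (κ.g p y * κ.gd V p y * V.wp p y)
        linarith
      have h2 := mul_le_mul_of_nonneg_left h1 (hz0 p)
      have h3 := mul_le_mul_of_nonneg_right (hW.zw p)
        (show 0 ≤ 3 / 10000 * en P mu V p y by have := fe0 p y; linarith)
      linarith
    have q3 := mul_nonneg (hw0 p) (fe0 p y)
    simp only [hR]
    linarith
  -- the right hand side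
  have hHle : -II ps pt (-YY) YY (fun p y => z p * V.wp p y * h p y)
      ≤ II ps pt (-YY) YY (fun p y => z p * (|V.wp p y| * |h p y|)) := by
    have h1 := II_abs_le hpp hcd ((cZ.mul cVp).mul cH) (cZ.mul (cVp.abs.mul cH.abs))
      (fun p _ y _ => by
        rw [mul_assoc, abs_mul, abs_of_nonneg (hz0 p), abs_mul])
    exact (neg_le_abs _).trans h1
  -- splitting of `Q`
  have h2m : (-YY : ℝ) ≤ -2 := by rw [hYY]; norm_num
  have h22 : (-2 : ℝ) ≤ 2 := by norm_num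
  have h2p : (2 : ℝ) ≤ YY := by rw [hYY]; norm_num
  have hm2Y : (-2 : ℝ) ≤ YY := h22.trans h2p
  have cQ2 : CR ps pt (-2) YY Q := cQ.mono le_rfl le_rfl h2m le_rfl
  have sQ : II ps pt (-YY) YY Q
      = II ps pt (-YY) (-2) Q + (II ps pt (-2) 2 Q + II ps pt 2 YY Q) := by
    rw [II_split_y hpp h2m hm2Y cQ, II_split_y hpp h22 h2p cQ2]
  have yc : ∀ {y : ℝ}, y ∈ Icc (-2 : ℝ) 2 → y ∈ Icc (-YY) YY := fun hy =>
    ⟨h2m.trans hy.1, hy.2.trans h2p⟩
  have yt : ∀ {y : ℝ}, y ∈ Icc (2 : ℝ) YY → y ∈ Icc (-YY) YY := fun hy =>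
    ⟨(h2m.trans h22).trans hy.1, hy.2⟩
  have yb : ∀ {y : ℝ}, y ∈ Icc (-YY) (-2 : ℝ) → y ∈ Icc (-YY) YY := fun hy =>
    ⟨hy.1, hy.2.trans hm2Y⟩
  have core' : 346 / 1000 * II ps pt (-2) 2 (fun p y => w p * en P mu V p y)
      ≤ II ps pt (-2) 2 Q := by
    rw [← II_smul]
    refine II_mono hpp h22
      (((CR.const _ _ _ _ _).mul cWE).mono le_rfl le_rfl h2m h2p)
      (cQ.mono le_rfl le_rfl h2m h2p) fun p hp y hy => ?_
    have hyY := yc hy
    have hy2 : |y| ≤ 2 := abs_le.2 hy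
    have hc1 : 4 / 5 * (mu * md P y) ≤ κ.a p y + κ.ap p y := by
      have := hκ.core1 p ⟨hps.1.trans hp.1, hp.2.trans hpt⟩ y hy2
      linarith
    have hc2 : 7 / 10 * (mu * md P y) ≤ κ.a p y ∨
        (|κ.a p y| ≤ 2 * (mu * md P y) ∧ w p ≤ 1005 / 1000 * z p) := by
      rcases le_total p (-(9 / 20)) with h9 | h9
      · right
        refine ⟨?_, hW.far p (hsub hp).1 h9⟩
        have := hκ.ba p (hsub hp) y hyY
        linarith
      · left
        have := hκ.core2 p ⟨h9, by have := hp.2; linarith⟩ y hy2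
        linarith
    exact core (hM0 y) (hw0 p) (mult (hM0 y) (hz0 p) (hW.zw p) hc1 hc2) (fg p hp y hyY).2.1
  have lay' : ∀ p ∈ Icc ps pt, ∀ y ∈ Icc (-YY) YY, 2 ≤ |y| →
      -(51 / 100) * (w p * en P mu V p y) ≤ Q p y := by
    intro p hp y hy hy2
    have h1 := (hκ.lay1 p (hsub hp) y hy hy2).2
    have h2 := hκ.lay2 p (hsub hp) y hy hy2
    have h3 := layer (vp := V.wp p y) (vy := V.wy p y) (g := κ.gd V p y) (hM0 y) (hw0 p) (hz0 p)
      (hW.zw p) (a := κ.a p y) (ap := κ.ap p y) (by linarith)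
      (sm1 hC hCr hmu (hm0 y) (hm1 y) h2).2
    have g10 : en P mu V p y = V.wy p y ^ 2 + mu * md P y * V.wp p y ^ 2 := rfl
    rw [← g10] at h3
    simp only [hQ]
    linarith
  have top' : -(51 / 100) * II ps pt 2 YY (fun p y => w p * en P mu V p y)
      ≤ II ps pt 2 YY Q := by
    rw [← II_smul]
    refine II_mono hpp h2p
      (((CR.const _ _ _ _ _).mul cWE).mono le_rfl le_rfl (h2m.trans h22) le_rfl)
      (cQ.mono le_rfl le_rfl (h2m.trans h22) le_rfl) fun p hp y hy => ?_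
    exact lay' p hp y (yt hy) (le_trans hy.1 (le_abs_self y))
  have bot' : -(51 / 100) * II ps pt (-YY) (-2) (fun p y => w p * en P mu V p y)
      ≤ II ps pt (-YY) (-2) Q := by
    rw [← II_smul]
    refine II_mono hpp h2m
      (((CR.const _ _ _ _ _).mul cWE).mono le_rfl le_rfl le_rfl hm2Y)
      (cQ.mono le_rfl le_rfl le_rfl hm2Y) fun p hp y hy => ?_
    refine lay' p hp y (yb hy) ?_
    have h1 := hy.2
    have h2 := neg_le_abs y
    linarith
  linarith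

end

end P229
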