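import Vale.Agent.P229.T.T1A
import Vale.Agent.P229.T.Lay
import Vale.Agent.P229.T.Gap
import Vale.Agent.P229.T.T0B

/-!
# P229 block T: combination  (module T_T1B)
With `Core = II |y|<=2`, `Lay = II |y|>=2` of `w en`: `Lay <= 14/100 (Θ+ + Θ-) + ..` (`LAY`, `LAYB`),
`Θ+ + Θ- <= 102/100 Core + ..` (`GAP`, `GAPB`, splitting `[-2,2]` at `-1`, `1`), so
`Lay <= 143/1000 Core + C r^N`, and `T1A` gives `(346/1000 - 51/100*143/1000 - 3/1000) Core <= S + ..`.
`ps` is taken from `T0B`.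
-/

namespace P229

open Set Real MeasureTheory
open scoped ContDiff

noncomputable section

private theorem t1b_cont {P : Par} {mu C : ℝ} {N : ℕ} {ast : ℝ → ℝ} {V : J2} {h : ℝ → ℝ → ℝ}
    (T : TData P mu C N ast V h) {w : ℝ → ℝ} (hw : Continuous w) :
    ContinuousOn (Function.uncurry fun p y => w p * en P mu V p y)
      (Icc (-(7 / 5) : ℝ) (7 / 5) ×ˢ Icc (-YY) YY) := by
  have h1 := T.jet.cwy
  have h2 := T.jet.cwp
  have h3 : ContinuousOn (Function.uncurry fun (p y : ℝ) => w p)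
      (Icc (-(7 / 5) : ℝ) (7 / 5) ×ˢ Icc (-YY) YY) := (hw.comp continuous_fst).continuousOn
  have h4 : ContinuousOn (Function.uncurry fun (p y : ℝ) => mu * md P y)
      (Icc (-(7 / 5) : ℝ) (7 / 5) ×ˢ Icc (-YY) YY) :=
    (continuous_const.mul ((md_cont P).comp continuous_snd)).continuousOn
  exact h3.mul ((h1.pow 2).add (h4.mul (h2.pow 2)))

private theorem t1b_sub {a b c d : ℝ} (ha : -(7 / 5) ≤ a) (hb : b ≤ 7 / 5) (hc : -YY ≤ c)
    (hd : d ≤ YY) {F : ℝ → ℝ → ℝ}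
    (hF : ContinuousOn (Function.uncurry F) (Icc (-(7 / 5) : ℝ) (7 / 5) ×ˢ Icc (-YY) YY)) :
    ContinuousOn (Function.uncurry F) (Icc a b ×ˢ Icc c d) :=
  hF.mono (Set.prod_mono (Icc_subset_Icc ha hb) (Icc_subset_Icc hc hd))

/-- linear arithmetic -/
private theorem t1b_arith {Core LU LL GGU GGL TU TL Full S R C1 C2 C3 C4 C5 : ℝ} (hS : 0 ≤ S)
    (hR : 0 ≤ R) (hC1 : 0 < C1) (hC2 : 0 < C2) (hC3 : 0 < C3) (hC4 : 0 < C4) (hC5 : 0 < C5)
    (hG : GGU + GGL ≤ Core) (hFull : Full = LL + Core + LU)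
    (hLU : LU ≤ 14 / 100 * TU + C1 * R) (hLL : LL ≤ 14 / 100 * TL + C2 * R)
    (hTU : TU ≤ 102 / 100 * GGU + C3 * R) (hTL : TL ≤ 102 / 100 * GGL + C4 * R)
    (hM : 346 / 1000 * Core ≤ 51 / 100 * (LU + LL) + 2 / 1000 * Full + S + C5 * R) :
    Full ≤ 5 * S + (10 * (C1 + C2 + C3 + C4 + C5)) * R := by
  have h1 := mul_nonneg hC1.le hR
  have h2 := mul_nonneg hC2.le hR
  have h3 := mul_nonneg hC3.le hR
  have h4 := mul_nonneg hC4.le hR
  have h5 := mul_nonneg hC5.le hR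
  have hL : LU + LL ≤ 1428 / 10000 * Core + C1 * R + C2 * R + 14 / 100 * (C3 * R)
      + 14 / 100 * (C4 * R) := by linarith
  have e : (10 * (C1 + C2 + C3 + C4 + C5)) * R = 10 * (C1 * R) + 10 * (C2 * R) + 10 * (C3 * R)
      + 10 * (C4 * R) + 10 * (C5 * R) := by ring
  rw [e]
  subst hFull
  have hcore : 2708 / 10000 * Core ≤ S + C5 * R + 1 * (C1 * R + C2 * R + C3 * R + C4 * R) := by
    nlinarith
  linarith

theorem T1B (C : ℝ) (hC : 1 ≤ C) (k b N : ℕ) (hk : 10 ≤ k) (hN : 100 * (k + 1) ≤ N) :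
    ∃ C' r0 : ℝ, 0 < C' ∧ 0 < r0 ∧ ∀ r : ℝ, 0 < r → r < r0 →
      ∀ (mu : ℝ) (ast : ℝ → ℝ) (V : J2) (h : ℝ → ℝ → ℝ), 1 / C ≤ mu → mu ≤ C →
        TData ⟨r, k, b⟩ mu C N ast V h →
        ∃ ps ∈ Icc (-(27 / 20) : ℝ) (-(5 / 4)), ∀ pt : ℝ, ps ≤ pt → pt ≤ 1 / 100 →
        ∀ z w w' : ℝ → ℝ, Wt ⟨r, k, b⟩ C N pt z w w' →
        II ps pt (-YY) YY (fun p y => w p * en ⟨r, k, b⟩ mu V p y)
          ≤ 5 * II ps pt (-YY) YY (fun p y => z p * (|V.wp p y| * |h p y|)) + C' * r ^ N := by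
  obtain ⟨C1, r1, hC1, hr1, h1⟩ := LAY C hC k b N hk hN
  obtain ⟨C2, r2, hC2, hr2, h2⟩ := LAYB C hC k b N hk hN
  obtain ⟨C3, r3, hC3, hr3, h3⟩ := GAP C hC k b N hk
  obtain ⟨C4, r4, hC4, hr4, h4⟩ := GAPB C hC k b N hk
  obtain ⟨C5, r5, hC5, hr5, h5⟩ := T1A C hC k b N hk hN
  obtain ⟨r6, hr6, h6⟩ := T0B C hC k b N hk hN
  refine ⟨10 * (C1 + C2 + C3 + C4 + C5), min (min (min r1 r2) (min r3 r4)) (min r5 r6),
    by positivity, by positivity, ?_⟩
  intro r hr0 hr mu ast V h hmu1 hmu2 T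
  have hr1' : r < r1 := hr.trans_le ((min_le_left _ _).trans ((min_le_left _ _).trans
    (min_le_left _ _)))
  have hr2' : r < r2 := hr.trans_le ((min_le_left _ _).trans ((min_le_left _ _).trans
    (min_le_right _ _)))
  have hr3' : r < r3 := hr.trans_le ((min_le_left _ _).trans ((min_le_right _ _).trans
    (min_le_left _ _)))
  have hr4' : r < r4 := hr.trans_le ((min_le_left _ _).trans ((min_le_right _ _).trans
    (min_le_right _ _)))
  have hr5' : r < r5 := hr.trans_le ((min_le_right _ _).trans (min_le_left _ _))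
  have hr6' : r < r6 := hr.trans_le ((min_le_right _ _).trans (min_le_right _ _))
  obtain ⟨ps, hps, hen⟩ := h6 r hr0 hr6' mu ast V h hmu1 hmu2 T
  refine ⟨ps, hps, ?_⟩
  intro pt hpt hpt1 z w w' W
  have hps7 : -(7 / 5) ≤ ps := by
    have := hps.1
    linarith
  have hpt7 : pt ≤ 7 / 5 := by linarith
  have hYY : (2 : ℝ) ≤ YY := by
    unfold YY
    norm_num
  have hwc : Continuous w := continuous_iff_continuousAt.2 fun p => (W.hw p).continuousAt
  have hmu0 : 0 < mu := lt_of_lt_of_le (by positivity) hmu1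
  have hF := t1b_cont T hwc
  have hF0 : ∀ p y, 0 ≤ w p * en ⟨r, k, b⟩ mu V p y := by
    intro p y
    have hwp : 0 < w p := (W.zpos p).trans_le (W.zw p)
    have hmd := md_nonneg ⟨r, k, b⟩ hr0 y
    unfold en
    positivity
  have hS : 0 ≤ II ps pt (-YY) YY (fun p y => z p * (|V.wp p y| * |h p y|)) :=
    II_nonneg hpt (by linarith) fun p _ y _ => by
      have := W.zpos p
      positivity
  have hLU := h1 r hr0 hr1' mu ast V h hmu1 hmu2 T ps pt hps hpt hpt1 z w w' W hen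
  have hLL := h2 r hr0 hr2' mu ast V h hmu1 hmu2 T ps pt hps hpt hpt1 z w w' W hen
  have hTU := h3 r hr0 hr3' mu ast V h hmu1 hmu2 T ps pt hps7 hpt hpt1 z w w' W
  have hTL := h4 r hr0 hr4' mu ast V h hmu1 hmu2 T ps pt hps7 hpt hpt1 z w w' W
  have hM := h5 r hr0 hr5' mu ast V h hmu1 hmu2 T ps pt hps hpt hpt1 z w w' W hen
  have hfull1 := II_split_y hpt (c := -YY) (d := YY) (e := -2) (by linarith) (by linarith)
    (t1b_sub hps7 hpt7 le_rfl le_rfl hF)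
  have hfull2 := II_split_y hpt (c := -2) (d := YY) (e := 2) (by norm_num) hYY
    (t1b_sub hps7 hpt7 (by linarith) le_rfl hF)
  have hcore1 := II_split_y hpt (c := -2) (d := 2) (e := -1) (by norm_num) (by norm_num)
    (t1b_sub hps7 hpt7 (by linarith) hYY hF)
  have hcore2 := II_split_y hpt (c := -1) (d := 2) (e := 1) (by norm_num) (by norm_num)
    (t1b_sub hps7 hpt7 (by linarith) hYY hF)
  have hmid : 0 ≤ II ps pt (-1) 1 (fun p y => w p * en ⟨r, k, b⟩ mu V p y) :=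
    II_nonneg hpt (by norm_num) fun p _ y _ => hF0 p y
  exact t1b_arith hS (pow_nonneg hr0.le N) hC1 hC2 hC3 hC4 hC5 (by linarith) (by linarith) hLU hLL
    hTU hTL hM

end

end P229
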