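import Vale.Agent.P229.T.CoefB

/-!
# P229 block T: the exact identity with multiplier `z(p) v_p`  (module T_T1ID)
-/

namespace P229

open Set Real MeasureTheory
open scoped ContDiff

noncomputable section

/-- Pointwise, with `g = v_y + t v_p` and `z' = -w`:
`z v_p (L v) = ∂_y (z v_p g) + ∂_p (z t v_p g - z g^2/2 - z a v_p^2/2) + R`,
`R = -w g^2/2 - w a v_p^2/2 - z ap v_p^2/2 + w t v_p g + z (d v_p^2 + g2 g v_p)`.
Integrate with `II_dy`, `II_dp`. -/
theorem t1id {P : Par} {mu C : ℝ} {ast : ℝ → ℝ} {V : J2}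
    (jet : V.IsJet (-(7 / 5)) (7 / 5) (-YY) YY) {κ : Coef} (hκ : κ.Good P mu C ast)
    {a b c d : ℝ} (ha : -(7 / 5) ≤ a) (hab : a ≤ b) (hb : b ≤ 7 / 5)
    (hc : -YY ≤ c) (hcd : c ≤ d) (hd : d ≤ YY)
    {z w : ℝ → ℝ} (hz : ∀ p, HasDerivAt z (-w p) p) (cw : Continuous w) :
    II a b c d (fun p y => z p * V.wp p y * κ.L V p y)
      = (∫ p in a..b, z p * (V.wp p d * κ.gd V p d - V.wp p c * κ.gd V p c))
        + (∫ y in c..d,
            (z b * (κ.t b y * V.wp b y * κ.gd V b y - 1 / 2 * κ.gd V b y ^ 2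
                - 1 / 2 * κ.a b y * V.wp b y ^ 2)
              - z a * (κ.t a y * V.wp a y * κ.gd V a y - 1 / 2 * κ.gd V a y ^ 2
                - 1 / 2 * κ.a a y * V.wp a y ^ 2)))
        + II a b c d (fun p y =>
            -(1 / 2 * w p * κ.gd V p y ^ 2) - 1 / 2 * w p * κ.a p y * V.wp p y ^ 2
              - 1 / 2 * z p * κ.ap p y * V.wp p y ^ 2
              + w p * κ.t p y * V.wp p y * κ.gd V p y
              + z p * (κ.d p y * V.wp p y ^ 2 + κ.g p y * κ.gd V p y * V.wp p y)) := by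
  have hz_c : Continuous z := continuous_iff_continuousAt.2 fun p => (hz p).continuousAt
  have hv : V.IsJet a b c d := jet.mono ha hb hc hd
  have hcj := hκ.coefJet0.mono ha hb hc hd
  have cz : CR a b c d (fun p _ => z p) := CR.ofP hz_c.continuousOn
  have cz' : CR a b c d (fun p _ => w p) := CR.ofP cw.continuousOn
  have cwp : CR a b c d V.wp := hv.cwp
  have cg : CR a b c d (κ.gd V) := cr_gD hv hcj
  have cL0 := cr_L0 hv hcj
  have cd' : CR a b c d κ.d := hκ.cr_d ha hb hc hd
  have cg' : CR a b c d κ.g := hκ.cr_g ha hb hc hd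
  have ct : CR a b c d κ.t := hcj.ctau
  have ctp : CR a b c d κ.tp := hcj.ctaup
  have ca : CR a b c d κ.a := hcj.cal
  have cap : CR a b c d κ.ap := hcj.calp
  have key := ident1g hab hcd hv hcj (z := z) (z' := fun p => -w p) hz_c.continuousOn
    cw.neg.continuousOn (fun p _ => hz p)
  have T1 : CR a b c d (fun p y => z p * V.wp p y * L0 V κ.t κ.tp κ.ty κ.a κ.ap p y) :=
    (cz.mul cwp).mul cL0
  have T2 : CR a b c d (fun p y => z p * (κ.d p y * V.wp p y ^ 2
      + κ.g p y * κ.gd V p y * V.wp p y)) :=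
    cz.mul ((cd'.mul (cwp.pow 2)).add ((cg'.mul cg).mul cwp))
  have e0 : II a b c d (fun p y => z p * V.wp p y * κ.L V p y)
      = II a b c d (fun p y => z p * V.wp p y * L0 V κ.t κ.tp κ.ty κ.a κ.ap p y)
        + II a b c d (fun p y => z p * (κ.d p y * V.wp p y ^ 2
            + κ.g p y * κ.gd V p y * V.wp p y)) := by
    rw [← II_add hab hcd T1 T2]
    apply II_congr hab hcd
    intro p _ y _
    rw [Coef.L_eq0]; ring
  have R1 : CR a b c d (fun p y => -w p * (gD V κ.t p y ^ 2 / 2 + κ.a p y * V.wp p y ^ 2 / 2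
            - κ.t p y * V.wp p y * gD V κ.t p y)) := by
    have := cz'.neg.mul ((((cg.pow 2).mul (CR.const a b c d (1 / 2))).add
      ((ca.mul (cwp.pow 2)).mul (CR.const a b c d (1 / 2)))).sub ((ct.mul cwp).mul cg))
    refine ContinuousOn.congr this (fun q _ => ?_)
    simp only [Function.uncurry, Coef.gd_eq0]; ring
  have R2 : CR a b c d (fun p y => (1 / 2) * (z p * κ.ap p y * V.wp p y ^ 2)) :=
    (CR.const a b c d _).mul ((cz.mul cap).mul (cwp.pow 2))
  have e1 : II a b c d (fun p y =>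
            -(1 / 2 * w p * κ.gd V p y ^ 2) - 1 / 2 * w p * κ.a p y * V.wp p y ^ 2
              - 1 / 2 * z p * κ.ap p y * V.wp p y ^ 2
              + w p * κ.t p y * V.wp p y * κ.gd V p y
              + z p * (κ.d p y * V.wp p y ^ 2 + κ.g p y * κ.gd V p y * V.wp p y))
      = II a b c d (fun p y => -w p * (gD V κ.t p y ^ 2 / 2 + κ.a p y * V.wp p y ^ 2 / 2
            - κ.t p y * V.wp p y * gD V κ.t p y))
        - (1 / 2) * II a b c d (fun p y => z p * κ.ap p y * V.wp p y ^ 2)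
        + II a b c d (fun p y => z p * (κ.d p y * V.wp p y ^ 2
            + κ.g p y * κ.gd V p y * V.wp p y)) := by
    rw [← II_smul, ← II_sub hab hcd R1 R2, ← II_add hab hcd (R1.sub R2) T2]
    apply II_congr hab hcd
    intro p _ y _
    simp only [Coef.gd_eq0]; ring
  have bd : ∀ {q : ℝ}, q ∈ Icc c d → IntervalIntegrable (fun p => z p * V.wp p q * κ.gd V p q)
      volume a b := fun {q} hq =>
    (((cz.mul cwp).mul cg).outer hq).intervalIntegrable_of_Icc hab
  have e2 : (∫ p in a..b, z p * (V.wp p d * κ.gd V p d - V.wp p c * κ.gd V p c))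
      = (∫ p in a..b, z p * V.wp p d * κ.gd V p d) - ∫ p in a..b, z p * V.wp p c * κ.gd V p c := by
    rw [← intervalIntegral.integral_sub (bd (right_mem_Icc.2 hcd)) (bd (left_mem_Icc.2 hcd))]
    apply intervalIntegral.integral_congr
    intro p _
    ring
  have cs : CR a b c d (fun p y => z p * (gD V κ.t p y ^ 2 / 2 + κ.a p y * V.wp p y ^ 2 / 2
            - κ.t p y * V.wp p y * gD V κ.t p y)) := by
    have := cz.mul ((((cg.pow 2).mul (CR.const a b c d (1 / 2))).add
      ((ca.mul (cwp.pow 2)).mul (CR.const a b c d (1 / 2)))).sub ((ct.mul cwp).mul cg))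
    refine ContinuousOn.congr this (fun q _ => ?_)
    simp only [Function.uncurry, Coef.gd_eq0]; ring
  have sd : ∀ {q : ℝ}, q ∈ Icc a b → IntervalIntegrable
      (fun y => z q * (gD V κ.t q y ^ 2 / 2 + κ.a q y * V.wp q y ^ 2 / 2
            - κ.t q y * V.wp q y * gD V κ.t q y))
      volume c d := fun {q} hq => cs.inner_integrable hcd hq
  have e3 : (∫ y in c..d,
            (z b * (κ.t b y * V.wp b y * κ.gd V b y - 1 / 2 * κ.gd V b y ^ 2
                - 1 / 2 * κ.a b y * V.wp b y ^ 2)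
              - z a * (κ.t a y * V.wp a y * κ.gd V a y - 1 / 2 * κ.gd V a y ^ 2
                - 1 / 2 * κ.a a y * V.wp a y ^ 2)))
      = (∫ y in c..d, z a * (gD V κ.t a y ^ 2 / 2 + κ.a a y * V.wp a y ^ 2 / 2
            - κ.t a y * V.wp a y * gD V κ.t a y))
        - ∫ y in c..d, z b * (gD V κ.t b y ^ 2 / 2 + κ.a b y * V.wp b y ^ 2 / 2
            - κ.t b y * V.wp b y * gD V κ.t b y) := by
    rw [← intervalIntegral.integral_sub (sd (left_mem_Icc.2 hab)) (sd (right_mem_Icc.2 hab))]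
    apply intervalIntegral.integral_congr
    intro y _
    simp only [Coef.gd_eq0]
    ring
  have key' : II a b c d (fun p y => z p * V.wp p y * L0 V κ.t κ.tp κ.ty κ.a κ.ap p y)
      = (∫ p in a..b, z p * V.wp p d * κ.gd V p d)
        - (∫ p in a..b, z p * V.wp p c * κ.gd V p c)
        + II a b c d (fun p y => -w p * (gD V κ.t p y ^ 2 / 2 + κ.a p y * V.wp p y ^ 2 / 2
            - κ.t p y * V.wp p y * gD V κ.t p y))
        - II a b c d (fun p y => z p * κ.ap p y * V.wp p y ^ 2) / 2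
        - (∫ y in c..d, z b * (gD V κ.t b y ^ 2 / 2 + κ.a b y * V.wp b y ^ 2 / 2
            - κ.t b y * V.wp b y * gD V κ.t b y))
        + ∫ y in c..d, z a * (gD V κ.t a y ^ 2 / 2 + κ.a a y * V.wp a y ^ 2 / 2
            - κ.t a y * V.wp a y * gD V κ.t a y) := key
  rw [e0, e1, e2, e3, key']
  ring

end

end P229
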