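import Vale.Agent.P229.Defs

/-!
# P229 block T (and F): abstract linear problem   (helper72)
`V = u - U` (explicit 2-jet), `h = E0(u) - E0(U)`.  `Coef` = coefficient functions of the
linearised operator `L_s` (the parameter `s` is chosen by the mean value theorem and may depend on
the multiplier), `Coef.Good` their bounds, `TData` the data used by the energy estimates.
-/

namespace P229

open Set Real
open scoped ContDiff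

noncomputable section

/-- total strength of the profiles: `md y = eps chi y + epsc kk y`. -/
def md (P : Par) (y : ℝ) : ℝ := P.eps * chi y + P.epsc * kk y

/-- iterated integral over a rectangle. -/
def II (a b c d : ℝ) (f : ℝ → ℝ → ℝ) : ℝ := ∫ p in a..b, ∫ y in c..d, f p y

/-- coefficient functions of `L v = D (D v) - (a v_p)_p + d v_p + g (D v)`, `D = ∂_y + t ∂_p`. -/
structure Coef where
  t : ℝ → ℝ → ℝ
  tp : ℝ → ℝ → ℝ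
  ty : ℝ → ℝ → ℝ
  a : ℝ → ℝ → ℝ
  ap : ℝ → ℝ → ℝ
  d : ℝ → ℝ → ℝ
  g : ℝ → ℝ → ℝ

/-- `g = D v = v_y + t v_p`. -/
def Coef.gd (κ : Coef) (V : J2) (p y : ℝ) : ℝ := V.wy p y + κ.t p y * V.wp p y

/-- the linearised operator. -/
def Coef.L (κ : Coef) (V : J2) (p y : ℝ) : ℝ :=
  V.wyy p y + 2 * κ.t p y * V.wpy p y + κ.t p y ^ 2 * V.wpp p y
    + (κ.ty p y + κ.t p y * κ.tp p y) * V.wp p y
    - (κ.ap p y * V.wp p y + κ.a p y * V.wpp p y)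
    + κ.d p y * V.wp p y + κ.g p y * κ.gd V p y

/-- the closed strip. -/
def strip : Set (ℝ × ℝ) := Icc (-(7 / 5) : ℝ) (7 / 5) ×ˢ Icc (-YY) YY

/-- bounds of the coefficients. `ast` is a function of `y` only (value of `a` for `u` at `p=0`). -/
structure Coef.Good (κ : Coef) (P : Par) (mu C : ℝ) (ast : ℝ → ℝ) : Prop where
  ct : ContinuousOn (Function.uncurry κ.t) strip
  ctp : ContinuousOn (Function.uncurry κ.tp) strip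
  cty : ContinuousOn (Function.uncurry κ.ty) strip
  ca : ContinuousOn (Function.uncurry κ.a) strip
  cap : ContinuousOn (Function.uncurry κ.ap) strip
  cd : ContinuousOn (Function.uncurry κ.d) strip
  cg : ContinuousOn (Function.uncurry κ.g) strip
  htp : ∀ p ∈ Ioo (-(7 / 5) : ℝ) (7 / 5), ∀ y ∈ Icc (-YY) YY,
    HasDerivAt (fun q => κ.t q y) (κ.tp p y) p
  hty : ∀ p ∈ Icc (-(7 / 5) : ℝ) (7 / 5), ∀ y ∈ Ioo (-YY) YY,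
    HasDerivAt (fun q => κ.t p q) (κ.ty p y) y
  hap : ∀ p ∈ Ioo (-(7 / 5) : ℝ) (7 / 5), ∀ y ∈ Icc (-YY) YY,
    HasDerivAt (fun q => κ.a q y) (κ.ap p y) p
  bt : ∀ p ∈ Icc (-(7 / 5) : ℝ) (7 / 5), ∀ y ∈ Icc (-YY) YY, |κ.t p y| ≤ C * P.r ^ 2 * md P y
  btp : ∀ p ∈ Icc (-(7 / 5) : ℝ) (7 / 5), ∀ y ∈ Icc (-YY) YY, |κ.tp p y| ≤ C * P.r ^ 2 * md P y
  bd : ∀ p ∈ Icc (-(7 / 5) : ℝ) (7 / 5), ∀ y ∈ Icc (-YY) YY, |κ.d p y| ≤ C * P.r ^ 2 * md P y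
  bg : ∀ p ∈ Icc (-(7 / 5) : ℝ) (7 / 5), ∀ y ∈ Icc (-YY) YY,
    κ.g p y ^ 2 ≤ C * P.r ^ 4 * P.eps * md P y
  ba : ∀ p ∈ Icc (-(7 / 5) : ℝ) (7 / 5), ∀ y ∈ Icc (-YY) YY, |κ.a p y| ≤ 2 * mu * md P y
  /-- filter strips -/
  lay1 : ∀ p ∈ Icc (-(7 / 5) : ℝ) (7 / 5), ∀ y ∈ Icc (-YY) YY, 2 ≤ |y| →
    κ.a p y ≤ -(99 / 100 * mu * md P y) ∧ -(101 / 100 * mu * md P y) ≤ κ.a p y
  lay2 : ∀ p ∈ Icc (-(7 / 5) : ℝ) (7 / 5), ∀ y ∈ Icc (-YY) YY, 2 ≤ |y| →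
    |κ.ap p y| ≤ C * P.r ^ 2 * md P y
  /-- core, elliptic ends -/
  core0 : ∀ p ∈ Icc (-(7 / 5) : ℝ) (7 / 5), ∀ y : ℝ, 6 / 5 ≤ |p| → |y| ≤ 2 →
    κ.a p y ≤ -(29 / 100 * mu * md P y)
  /-- core, positivity of the multiplier (left and right) -/
  core1 : ∀ p ∈ Icc (-(27 / 20) : ℝ) (1 / 100), ∀ y : ℝ, |y| ≤ 2 →
    4 / 5 * mu * md P y ≤ κ.a p y + κ.ap p y
  core1' : ∀ p ∈ Icc (-(1 / 100) : ℝ) (27 / 20), ∀ y : ℝ, |y| ≤ 2 →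
    4 / 5 * mu * md P y ≤ κ.a p y - κ.ap p y
  /-- core, hyperbolic part -/
  core2 : ∀ p ∈ Icc (-(9 / 20) : ℝ) (9 / 20), ∀ y : ℝ, |y| ≤ 2 →
    7 / 10 * mu * md P y ≤ κ.a p y
  /-- closeness to `ast` near `p = 0` -/
  near : ∀ p : ℝ, |p| ≤ 3 * P.W1 → ∀ y ∈ Icc (-YY) YY,
    |κ.a p y - ast y| ≤ C * P.W1 * md P y

/-- Data for the energy estimates. -/
structure TData (P : Par) (mu C : ℝ) (N : ℕ) (ast : ℝ → ℝ) (V : J2) (h : ℝ → ℝ → ℝ) : Prop where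
  jet : V.IsJet (-(7 / 5)) (7 / 5) (-YY) YY
  top : ∀ p ∈ Icc (-(7 / 5) : ℝ) (7 / 5), V.w p YY = 0
  bot : ∀ p ∈ Icc (-(7 / 5) : ℝ) (7 / 5), V.w p (-YY) = 0
  bw : ∀ p ∈ Icc (-(7 / 5) : ℝ) (7 / 5), ∀ y ∈ Icc (-YY) YY,
    |V.w p y| ≤ 1 ∧ |V.wp p y| ≤ 1 ∧ |V.wy p y| ≤ 1
  ch : ContinuousOn (Function.uncurry h) strip
  hsmall : ∀ p ∈ Icc (-(7 / 5) : ℝ) (7 / 5), ∀ y ∈ Icc (-YY) YY,
    (2 * P.lam ≤ |p| ∨ P.lam ≤ |y|) → |h p y| ≤ P.r ^ N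
  hbump : ∀ p ∈ Icc (-(7 / 5) : ℝ) (7 / 5), ∀ y ∈ Icc (-YY) YY,
    |h p y| ≤ C * (P.eta * P.epsc) + P.r ^ N
  gap : ∀ p ∈ Icc (-(7 / 5) : ℝ) (7 / 5), ∀ y : ℝ, 1 ≤ |y| → |y| ≤ 2 → V.wyy p y = h p y
  /-- the equation `L v = h`, weakly, with coefficients depending on the multiplier -/
  weak : ∀ a b c d : ℝ, -(7 / 5) ≤ a → a ≤ b → b ≤ 7 / 5 → -YY ≤ c → c ≤ d → d ≤ YY →
    ∀ φ : ℝ → ℝ → ℝ, ContinuousOn (Function.uncurry φ) (Icc a b ×ˢ Icc c d) →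
      ∃ κ : Coef, κ.Good P mu C ast ∧
        II a b c d (fun p y => φ p y * κ.L V p y) = II a b c d (fun p y => φ p y * h p y)

/-- energy density (with weight `mu`). -/
def en (P : Par) (mu : ℝ) (V : J2) (p y : ℝ) : ℝ :=
  V.wy p y ^ 2 + mu * md P y * V.wp p y ^ 2

/-- the window of the exponential weights: `W = K s`, `K = 10^5 C^2`. -/
def KW (C : ℝ) : ℝ := 10 ^ 5 * C ^ 2
def WW (P : Par) (C : ℝ) : ℝ := KW C * P.s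

/-- Abstract weight `z` (decreasing, `w = -z'`), see notes/P229.md section 7. -/
structure Wt (P : Par) (C : ℝ) (N : ℕ) (pt : ℝ) (z w w' : ℝ → ℝ) : Prop where
  hz : ∀ p, HasDerivAt z (-w p) p
  hw : ∀ p, HasDerivAt w (w' p) p
  cw' : Continuous w'
  zpos : ∀ p, 0 < z p
  zw : ∀ p, z p ≤ w p
  w'b : ∀ p, |w' p| ≤ 3 / WW P C * w p
  zle : ∀ p, -(7 / 5) ≤ p → z p ≤ 10
  far : ∀ p, -(7 / 5) ≤ p → p ≤ -(9 / 20) → w p ≤ 1005 / 1000 * z p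
  endw : w pt ≤ P.r ^ N

end

end P229
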