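import Vale.Agent.P229.T.CoefB

/-!
# P229 block T: the exact identity with multiplier `om(p) v`  (module T_VID)
-/

namespace P229

open Set Real MeasureTheory
open scoped ContDiff

noncomputable section

/-- Pointwise: `om v (L v) = ∂_y (om v g) + ∂_p (om t v g - om a v v_p) + R`, with
`R = - om g^2 + om a v_p^2 - (om' t + om tp) v g + om' a v v_p + om v (d v_p + g2 g)`.
Integrate with `II_dy`, `II_dp`. -/
theorem vid {P : Par} {mu C : ℝ} {ast : ℝ → ℝ} {V : J2}
    (jet : V.IsJet (-(7 / 5)) (7 / 5) (-YY) YY) {κ : Coef} (hκ : κ.Good P mu C ast)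
    {a b c d : ℝ} (ha : -(7 / 5) ≤ a) (hab : a ≤ b) (hb : b ≤ 7 / 5)
    (hc : -YY ≤ c) (hcd : c ≤ d) (hd : d ≤ YY)
    {om om' : ℝ → ℝ} (hom : ∀ p, HasDerivAt om (om' p) p) (com' : Continuous om') :
    II a b c d (fun p y => om p * V.w p y * κ.L V p y)
      = (∫ p in a..b, om p * (V.w p d * κ.gd V p d - V.w p c * κ.gd V p c))
        + (∫ y in c..d,
            (om b * (κ.t b y * V.w b y * κ.gd V b y - κ.a b y * V.w b y * V.wp b y)
              - om a * (κ.t a y * V.w a y * κ.gd V a y - κ.a a y * V.w a y * V.wp a y)))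
        + II a b c d (fun p y =>
            -(om p * κ.gd V p y ^ 2) + om p * κ.a p y * V.wp p y ^ 2
              - (om' p * κ.t p y + om p * κ.tp p y) * V.w p y * κ.gd V p y
              + om' p * κ.a p y * V.w p y * V.wp p y
              + om p * V.w p y * (κ.d p y * V.wp p y + κ.g p y * κ.gd V p y)) := by
  have hom_c : Continuous om := continuous_iff_continuousAt.2 fun p => (hom p).continuousAt
  have hv : V.IsJet a b c d := jet.mono ha hb hc hd
  have hcj := hκ.coefJet0.mono ha hb hc hd
  have cz : CR a b c d (fun p _ => om p) := CR.ofP hom_c.continuousOn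
  have cz' : CR a b c d (fun p _ => om' p) := CR.ofP com'.continuousOn
  have cw : CR a b c d V.w := hv.cw
  have cwp : CR a b c d V.wp := hv.cwp
  have cg : CR a b c d (κ.gd V) := cr_gD hv hcj
  have cL0 := cr_L0 hv hcj
  have cd' : CR a b c d κ.d := hκ.cr_d ha hb hc hd
  have cg' : CR a b c d κ.g := hκ.cr_g ha hb hc hd
  have ct : CR a b c d κ.t := hcj.ctau
  have ctp : CR a b c d κ.tp := hcj.ctaup
  have ca : CR a b c d κ.a := hcj.cal
  have key := ident2 hab hcd hv hcj (z := om) (z' := om') hom_c.continuousOn com'.continuousOn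
    (fun p _ => hom p)
  have T1 : CR a b c d (fun p y => om p * V.w p y * L0 V κ.t κ.tp κ.ty κ.a κ.ap p y) :=
    (cz.mul cw).mul cL0
  have T2 : CR a b c d (fun p y => om p * V.w p y * (κ.d p y * V.wp p y + κ.g p y * κ.gd V p y)) :=
    (cz.mul cw).mul ((cd'.mul cwp).add (cg'.mul cg))
  have e0 : II a b c d (fun p y => om p * V.w p y * κ.L V p y)
      = II a b c d (fun p y => om p * V.w p y * L0 V κ.t κ.tp κ.ty κ.a κ.ap p y)
        + II a b c d (fun p y => om p * V.w p y
            * (κ.d p y * V.wp p y + κ.g p y * κ.gd V p y)) := by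
    rw [← II_add hab hcd T1 T2]
    apply II_congr hab hcd
    intro p _ y _
    rw [Coef.L_eq0]; ring
  have R1 : CR a b c d (fun p y => om p * κ.gd V p y ^ 2) := cz.mul (cg.pow 2)
  have R2 : CR a b c d (fun p y => om p * κ.a p y * V.wp p y ^ 2) := (cz.mul ca).mul (cwp.pow 2)
  have R3 : CR a b c d (fun p y => (om' p * κ.t p y + om p * κ.tp p y) * V.w p y * κ.gd V p y) :=
    (((cz'.mul ct).add (cz.mul ctp)).mul cw).mul cg
  have R4 : CR a b c d (fun p y => om' p * κ.a p y * V.w p y * V.wp p y) :=
    ((cz'.mul ca).mul cw).mul cwp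
  have e1 : II a b c d (fun p y =>
            -(om p * κ.gd V p y ^ 2) + om p * κ.a p y * V.wp p y ^ 2
              - (om' p * κ.t p y + om p * κ.tp p y) * V.w p y * κ.gd V p y
              + om' p * κ.a p y * V.w p y * V.wp p y
              + om p * V.w p y * (κ.d p y * V.wp p y + κ.g p y * κ.gd V p y))
      = - II a b c d (fun p y => om p * κ.gd V p y ^ 2)
        + II a b c d (fun p y => om p * κ.a p y * V.wp p y ^ 2)
        - II a b c d (fun p y => (om' p * κ.t p y + om p * κ.tp p y) * V.w p y * κ.gd V p y)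
        + II a b c d (fun p y => om' p * κ.a p y * V.w p y * V.wp p y)
        + II a b c d (fun p y => om p * V.w p y
            * (κ.d p y * V.wp p y + κ.g p y * κ.gd V p y)) := by
    rw [II_add hab hcd (((R1.neg.add R2).sub R3).add R4) T2, II_add hab hcd ((R1.neg.add R2).sub R3) R4,
      II_sub hab hcd (R1.neg.add R2) R3, II_add hab hcd R1.neg R2]
    congr 4
    exact I2_neg a b c d _
  have bd : ∀ {q : ℝ}, q ∈ Icc c d → IntervalIntegrable (fun p => om p * V.w p q * κ.gd V p q)
      volume a b := fun {q} hq =>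
    (((cz.mul cw).mul cg).outer hq).intervalIntegrable_of_Icc hab
  have e2 : (∫ p in a..b, om p * (V.w p d * κ.gd V p d - V.w p c * κ.gd V p c))
      = (∫ p in a..b, om p * V.w p d * κ.gd V p d) - ∫ p in a..b, om p * V.w p c * κ.gd V p c := by
    rw [← intervalIntegral.integral_sub (bd (right_mem_Icc.2 hcd)) (bd (left_mem_Icc.2 hcd))]
    apply intervalIntegral.integral_congr
    intro p _
    ring
  have cs : CR a b c d (fun p y => om p * V.w p y * (κ.t p y * κ.gd V p y - κ.a p y * V.wp p y)) :=
    (cz.mul cw).mul ((ct.mul cg).sub (ca.mul cwp))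
  have sd : ∀ {q : ℝ}, q ∈ Icc a b → IntervalIntegrable
      (fun y => om q * V.w q y * (κ.t q y * κ.gd V q y - κ.a q y * V.wp q y))
      volume c d := fun {q} hq => cs.inner_integrable hcd hq
  have e3 : (∫ y in c..d,
            (om b * (κ.t b y * V.w b y * κ.gd V b y - κ.a b y * V.w b y * V.wp b y)
              - om a * (κ.t a y * V.w a y * κ.gd V a y - κ.a a y * V.w a y * V.wp a y)))
      = (∫ y in c..d, om b * V.w b y * (κ.t b y * κ.gd V b y - κ.a b y * V.wp b y))
        - ∫ y in c..d, om a * V.w a y * (κ.t a y * κ.gd V a y - κ.a a y * V.wp a y) := by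
    rw [← intervalIntegral.integral_sub (sd (right_mem_Icc.2 hab)) (sd (left_mem_Icc.2 hab))]
    apply intervalIntegral.integral_congr
    intro y _
    ring
  have key' : II a b c d (fun p y => om p * V.w p y * L0 V κ.t κ.tp κ.ty κ.a κ.ap p y)
      = - II a b c d (fun p y => om p * κ.gd V p y ^ 2)
        + II a b c d (fun p y => om p * κ.a p y * V.wp p y ^ 2)
        + II a b c d (fun p y => om' p * κ.a p y * V.w p y * V.wp p y)
        - II a b c d (fun p y => (om' p * κ.t p y + om p * κ.tp p y) * V.w p y * κ.gd V p y)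
        + (∫ p in a..b, om p * V.w p d * κ.gd V p d)
        - (∫ p in a..b, om p * V.w p c * κ.gd V p c)
        + (∫ y in c..d, om b * V.w b y * (κ.t b y * κ.gd V b y - κ.a b y * V.wp b y))
        - ∫ y in c..d, om a * V.w a y * (κ.t a y * κ.gd V a y - κ.a a y * V.wp a y) := key
  rw [e0, e1, e2, e3, key']
  ring

end

end P229
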